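import Claimed.Agent.R282.S34.H.Knot

/-!
# Row 282, package H (Prop 4.4, monotonicity at a knot): glue

`h34_J_knot` (= contract `s34_J_knot` of `S34/Contracts.lean`) is PROVED here from the contracts of `H/Knot.lean`:
matching lemma `h34_partner`, the label inequalities `h34_lab_SS`, `h34_lab_PS`, `h34_lab_PP`, the symmetry `P ↔ Pᶜ`.

No partition into "units" is needed: since the partner involution `π` permutes `P` and `Pᶜ`,
`∑_{i ∈ P, j ∈ Pᶜ} A i j = 1/4 ∑ (A i j + A (π i) j + A i (π j) + A (π i) (π j))`.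
-/

set_option autoImplicit false

namespace Claimed.Agent.R282

variable {n : ℕ}

theorem h34_axSum_eq (f : Lab n → Lab n → ℝ) (i j : Fin n) :
    axSum f i j = f (i, true) (j, true) + f (i, true) (j, false) + f (i, false) (j, true)
      + f (i, false) (j, false) := by
  simp only [axSum, Fintype.sum_bool]
  ring

/-- (H6) two unused axes -/
theorem h34_SS (lam xi : Vec n) (θ : Shape n) (w0 : WD n) (l : List (ℝ × RootD n))
    (P : Finset (Fin n)) (X : ExcCtx lam θ xi w0 l P) (τ : ℝ) (hτ : ∃ p ∈ l, p.1 = τ)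
    (π : Equiv.Perm (Fin n)) (hπ : IsPartner l τ P π) (i j : Fin n) (hi : i ∈ P) (hj : j ∉ P)
    (hi' : π i = i) (hj' : π j = j) : 0 ≤ axSum (dJ θ ⟨w0.act, lam⟩ l τ) i j := by
  have ui := h34_unused_of_fix l P τ π hπ i hi'
  have uj := h34_unused_of_fix l P τ π hπ j hj'
  have key : ∀ s s' : Bool, 0 ≤ dJ θ ⟨w0.act, lam⟩ l τ (i, s) (j, s') := fun s s' =>
    h34_lab_SS lam xi θ w0 l P X τ hτ (i, s) (j, s') (iff_of_true hi hj) ui uj
  rw [h34_axSum_eq]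
  have := key true true
  have := key true false
  have := key false true
  have := key false false
  linarith

/-- (H7) a pair and an unused axis -/
theorem h34_PS (lam xi : Vec n) (θ : Shape n) (w0 : WD n) (l : List (ℝ × RootD n))
    (P : Finset (Fin n)) (X : ExcCtx lam θ xi w0 l P) (τ : ℝ) (_hτ : ∃ p ∈ l, p.1 = τ)
    (π : Equiv.Perm (Fin n)) (hπ : IsPartner l τ P π) (i j : Fin n) (hi : i ∈ P) (hj : j ∉ P)
    (hi' : π i ≠ i) (hj' : π j = j) :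
    0 ≤ axSum (dJ θ ⟨w0.act, lam⟩ l τ) i j + axSum (dJ θ ⟨w0.act, lam⟩ l τ) (π i) j := by
  have uj := h34_unused_of_fix l P τ π hπ j hj'
  obtain ⟨⟨ai, sa⟩, ⟨bi, sb⟩, hT, ha, hb⟩ := h34_transfer_exists lam xi θ w0 l P X τ π hπ i hi'
  simp only at ha hb
  subst ha
  have hbP : bi ∈ P := by rw [hb]; exact (hπ.pres ai).2 hi
  have hT' := h34_transfer_opp l τ _ _ hT
  have k1 : ∀ s' : Bool, 0 ≤ dJ θ ⟨w0.act, lam⟩ l τ (ai, sa) (j, s')
      + dJ θ ⟨w0.act, lam⟩ l τ (bi, sb) (j, s') := fun s' =>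
    h34_lab_PS lam xi θ w0 l P X τ (ai, sa) (bi, sb) (j, s') hT uj (iff_of_true hi hj)
  have k2 : ∀ s' : Bool, 0 ≤ dJ θ ⟨w0.act, lam⟩ l τ (bi, !sb) (j, s')
      + dJ θ ⟨w0.act, lam⟩ l τ (ai, !sa) (j, s') := fun s' =>
    h34_lab_PS lam xi θ w0 l P X τ (bi, !sb) (ai, !sa) (j, s') hT' uj (iff_of_true hbP hj)
  rw [← hb, h34_axSum_eq, h34_axSum_eq]
  have a1 := k1 true
  have a2 := k1 false
  have a3 := k2 true
  have a4 := k2 false
  cases sa <;> cases sb <;> simp only [Bool.not_true, Bool.not_false] at a3 a4 <;> linarith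

/-- (H8) two pairs -/
theorem h34_PP (lam xi : Vec n) (θ : Shape n) (w0 : WD n) (l : List (ℝ × RootD n))
    (P : Finset (Fin n)) (X : ExcCtx lam θ xi w0 l P) (τ : ℝ) (_hτ : ∃ p ∈ l, p.1 = τ)
    (π : Equiv.Perm (Fin n)) (hπ : IsPartner l τ P π) (i j : Fin n) (hi : i ∈ P) (hj : j ∉ P)
    (hi' : π i ≠ i) (hj' : π j ≠ j) :
    0 ≤ axSum (dJ θ ⟨w0.act, lam⟩ l τ) i j + axSum (dJ θ ⟨w0.act, lam⟩ l τ) (π i) j
      + axSum (dJ θ ⟨w0.act, lam⟩ l τ) i (π j) + axSum (dJ θ ⟨w0.act, lam⟩ l τ) (π i) (π j) := by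
  obtain ⟨⟨ai, sa⟩, ⟨bi, sb⟩, hT, ha, hb⟩ := h34_transfer_exists lam xi θ w0 l P X τ π hπ i hi'
  obtain ⟨⟨ci, sc⟩, ⟨di, sd⟩, hU, hc, hd⟩ := h34_transfer_exists lam xi θ w0 l P X τ π hπ j hj'
  simp only at ha hb hc hd
  subst ha
  subst hc
  have hbP : bi ∈ P := by rw [hb]; exact (hπ.pres ai).2 hi
  have hdP : di ∉ P := by rw [hd]; exact fun h => hj ((hπ.pres ci).1 h)
  have hT' := h34_transfer_opp l τ _ _ hT
  have hU' := h34_transfer_opp l τ _ _ hU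
  have k1 := h34_lab_PP lam xi θ w0 l P X τ (ai, sa) (bi, sb) (ci, sc) (di, sd) hT hU
    (iff_of_true hi hj)
  have k2 := h34_lab_PP lam xi θ w0 l P X τ (ai, sa) (bi, sb) (di, !sd) (ci, !sc) hT hU'
    (iff_of_true hi hdP)
  have k3 := h34_lab_PP lam xi θ w0 l P X τ (bi, !sb) (ai, !sa) (ci, sc) (di, sd) hT' hU
    (iff_of_true hbP hj)
  have k4 := h34_lab_PP lam xi θ w0 l P X τ (bi, !sb) (ai, !sa) (di, !sd) (ci, !sc) hT' hU'
    (iff_of_true hbP hdP)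
  rw [← hb, ← hd, h34_axSum_eq, h34_axSum_eq, h34_axSum_eq, h34_axSum_eq]
  cases sa <;> cases sb <;> cases sc <;> cases sd <;>
    simp only [Bool.not_true, Bool.not_false] at k2 k3 k4 <;> linarith

theorem h34_axSum_symm (θ : Shape n) (S : SwState n) (l : List (ℝ × RootD n)) (τ : ℝ)
    (i j : Fin n) : axSum (dJ θ S l τ) i j = axSum (dJ θ S l τ) j i := by
  unfold axSum
  rw [Finset.sum_comm]
  exact Finset.sum_congr rfl fun s _ => Finset.sum_congr rfl fun s' _ => h34_dJ_symm _ _ _ _ _ _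

theorem h34_partner_compl {l : List (ℝ × RootD n)} {τ : ℝ} {P : Finset (Fin n)}
    {π : Equiv.Perm (Fin n)} (h : IsPartner l τ P π) : IsPartner l τ Pᶜ π :=
  ⟨h.invol, fun i => by simp [h.pres i], h.sw, h.fix⟩

theorem h34_crossSum_eq (P : Finset (Fin n)) (f : Lab n → Lab n → ℝ) :
    crossSum P f = (1 / 2 : ℝ) * ∑ i ∈ P, ∑ j ∈ Pᶜ, axSum f i j := by
  unfold crossSum axSum
  congr 1
  simp only [Finset.sum_product]
  refine Finset.sum_congr rfl fun i _ => ?_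
  exact Finset.sum_comm

/-- the local inequality in all four cases -/
theorem h34_local (lam xi : Vec n) (θ : Shape n) (w0 : WD n) (l : List (ℝ × RootD n))
    (P : Finset (Fin n)) (X : ExcCtx lam θ xi w0 l P) (τ : ℝ) (hτ : ∃ p ∈ l, p.1 = τ)
    (π : Equiv.Perm (Fin n)) (hπ : IsPartner l τ P π) (i j : Fin n) (hi : i ∈ P) (hj : j ∉ P) :
    0 ≤ axSum (dJ θ ⟨w0.act, lam⟩ l τ) i j + axSum (dJ θ ⟨w0.act, lam⟩ l τ) (π i) j
      + axSum (dJ θ ⟨w0.act, lam⟩ l τ) i (π j) + axSum (dJ θ ⟨w0.act, lam⟩ l τ) (π i) (π j) := by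
  by_cases hi' : π i = i
  · by_cases hj' : π j = j
    · have := h34_SS lam xi θ w0 l P X τ hτ π hπ i j hi hj hi' hj'
      rw [hi', hj']; linarith
    · have := h34_PS lam xi θ w0 l Pᶜ (h34_ctx_compl lam xi θ w0 l P X) τ hτ π
        (h34_partner_compl hπ) j i (by simpa using hj) (by simpa using hi) hj' hi'
      rw [h34_axSum_symm θ _ l τ j i, h34_axSum_symm θ _ l τ (π j) i] at this
      rw [hi']; linarith
  · by_cases hj' : π j = j
    · have := h34_PS lam xi θ w0 l P X τ hτ π hπ i j hi hj hi' hj'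
      rw [hj']; linarith
    · exact h34_PP lam xi θ w0 l P X τ hτ π hπ i j hi hj hi' hj'

theorem h34_sum_perm (P : Finset (Fin n)) (π : Equiv.Perm (Fin n)) (h : ∀ i, π i ∈ P ↔ i ∈ P)
    (g : Fin n → ℝ) : ∑ i ∈ P, g (π i) = ∑ i ∈ P, g i :=
  Finset.sum_equiv π (fun i => (h i).symm) (fun _ _ => rfl)

/-- **Prop 4.4** (contract `s34_J_knot`) from the contracts of `H/Knot.lean`. -/
theorem h34_J_knot (lam xi : Vec n) (θ : Shape n) (w0 : WD n) (l : List (ℝ × RootD n))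
    (P : Finset (Fin n)) (X : ExcCtx lam θ xi w0 l P) (τ : ℝ) (hτ : ∃ p ∈ l, p.1 = τ) :
    JMinus θ ⟨w0.act, lam⟩ l P (cntLt l τ) τ ≤ JPlus θ ⟨w0.act, lam⟩ l P (cntLe l τ) τ := by
  obtain ⟨π, hπ⟩ := h34_partner lam xi θ w0 l P X τ
  set A := axSum (dJ θ ⟨w0.act, lam⟩ l τ) with hA
  have hc : ∀ j, π j ∈ Pᶜ ↔ j ∈ Pᶜ := fun j => by simp [hπ.pres j]
  have h0 : 0 ≤ ∑ i ∈ P, ∑ j ∈ Pᶜ, (A i j + A (π i) j + A i (π j) + A (π i) (π j)) :=
    Finset.sum_nonneg fun i hi => Finset.sum_nonneg fun j hj =>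
      h34_local lam xi θ w0 l P X τ hτ π hπ i j hi (by simpa using hj)
  have e1 : ∑ i ∈ P, ∑ j ∈ Pᶜ, A (π i) j = ∑ i ∈ P, ∑ j ∈ Pᶜ, A i j :=
    h34_sum_perm P π hπ.pres (fun i => ∑ j ∈ Pᶜ, A i j)
  have e2 : ∑ i ∈ P, ∑ j ∈ Pᶜ, A i (π j) = ∑ i ∈ P, ∑ j ∈ Pᶜ, A i j :=
    Finset.sum_congr rfl fun i _ => h34_sum_perm Pᶜ π hc (fun j => A i j)
  have e3 : ∑ i ∈ P, ∑ j ∈ Pᶜ, A (π i) (π j) = ∑ i ∈ P, ∑ j ∈ Pᶜ, A i j := by
    rw [← e1]
    exact Finset.sum_congr rfl fun i _ => h34_sum_perm Pᶜ π hc (fun j => A (π i) j)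
  have h1 : 0 ≤ ∑ i ∈ P, ∑ j ∈ Pᶜ, A i j := by
    simp only [Finset.sum_add_distrib] at h0
    rw [e1, e2, e3] at h0
    linarith
  have h2 : crossSum P (dJ θ ⟨w0.act, lam⟩ l τ)
      = JPlus θ ⟨w0.act, lam⟩ l P (cntLe l τ) τ - JMinus θ ⟨w0.act, lam⟩ l P (cntLt l τ) τ := by
    unfold JPlus JMinus crossSum dJ
    simp only [Finset.sum_sub_distrib, mul_sub]
  have h3 := h34_crossSum_eq P (dJ θ ⟨w0.act, lam⟩ l τ)
  rw [h2] at h3
  have : 0 ≤ (1 / 2 : ℝ) * ∑ i ∈ P, ∑ j ∈ Pᶜ, A i j := by positivity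
  linarith

end Claimed.Agent.R282
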