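import Claimed.Agent.R282.S34.H.Disj
import Claimed.Agent.R282.S34.Lat.Phase

/-!
# Row 282, package H: the cluster of a knot   (helper22; leaves L-H-T, L-H-F1)

Tools on labels (`h34c_dot_labVec`, `h34c_axes`, `h34c_lv_refl`), on a cluster of simultaneous switches
(`h34c_cl_pos`, `h34c_cl_frame_off`, `h34c_cl_data`) and the knot facts F0-F3, F11 in the form consumed by `H/Knot.lean`
(`h34c_strict`, `h34c_cluster`, `h34c_pos_eq`, `h34c_unused`, `h34c_transfer`, ...).
-/

set_option autoImplicit false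

namespace Claimed.Agent.R282

variable {n : ℕ}

section CTools

theorem h34c_jPlus_symm (y v : Vec n) (ph : Fin n → ℝ) (a c : Lab n) :
    jPlus y v ph a c = jPlus y v ph c a := by
  unfold jPlus
  have e : (lv y a - lv y c) * (lv v a - lv v c) = (lv y c - lv y a) * (lv v c - lv v a) := by ring
  rw [e]
  by_cases h : (lv y c - lv y a) * (lv v c - lv v a) < 0
  · rw [if_pos h, if_pos h]
  · rw [if_neg h, if_neg h]
    by_cases h2 : lv y a = lv y c ∧ lv v a = lv v c
    · rw [if_pos h2, if_pos ⟨h2.1.symm, h2.2.symm⟩]; ring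
    · rw [if_neg h2, if_neg (fun h3 => h2 ⟨h3.1.symm, h3.2.symm⟩)]

theorem h34c_jMinus_symm (y v : Vec n) (ph : Fin n → ℝ) (a c : Lab n) :
    jMinus y v ph a c = jMinus y v ph c a := by
  unfold jMinus
  have e : (lv y a - lv y c) * (lv v a - lv v c) = (lv y c - lv y a) * (lv v c - lv v a) := by ring
  rw [e]
  by_cases h : lv v a ≠ lv v c ∧ (lv y c - lv y a) * (lv v c - lv v a) ≤ 0
  · rw [if_pos h, if_pos ⟨h.1.symm, h.2⟩]
  · have h' : ¬ (lv v c ≠ lv v a ∧ (lv y c - lv y a) * (lv v c - lv v a) ≤ 0) :=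
      fun h3 => h ⟨h3.1.symm, h3.2⟩
    rw [if_neg h, if_neg h']
    by_cases h2 : lv y a = lv y c ∧ lv v a = lv v c
    · rw [if_pos h2, if_pos ⟨h2.1.symm, h2.2.symm⟩]; ring
    · rw [if_neg h2, if_neg (fun h3 => h2 ⟨h3.1.symm, h3.2.symm⟩)]

theorem h34c_dot_labVec (x : Vec n) (a : Lab n) : dot x (labVec a) = lv x a := by
  unfold dot labVec lv
  rw [Finset.sum_eq_single a.1]
  · rw [Pi.single_eq_same]; ring
  · intro b _ hb
    rw [Pi.single_eq_of_ne hb, mul_zero]
  · intro h; exact absurd (Finset.mem_univ _) h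

theorem h34c_labVec_opp (a : Lab n) : labVec a.opp = - labVec a := by
  unfold labVec Lab.opp
  rw [h34_sgnB_not]
  ext k
  by_cases hk : k = a.1
  · subst hk; simp
  · simp [Pi.single_eq_of_ne hk]

theorem h34c_vec_lab (β : RootD n) : β.vec = labVec (β.j, β.sj) - labVec (β.i, !β.si) := by
  ext k
  unfold RootD.vec labVec
  simp only [Pi.sub_apply, Pi.single_apply, h34_sgnB_not]
  split_ifs <;> ring

theorem h34c_vec_lab' (β : RootD n) : β.vec = labVec (β.i, β.si) - labVec (β.j, !β.sj) := by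
  ext k
  unfold RootD.vec labVec
  simp only [Pi.sub_apply, Pi.single_apply, h34_sgnB_not]
  split_ifs <;> ring

theorem h34c_sgnB_ne_zero (b : Bool) : sgnB b ≠ 0 := by
  rcases sc_sgnB_cases b with h | h <;> rw [h] <;> norm_num

/-- the axes of a transfer -/
theorem h34c_axes (β : RootD n) (a b : Lab n) (h : β.vec = labVec b - labVec a) :
    a.1 ≠ b.1 ∧ ((a.1 = β.i ∧ b.1 = β.j) ∨ (a.1 = β.j ∧ b.1 = β.i)) := by
  have hne : a.1 ≠ b.1 := by
    intro e
    have hi := congrFun h β.i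
    have hj := congrFun h β.j
    rw [scw_vec_i] at hi
    rw [scw_vec_j] at hj
    unfold labVec at hi hj
    simp only [Pi.sub_apply, Pi.single_apply, ← e] at hi hj
    by_cases h1 : β.i = a.1
    · have h2 : β.j ≠ a.1 := fun e2 => β.ne (h1.trans e2.symm)
      rw [if_neg h2, if_neg h2, sub_zero] at hj
      exact h34c_sgnB_ne_zero _ hj
    · rw [if_neg h1, if_neg h1, sub_zero] at hi
      exact h34c_sgnB_ne_zero _ hi
  refine ⟨hne, ?_⟩
  have ha : β.vec a.1 ≠ 0 := by
    rw [h]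
    unfold labVec
    simp only [Pi.sub_apply, Pi.single_apply, if_neg hne, if_true, zero_sub]
    exact neg_ne_zero.2 (h34c_sgnB_ne_zero _)
  have hb : β.vec b.1 ≠ 0 := by
    rw [h]
    unfold labVec
    simp only [Pi.sub_apply, Pi.single_apply, if_neg hne.symm, if_true, sub_zero]
    exact h34c_sgnB_ne_zero _
  have ha' : a.1 = β.i ∨ a.1 = β.j := by
    by_contra hc
    push Not at hc
    exact ha (scw_vec_other β hc.1 hc.2)
  have hb' : b.1 = β.i ∨ b.1 = β.j := by
    by_contra hc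
    push Not at hc
    exact hb (scw_vec_other β hc.1 hc.2)
  rcases ha' with e1 | e1 <;> rcases hb' with e2 | e2
  · exact absurd (e1.trans e2.symm) hne
  · exact Or.inl ⟨e1, e2⟩
  · exact Or.inr ⟨e1, e2⟩
  · exact absurd (e1.trans e2.symm) hne

theorem h34c_lv_labVec_self (a : Lab n) : lv (labVec a) a = 1 := by
  unfold lv labVec
  rw [Pi.single_eq_same, sc_sgnB_mul_self]

theorem h34c_lv_labVec_ne (a b : Lab n) (h : a.1 ≠ b.1) : lv (labVec a) b = 0 := by
  unfold lv labVec
  rw [Pi.single_eq_of_ne h.symm, mul_zero]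

theorem h34c_lv_sub (x y : Vec n) (a : Lab n) : lv (x - y) a = lv x a - lv y a := by
  unfold lv
  rw [Pi.sub_apply]; ring

theorem h34c_lv_smul (r : ℝ) (x : Vec n) (a : Lab n) : lv (r • x) a = r * lv x a := by
  unfold lv
  rw [Pi.smul_apply, smul_eq_mul]; ring

/-- the reflection of a transfer exchanges the two values -/
theorem h34c_lv_refl (β : RootD n) (a b : Lab n) (h : β.vec = labVec b - labVec a)
    (hne : a.1 ≠ b.1) (y : Vec n) : lv (refl β y) a = lv y b ∧ lv (refl β y) b = lv y a := by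
  unfold refl
  rw [h34c_lv_sub, h34c_lv_sub, h34c_lv_smul, h34c_lv_smul, h, sc_dot_sub_right, h34c_dot_labVec,
    h34c_dot_labVec, h34c_lv_sub, h34c_lv_sub, h34c_lv_labVec_self, h34c_lv_labVec_self,
    h34c_lv_labVec_ne b a hne.symm, h34c_lv_labVec_ne a b hne]
  constructor <;> ring

theorem h34c_lv_congr (x y : Vec n) (a : Lab n) (h : x a.1 = y a.1) : lv x a = lv y a := by
  unfold lv
  rw [h]

theorem h34c_orth_of_disj (β γ : RootD n)
    (h : β.i ≠ γ.i ∧ β.i ≠ γ.j ∧ β.j ≠ γ.i ∧ β.j ≠ γ.j) : dot β.vec γ.vec = 0 := by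
  rw [sc_dot_vec, scw_vec_other β h.1.symm h.2.2.1.symm, scw_vec_other β h.2.1.symm h.2.2.2.symm]
  ring

theorem h34c_refl_off (β : RootD n) (y : Vec n) (k : Fin n) (h1 : k ≠ β.i) (h2 : k ≠ β.j) :
    refl β y k = y k := by
  unfold refl
  rw [Pi.sub_apply, Pi.smul_apply, scw_vec_other β h1 h2, smul_zero, sub_zero]

/-- (C1) the position does not change in a cluster -/
theorem h34c_cl_pos (θ : Shape n) (τ : ℝ) (cl : List (ℝ × RootD n)) :
    ∀ S : SwState n, (∀ p ∈ cl, p.1 = τ) → (runSw θ S cl).pos θ τ = S.pos θ τ := by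
  induction cl with
  | nil => intro S _; rfl
  | cons q cl ih =>
    intro S h
    have hq : q.1 = τ := h q List.mem_cons_self
    show (runSw θ (S.step θ q.1 q.2) cl).pos θ τ = _
    rw [ih _ fun p hp => h p (List.mem_cons_of_mem _ hp), hq, sc_pos_step]

/-- (C2) the frame does not change on an axis which is not used -/
theorem h34c_cl_frame_off (θ : Shape n) (cl : List (ℝ × RootD n)) (k : Fin n) (x : Vec n) :
    ∀ S : SwState n, (∀ p ∈ cl, p.2.i ≠ k ∧ p.2.j ≠ k) →
      (runSw θ S cl).frame x k = S.frame x k := by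
  induction cl with
  | nil => intro S _; rfl
  | cons q cl ih =>
    intro S h
    obtain ⟨h1, h2⟩ := h q List.mem_cons_self
    show (runSw θ (S.step θ q.1 q.2) cl).frame x k = _
    rw [ih _ fun p hp => h p (List.mem_cons_of_mem _ hp)]
    exact h34c_refl_off q.2 _ k h1.symm h2.symm

/-- (C3) a strict cluster with disjoint axes, seen from its initial state -/
theorem h34c_cl_data (θ : Shape n) (τ : ℝ) (cl : List (ℝ × RootD n)) :
    ∀ S : SwState n, (∀ p ∈ cl, p.1 = τ) → cl.Pairwise AxDisj →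
      (∀ g ∈ swGaps θ S cl, 0 < g) → (∀ a ∈ swTotals θ S cl, 0 < a) → ∀ p ∈ cl,
      0 < dot (S.pos θ τ) p.2.vec ∧ dot p.2.vec (S.frame θ.sum) < 0 ∧
      ∀ k, (k = p.2.i ∨ k = p.2.j) →
        (runSw θ S cl).frame θ.sum k = refl p.2 (S.frame θ.sum) k := by
  induction cl with
  | nil => intro S _ _ _ _ p hp; simp at hp
  | cons q cl ih =>
    intro S hτ hd hg ht p hp
    rw [List.pairwise_cons] at hd
    have hq : q.1 = τ := hτ q List.mem_cons_self
    rcases List.mem_cons.1 hp with rfl | hp'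
    · refine ⟨?_, ?_, ?_⟩
      · have := hg (S.gap θ p.1 p.2) (by simp [swGaps])
        rw [hq] at this
        exact this
      · have := ht (S.total θ p.2) (by simp [swTotals])
        unfold SwState.total at this
        linarith
      · intro k hk
        show (runSw θ (S.step θ p.1 p.2) cl).frame θ.sum k = _
        rw [h34c_cl_frame_off θ cl k θ.sum _ fun r hr => by
          obtain ⟨a1, a2, a3, a4⟩ := hd.1 r hr (hq.trans (hτ r (List.mem_cons_of_mem _ hr)).symm)
          rcases hk with rfl | rfl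
          · exact ⟨a1.symm, a2.symm⟩
          · exact ⟨a3.symm, a4.symm⟩]
        rfl
    · have hdis := hd.1 p hp' (hq.trans (hτ p hp).symm)
      have horth : dot q.2.vec p.2.vec = 0 := h34c_orth_of_disj _ _ hdis
      obtain ⟨i1, i2, i3⟩ := ih (S.step θ q.1 q.2) (fun r hr => hτ r (List.mem_cons_of_mem _ hr))
        hd.2 (fun g hg' => hg g (by simp only [swGaps, List.mem_cons]; exact Or.inr hg'))
        (fun a ha' => ht a (by simp only [swTotals, List.mem_cons]; exact Or.inr ha')) p hp'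
      refine ⟨?_, ?_, ?_⟩
      · rw [hq, sc_pos_step] at i1
        exact i1
      · have e := (sc_comm_data θ S q.1 q.2 p.2 horth).2.2
        unfold SwState.total at e
        linarith
      · intro k hk
        show (runSw θ (S.step θ q.1 q.2) cl).frame θ.sum k = _
        rw [i3 k hk]
        show refl p.2 (refl q.2 (S.frame θ.sum)) k = _
        rw [sc_refl_comm p.2 q.2 (by rw [sc_dot_comm]; exact horth)]
        obtain ⟨a1, a2, a3, a4⟩ := hdis
        rcases hk with rfl | rfl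
        · exact h34c_refl_off _ _ _ a1.symm a3.symm
        · exact h34c_refl_off _ _ _ a2.symm a4.symm

end CTools

section CTop

/-- the standing assumptions are symmetric in the two components -/
theorem h34c_ctx_compl (lam xi : Vec n) (θ : Shape n) (w0 : WD n) (l : List (ℝ × RootD n))
    (P : Finset (Fin n)) (X : ExcCtx lam θ xi w0 l P) : ExcCtx lam θ xi w0 l Pᶜ := by
  refine ⟨X.lbl, X.gen, X.sched, X.noBlock, ⟨X.exc.len, X.exc.indep, X.exc.connQ,
    by rw [compl_compl]; exact X.exc.connP, ?_⟩, X.hard, X.noLink⟩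
  obtain ⟨z, hz⟩ := X.exc.odd
  obtain ⟨w, hw⟩ := X.sched.endpoint
  have hQ : InQD (lam + w0.act θ.sum - w.act xi) := by
    have h1 := X.lbl.hQ
    have h2 := sc_act_sub_mem_Q w0 θ.sum X.lbl.wm
    have h3 := sc_act_sub_mem_Q w xi X.lbl.wx
    have h4 := sc_inQD_sub _ _ (sc_inQD_add _ _ h1 h2) h3
    have e : lam + w0.act θ.sum - w.act xi
        = lam + θ.sum - xi + (w0.act θ.sum - θ.sum) - (w.act xi - xi) := by abel
    rw [e]
    exact h4
  obtain ⟨Z, hZ⟩ := hQ.2
  refine ⟨Z - z - 1, ?_⟩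
  have hsum := Finset.sum_add_sum_compl P
    (fun i => lam i + w0.act θ.sum i - (runSw θ ⟨w0.act, lam⟩ l).pos θ θ.length i)
  rw [hz, hw] at hsum
  have e2 : ∑ i, (lam i + w0.act θ.sum i - w.act xi i) = 2 * (Z : ℝ) := by
    rw [← hZ]
    rfl
  rw [hw]
  push_cast
  linarith

theorem h34c_dJ_symm (θ : Shape n) (S : SwState n) (l : List (ℝ × RootD n)) (τ : ℝ)
    (a c : Lab n) : dJ θ S l τ a c = dJ θ S l τ c a := by
  unfold dJ
  rw [h34c_jPlus_symm, h34c_jMinus_symm]

end CTop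

section CFacts

variable (lam xi : Vec n) (θ : Shape n) (w0 : WD n) (l : List (ℝ × RootD n))
  (P : Finset (Fin n)) (X : ExcCtx lam θ xi w0 l P) (τ : ℝ)

include X

/-- (F0) the exceptional schedule is strict -/
theorem h34c_strict : SwStrict θ ⟨w0.act, lam⟩ l :=
  (s34f_hard_data lam xi θ X.lbl X.hard w0 l X.sched X.exc.len.le).2.2.1

/-- the cluster of the knot at `τ` -/
theorem h34c_cluster :
    ∃ cl : List (ℝ × RootD n), l.take (cntLe l τ) = l.take (cntLt l τ) ++ cl ∧
      (∀ p ∈ cl, p.1 = τ) ∧ (∀ p ∈ l, p.1 = τ → p ∈ cl) ∧ (∀ p ∈ cl, p ∈ l) ∧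
      cl.Pairwise AxDisj ∧
      (∀ g ∈ swGaps θ (stAt θ ⟨w0.act, lam⟩ l (cntLt l τ)) cl, 0 < g) ∧
      (∀ a ∈ swTotals θ (stAt θ ⟨w0.act, lam⟩ l (cntLt l τ)) cl, 0 < a) := by
  obtain ⟨e, h1, h2, h3, h4, h5⟩ := h34_split_at l X.sched.sorted τ
  have hst := h34c_strict lam xi θ w0 l P X
  refine ⟨(l.take (cntLe l τ)).drop (cntLt l τ), ?_, h2, ?_, ?_, ?_, ?_, ?_⟩
  · have := (List.take_append_drop (cntLt l τ) (l.take (cntLe l τ))).symm
    rw [List.take_take, min_eq_left h4] at this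
    exact this
  · intro p hp hpτ
    rw [e, List.mem_append, List.mem_append] at hp
    rcases hp with (hp | hp) | hp
    · exact absurd hpτ (h1 p hp).ne
    · exact hp
    · exact absurd hpτ (h3 p hp).ne'
  · intro p hp
    exact List.mem_of_mem_take (List.mem_of_mem_drop hp)
  · exact (h34_axDisj lam xi θ w0 l P X).sublist
      ((List.drop_sublist _ _).trans (List.take_sublist _ _))
  · intro g hg
    apply hst.2.1 g
    rw [congrArg (swGaps θ ⟨w0.act, lam⟩) e, sc_gaps_append, sc_gaps_append, List.mem_append,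
      List.mem_append]
    exact Or.inl (Or.inr hg)
  · intro g hg
    apply hst.2.2 g
    rw [congrArg (swTotals θ ⟨w0.act, lam⟩) e, sc_totals_append, sc_totals_append,
      List.mem_append, List.mem_append]
    exact Or.inl (Or.inr hg)

/-- (F1') the position does not change at the knot (leaf L-H-F1) -/
theorem h34c_pos_eq :
    (stAt θ ⟨w0.act, lam⟩ l (cntLe l τ)).pos θ τ = kY θ ⟨w0.act, lam⟩ l τ := by
  obtain ⟨cl, e, h2, -⟩ := h34c_cluster lam xi θ w0 l P X τ
  unfold kY stAt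
  rw [e, sc_runSw_append, h34c_cl_pos θ τ cl _ h2]

/-- (F1) the position does not change at the knot; `dJ` in knot quantities -/
theorem h34c_dJ_eq (a c : Lab n) :
    dJ θ ⟨w0.act, lam⟩ l τ a c
      = jPlus (kY θ ⟨w0.act, lam⟩ l τ) (kVp θ ⟨w0.act, lam⟩ l τ) (kPp l τ) a c
        - jMinus (kY θ ⟨w0.act, lam⟩ l τ) (kVm θ ⟨w0.act, lam⟩ l τ) (kPm l τ) a c := by
  unfold dJ
  rw [h34c_pos_eq lam xi θ w0 l P X τ]
  rfl

/-- (F2) nothing happens on an unused axis -/
theorem h34c_unused (j : Fin n) (hj : Unused l τ j) :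
    kVp θ ⟨w0.act, lam⟩ l τ j = kVm θ ⟨w0.act, lam⟩ l τ j ∧ kPp l τ j = kPm l τ j := by
  obtain ⟨cl, e, h2, -, h4, -⟩ := h34c_cluster lam xi θ w0 l P X τ
  constructor
  · unfold kVp kVm stAt
    rw [e, sc_runSw_append]
    exact h34c_cl_frame_off θ cl j θ.sum _ fun p hp => hj p (h4 p hp) (h2 p hp)
  · obtain ⟨-, -, s2, -, s4, s5⟩ := h34_split_at l X.sched.sorted τ
    have hB : SwBasis l := ⟨X.exc.indep, X.exc.len⟩
    unfold kPp kPm
    have key : ∀ m, cntLt l τ ≤ m → m ≤ cntLe l τ → phase l m j = phase l (cntLt l τ) j := by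
      intro m hm
      induction m, hm using Nat.le_induction with
      | base => intro _; rfl
      | succ m hm ih =>
        intro hm2
        have hml : m < l.length := by omega
        have hmem : l[m] ∈ (l.take (cntLe l τ)).drop (cntLt l τ) := by
          have hlen : m - cntLt l τ < ((l.take (cntLe l τ)).drop (cntLt l τ)).length := by
            rw [List.length_drop, List.length_take]
            omega
          have := List.getElem_mem hlen
          rw [List.getElem_drop, List.getElem_take] at this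
          have e3 : cntLt l τ + (m - cntLt l τ) = m := by omega
          simp only [e3] at this
          exact this
        obtain ⟨u1, u2⟩ := hj l[m] (List.getElem_mem hml) (s2 _ hmem)
        rw [lat_phase_off hB hml j u1.symm u2.symm, ih (by omega)]
    exact key _ s4 le_rfl

/-- (F3) a transfer: donor below recipient, donor has the higher value, the values are exchanged, both
axes in the same component -/
theorem h34c_transfer (a b : Lab n) (h : IsTransfer l τ a b) :
    lv (kY θ ⟨w0.act, lam⟩ l τ) a < lv (kY θ ⟨w0.act, lam⟩ l τ) b ∧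
    lv (kVm θ ⟨w0.act, lam⟩ l τ) b < lv (kVm θ ⟨w0.act, lam⟩ l τ) a ∧
    lv (kVp θ ⟨w0.act, lam⟩ l τ) a = lv (kVm θ ⟨w0.act, lam⟩ l τ) b ∧
    lv (kVp θ ⟨w0.act, lam⟩ l τ) b = lv (kVm θ ⟨w0.act, lam⟩ l τ) a ∧
    (a.1 ∈ P ↔ b.1 ∈ P) ∧ a.1 ≠ b.1 := by
  obtain ⟨p, hp, hpτ, hv⟩ := h
  obtain ⟨cl, e, h2, h3, h4, h5, h6, h7⟩ := h34c_cluster lam xi θ w0 l P X τ
  obtain ⟨hne, hax⟩ := h34c_axes p.2 a b hv
  obtain ⟨d1, d2, d3⟩ := h34c_cl_data θ τ cl _ h2 h5 h6 h7 p (h3 p hp hpτ)
  have hcl := X.exc.connP.2.1 p hp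
  have hr := h34c_lv_refl p.2 a b hv hne (kVm θ ⟨w0.act, lam⟩ l τ)
  have hVp : ∀ k, (k = p.2.i ∨ k = p.2.j) →
      kVp θ ⟨w0.act, lam⟩ l τ k = refl p.2 (kVm θ ⟨w0.act, lam⟩ l τ) k := by
    intro k hk
    have := d3 k hk
    unfold kVp kVm
    rw [← this]
    unfold stAt
    rw [e, sc_runSw_append]
  refine ⟨?_, ?_, ?_, ?_, ?_, hne⟩
  · rw [hv, sc_dot_sub_right, h34c_dot_labVec, h34c_dot_labVec] at d1
    unfold kY
    linarith
  · rw [sc_dot_comm, hv, sc_dot_sub_right, h34c_dot_labVec, h34c_dot_labVec] at d2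
    unfold kVm
    linarith
  · rw [← hr.1]
    apply h34c_lv_congr
    apply hVp
    rcases hax with ⟨e1, -⟩ | ⟨e1, -⟩
    · exact Or.inl e1
    · exact Or.inr e1
  · rw [← hr.2]
    apply h34c_lv_congr
    apply hVp
    rcases hax with ⟨-, e1⟩ | ⟨-, e1⟩
    · exact Or.inr e1
    · exact Or.inl e1
  · rcases hax with ⟨e1, e2⟩ | ⟨e1, e2⟩
    · rw [e1, e2]; exact hcl
    · rw [e1, e2]; exact hcl.symm

/-- (F11) a used axis carries a transfer with that axis as donor axis -/
theorem h34c_transfer_exists (π : Equiv.Perm (Fin n)) (hπ : IsPartner l τ P π) (i : Fin n)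
    (hi : π i ≠ i) : ∃ a b : Lab n, IsTransfer l τ a b ∧ a.1 = i ∧ b.1 = π i := by
  have hex : ∃ p ∈ l, p.1 = τ ∧ (p.2.i = i ∨ p.2.j = i) := by
    by_contra hc
    apply hi
    apply hπ.fix
    intro p hp hpτ
    exact ⟨fun e => hc ⟨p, hp, hpτ, Or.inl e⟩, fun e => hc ⟨p, hp, hpτ, Or.inr e⟩⟩
  obtain ⟨p, hp, hpτ, e | e⟩ := hex
  · refine ⟨(p.2.i, !p.2.si), (p.2.j, p.2.sj), ⟨p, hp, hpτ, h34c_vec_lab p.2⟩, e, ?_⟩
    rw [← e, hπ.sw p hp hpτ]
  · refine ⟨(p.2.j, !p.2.sj), (p.2.i, p.2.si), ⟨p, hp, hpτ, h34c_vec_lab' p.2⟩, e, ?_⟩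
    rw [← e, ← hπ.sw p hp hpτ, hπ.invol]

omit X in
theorem h34c_unused_of_fix (π : Equiv.Perm (Fin n)) (hπ : IsPartner l τ P π) (i : Fin n)
    (hi : π i = i) : Unused l τ i := by
  intro p hp hpτ
  have hsw := hπ.sw p hp hpτ
  constructor
  · intro e
    rw [e, hi] at hsw
    exact p.2.ne (e.trans hsw)
  · intro e
    have h2 := hπ.invol p.2.i
    rw [hsw, e, hi] at h2
    exact p.2.ne (h2.symm.trans e.symm)

omit X in
/-- the mirror of a transfer -/
theorem h34c_transfer_opp (a b : Lab n) (h : IsTransfer l τ a b) : IsTransfer l τ b.opp a.opp := by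
  obtain ⟨p, hp, hpτ, hv⟩ := h
  refine ⟨p, hp, hpτ, ?_⟩
  rw [hv, h34c_labVec_opp, h34c_labVec_opp]
  abel

end CFacts

end Claimed.Agent.R282
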