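import Claimed.Agent.R282.S34.Link
import Claimed.Agent.R282.Sched.Block

/-!
# Row 282, package H (Prop 4.4): definitions
-/

set_option autoImplicit false

namespace Claimed.Agent.R282

variable {n : ℕ}

/-- change of the contribution of a cross pair at the knot `τ` -/
noncomputable def dJ (θ : Shape n) (S : SwState n) (l : List (ℝ × RootD n)) (τ : ℝ)
    (a c : Lab n) : ℝ :=
  jPlus ((stAt θ S l (cntLe l τ)).pos θ τ) ((stAt θ S l (cntLe l τ)).frame θ.sum)
      (phase l (cntLe l τ)) a c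
    - jMinus ((stAt θ S l (cntLt l τ)).pos θ τ) ((stAt θ S l (cntLt l τ)).frame θ.sum)
      (phase l (cntLt l τ)) a c

/-- sum over the four sign choices on two axes -/
noncomputable def axSum (f : Lab n → Lab n → ℝ) (i j : Fin n) : ℝ :=
  ∑ s : Bool, ∑ s' : Bool, f (i, s) (j, s')

/-- the partner involution of the knot at `τ` -/
structure IsPartner (l : List (ℝ × RootD n)) (τ : ℝ) (P : Finset (Fin n))
    (π : Equiv.Perm (Fin n)) : Prop where
  invol : ∀ i, π (π i) = i
  pres : ∀ i, π i ∈ P ↔ i ∈ P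
  sw : ∀ p ∈ l, p.1 = τ → π p.2.i = p.2.j
  fix : ∀ i, (∀ p ∈ l, p.1 = τ → p.2.i ≠ i ∧ p.2.j ≠ i) → π i = i

/-! ## labels and knot quantities (used by `H/Split.lean`, `H/Knot.lean`) -/

/-- the vector `e_a` of a signed label -/
def labVec (a : Lab n) : Vec n := Pi.single a.1 (sgnB a.2)

/-- the mirror label `-a` -/
def Lab.opp (a : Lab n) : Lab n := (a.1, !a.2)

/-- `a → b` is a transfer of the knot at `τ` -/
def IsTransfer (l : List (ℝ × RootD n)) (τ : ℝ) (a b : Lab n) : Prop :=
  ∃ p ∈ l, p.1 = τ ∧ p.2.vec = labVec b - labVec a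

/-- the axis `i` is not used by the knot at `τ` -/
def Unused (l : List (ℝ × RootD n)) (τ : ℝ) (i : Fin n) : Prop :=
  ∀ p ∈ l, p.1 = τ → p.2.i ≠ i ∧ p.2.j ≠ i

/-- position at the knot -/
noncomputable def kY (θ : Shape n) (S : SwState n) (l : List (ℝ × RootD n)) (τ : ℝ) : Vec n :=
  (stAt θ S l (cntLt l τ)).pos θ τ

/-- moving values before the knot -/
noncomputable def kVm (θ : Shape n) (S : SwState n) (l : List (ℝ × RootD n)) (τ : ℝ) : Vec n :=
  (stAt θ S l (cntLt l τ)).frame θ.sum

/-- moving values after the knot -/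
noncomputable def kVp (θ : Shape n) (S : SwState n) (l : List (ℝ × RootD n)) (τ : ℝ) : Vec n :=
  (stAt θ S l (cntLe l τ)).frame θ.sum

/-- phases before the knot -/
noncomputable def kPm (l : List (ℝ × RootD n)) (τ : ℝ) : Fin n → ℝ := phase l (cntLt l τ)

/-- phases after the knot -/
noncomputable def kPp (l : List (ℝ × RootD n)) (τ : ℝ) : Fin n → ℝ := phase l (cntLe l τ)

end Claimed.Agent.R282
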