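import Claimed.Agent.R282.S34.H.Defs
import Claimed.Agent.R282.S34.Lat.Exc

/-!
# Row 282, package H: shared tools (face structure, levels, replacement of a cluster)

Consumed by all leaves of `H/Knot.lean`.  Derivations: `H/Plan.lean` secs. 0-2.
Leaf L-H-FS = section `Face`, L-H-LV = section `Levels`, L-H-RP = section `Replace`.
-/

set_option autoImplicit false

namespace Claimed.Agent.R282

variable {n : ℕ}

section Face

open Classical in
/-- test vectors of the face: the coordinates of modulus `t`, with their signs (`1` on a zero coordinate) -/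
noncomputable def lvlVec (mu : Vec n) (t : ℝ) : Vec n :=
  fun i => if |mu i| = t then (if mu i < 0 then -1 else 1) else 0

/-- the root `e_a - e_c` of two labels on distinct axes -/
def labDiff (a c : Lab n) (h : a.1 ≠ c.1) : RootD n := ⟨a.1, c.1, h, a.2, !c.2⟩

theorem h34_sgnB_not (b : Bool) : sgnB (!b) = - sgnB b := by
  cases b <;> simp [sgnB]

theorem h34_dot_labDiff (a c : Lab n) (h : a.1 ≠ c.1) (x : Vec n) :
    dot (labDiff a c h).vec x = lv x a - lv x c := by
  rw [sc_dot_comm, sc_dot_vec]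
  simp only [labDiff, lv, h34_sgnB_not]
  ring

/-- the sign attached to a coordinate of `mu` -/
noncomputable def sgCoord (mu : Vec n) (i : Fin n) : ℝ := if mu i < 0 then -1 else 1

theorem h34_sgCoord_cases (mu : Vec n) (i : Fin n) : sgCoord mu i = 1 ∨ sgCoord mu i = -1 := by
  unfold sgCoord
  split_ifs
  · exact Or.inr rfl
  · exact Or.inl rfl

theorem h34_sgCoord_mul (mu : Vec n) (i : Fin n) : mu i = sgCoord mu i * |mu i| := by
  unfold sgCoord
  split_ifs with h
  · rw [abs_of_neg h]; ring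
  · rw [abs_of_nonneg (not_lt.1 h)]; ring

theorem h34_lvlVec_eq (mu : Vec n) (t : ℝ) (i : Fin n) (h : |mu i| = t) :
    lvlVec mu t i = sgCoord mu i := by
  unfold lvlVec sgCoord
  rw [if_pos h]

theorem h34_lvlVec_ne (mu : Vec n) (t : ℝ) (i : Fin n) (h : |mu i| ≠ t) : lvlVec mu t i = 0 := by
  unfold lvlVec
  rw [if_neg h]

theorem h34_lvlVec_inFace (mu : Vec n)
    (hz : (Finset.univ.filter fun i => mu i = 0).card ≤ 1) (t : ℝ) : InFace mu (lvlVec mu t) := by
  intro β hβ
  rw [sc_dot_comm, sc_dot_vec] at hβ ⊢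
  have habs : |mu β.i| = |mu β.j| := by
    have e : sgnB β.si * mu β.i = - (sgnB β.sj * mu β.j) := by linarith
    have e2 := congrArg abs e
    rw [abs_neg, abs_mul, abs_mul] at e2
    rcases sc_sgnB_cases β.si with h1 | h1 <;> rcases sc_sgnB_cases β.sj with h2 | h2 <;>
      rw [h1, h2] at e2 <;> simpa using e2
  by_cases ht : |mu β.i| = t
  · rw [h34_lvlVec_eq mu t β.i ht, h34_lvlVec_eq mu t β.j (habs ▸ ht)]
    by_cases h0 : |mu β.i| = 0
    · exfalso
      have hi : mu β.i = 0 := abs_eq_zero.1 h0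
      have hj : mu β.j = 0 := abs_eq_zero.1 (habs ▸ h0)
      have := Finset.card_le_one.1 hz β.i (by simp [hi]) β.j (by simp [hj])
      exact β.ne this
    · rw [h34_sgCoord_mul mu β.i, h34_sgCoord_mul mu β.j, ← habs] at hβ
      have : (sgnB β.si * sgCoord mu β.i + sgnB β.sj * sgCoord mu β.j) * |mu β.i| = 0 := by
        linarith
      rcases mul_eq_zero.1 this with h | h
      · exact h
      · exact absurd h h0
  · rw [h34_lvlVec_ne mu t β.i ht, h34_lvlVec_ne mu t β.j (habs ▸ ht)]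
    ring

/-- value of a label on a test vector -/
theorem h34_lv_lvlVec (mu : Vec n) (a : Lab n) (t : ℝ) :
    (t = |mu a.1| ∧ (lv (lvlVec mu t) a = 1 ∨ lv (lvlVec mu t) a = -1)) ∨
      (t ≠ |mu a.1| ∧ lv (lvlVec mu t) a = 0) := by
  by_cases h : |mu a.1| = t
  · left
    refine ⟨h.symm, ?_⟩
    unfold lv
    rw [h34_lvlVec_eq mu t a.1 h]
    rcases sc_sgnB_cases a.2 with h1 | h1 <;> rcases h34_sgCoord_cases mu a.1 with h2 | h2 <;>
      rw [h1, h2] <;> norm_num
  · right
    refine ⟨fun e => h e.symm, ?_⟩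
    unfold lv
    rw [h34_lvlVec_ne mu t a.1 h, mul_zero]

/-- FORM-EQ: two labels with the same value on the test vector of the first one have the same form -/
theorem h34_form_eq (mu : Vec n) (a c : Lab n)
    (h : lv (lvlVec mu |mu a.1|) a = lv (lvlVec mu |mu a.1|) c) :
    ∀ x, InFace mu x → lv x a = lv x c := by
  intro x hx
  have hc : |mu c.1| = |mu a.1| := by
    rcases h34_lv_lvlVec mu c |mu a.1| with ⟨e, -⟩ | ⟨-, e⟩
    · exact e.symm
    · exfalso
      rcases h34_lv_lvlVec mu a |mu a.1| with ⟨-, e' | e'⟩ | ⟨e', -⟩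
      · rw [e, e'] at h; norm_num at h
      · rw [e, e'] at h; norm_num at h
      · exact e' rfl
  unfold lv at h
  rw [h34_lvlVec_eq mu _ a.1 rfl, h34_lvlVec_eq mu _ c.1 hc] at h
  by_cases hac : a.1 = c.1
  · have h2 : sgnB a.2 = sgnB c.2 := by
      rw [hac] at h
      rcases h34_sgCoord_cases mu c.1 with h2 | h2 <;> rw [h2] at h <;> linarith
    unfold lv
    rw [hac, h2]
  · have := hx (labDiff a c hac) (by
      rw [h34_dot_labDiff]
      unfold lv
      rw [h34_sgCoord_mul mu a.1, h34_sgCoord_mul mu c.1, hc, ← mul_assoc, ← mul_assoc, h]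
      ring)
    rw [h34_dot_labDiff] at this
    linarith

theorem h34_inFace_self (mu : Vec n) : InFace mu mu := fun _ h => h

/-- pull a label back through a Weyl group element -/
def pullLab (w : WD n) (a : Lab n) : Lab n := (w.σ.symm a.1, xor a.2 (w.s a.1))

theorem h34_lv_act (w : WD n) (x : Vec n) (a : Lab n) : lv (w.act x) a = lv x (pullLab w a) := by
  unfold lv pullLab WD.act
  rw [sc_sgnB_xor]
  ring

theorem h34_lv_opp' (x : Vec n) (a : Lab n) : lv x (a.1, !a.2) = - lv x a := by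
  unfold lv
  rw [h34_sgnB_not]
  ring

/-- FS1: no form vanishes on the face -/
theorem h34_fs1 (mu : Vec n) (hz : (Finset.univ.filter fun i => mu i = 0).card ≤ 1)
    (f : Vec n → Vec n) (hf : IsFrame f) (a : Lab n) : ∃ x, InFace mu x ∧ lv (f x) a ≠ 0 := by
  obtain ⟨w, rfl⟩ := hf
  refine ⟨lvlVec mu |mu (pullLab w a).1|, h34_lvlVec_inFace mu hz _, ?_⟩
  rw [h34_lv_act]
  rcases h34_lv_lvlVec mu (pullLab w a) |mu (pullLab w a).1| with ⟨-, e | e⟩ | ⟨e, -⟩
  · rw [e]; norm_num
  · rw [e]; norm_num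
  · exact absurd rfl e

/-- FS2: equal values on distinct axes => equal forms -/
theorem h34_fs2 (mu : Vec n) (f : Vec n → Vec n) (hf : IsFrame f) (a c : Lab n) (hac : a.1 ≠ c.1)
    (h : lv (f mu) a = lv (f mu) c) : ∀ x, InFace mu x → lv (f x) a = lv (f x) c := by
  obtain ⟨w, rfl⟩ := hf
  intro x hx
  rw [h34_lv_act, h34_lv_act] at h ⊢
  have hne : (pullLab w a).1 ≠ (pullLab w c).1 := fun e => hac (w.σ.symm.injective e)
  have := hx (labDiff _ _ hne) (by rw [h34_dot_labDiff, h, sub_self])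
  rw [h34_dot_labDiff] at this
  linarith

/-- FS3 for the identity frame -/
theorem h34_fs3_aux (mu : Vec n) (hz : (Finset.univ.filter fun i => mu i = 0).card ≤ 1)
    (a b c d : Lab n)
    (h : ∀ x, InFace mu x → lv x a - lv x b = lv x c - lv x d)
    (hne : lv mu a ≠ lv mu b) :
    (∀ x, InFace mu x → lv x a = lv x c ∧ lv x b = lv x d) ∨
    (∀ x, InFace mu x → lv x a = - lv x d ∧ lv x b = - lv x c) := by
  have R : ∀ t, lv (lvlVec mu t) a - lv (lvlVec mu t) b = lv (lvlVec mu t) c - lv (lvlVec mu t) d :=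
    fun t => h _ (h34_lvlVec_inFace mu hz t)
  -- it suffices to compare the values on two test vectors
  suffices H : (lv (lvlVec mu |mu a.1|) a = lv (lvlVec mu |mu a.1|) c ∧
      lv (lvlVec mu |mu b.1|) b = lv (lvlVec mu |mu b.1|) d) ∨
      (lv (lvlVec mu |mu a.1|) a = - lv (lvlVec mu |mu a.1|) d ∧
      lv (lvlVec mu |mu b.1|) b = - lv (lvlVec mu |mu b.1|) c) by
    rcases H with ⟨h1, h2⟩ | ⟨h1, h2⟩
    · left
      intro x hx
      exact ⟨h34_form_eq mu a c h1 x hx, h34_form_eq mu b d h2 x hx⟩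
    · right
      intro x hx
      have e1 := h34_form_eq mu a (d.1, !d.2) (by rw [h34_lv_opp']; exact h1) x hx
      have e2 := h34_form_eq mu b (c.1, !c.2) (by rw [h34_lv_opp']; exact h2) x hx
      rw [h34_lv_opp'] at e1 e2
      exact ⟨e1, e2⟩
  by_cases hab : |mu a.1| = |mu b.1|
  · -- equal levels: opposite signs
    have hne' : lv (lvlVec mu |mu a.1|) a ≠ lv (lvlVec mu |mu a.1|) b :=
      fun e => hne (h34_form_eq mu a b e mu (h34_inFace_self mu))
    have r := R |mu a.1|
    rw [← hab]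
    left
    rcases h34_lv_lvlVec mu a |mu a.1| with ⟨-, ea | ea⟩ | ⟨ea, -⟩
    · rcases h34_lv_lvlVec mu b |mu a.1| with ⟨-, eb | eb⟩ | ⟨eb, -⟩
      · exact absurd (ea.trans eb.symm) hne'
      · rcases h34_lv_lvlVec mu c |mu a.1| with ⟨-, ec | ec⟩ | ⟨-, ec⟩ <;>
          rcases h34_lv_lvlVec mu d |mu a.1| with ⟨-, ed | ed⟩ | ⟨-, ed⟩ <;>
          rw [ea, eb, ec, ed] at r ⊢ <;> first | (exfalso; norm_num at r; done) | norm_num
      · exact absurd hab eb
    · rcases h34_lv_lvlVec mu b |mu a.1| with ⟨-, eb | eb⟩ | ⟨eb, -⟩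
      · rcases h34_lv_lvlVec mu c |mu a.1| with ⟨-, ec | ec⟩ | ⟨-, ec⟩ <;>
          rcases h34_lv_lvlVec mu d |mu a.1| with ⟨-, ed | ed⟩ | ⟨-, ed⟩ <;>
          rw [ea, eb, ec, ed] at r ⊢ <;> first | (exfalso; norm_num at r; done) | norm_num
      · exact absurd (ea.trans eb.symm) hne'
      · exact absurd hab eb
    · exact absurd rfl ea
  · have ra := R |mu a.1|
    have rb := R |mu b.1|
    have ba : lv (lvlVec mu |mu a.1|) b = 0 := by
      rcases h34_lv_lvlVec mu b |mu a.1| with ⟨e, -⟩ | ⟨-, e⟩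
      · exact absurd e hab
      · exact e
    have ab : lv (lvlVec mu |mu b.1|) a = 0 := by
      rcases h34_lv_lvlVec mu a |mu b.1| with ⟨e, -⟩ | ⟨-, e⟩
      · exact absurd e.symm hab
      · exact e
    rw [ba] at ra
    rw [ab] at rb
    have ha1 : lv (lvlVec mu |mu a.1|) a = 1 ∨ lv (lvlVec mu |mu a.1|) a = -1 := by
      rcases h34_lv_lvlVec mu a |mu a.1| with ⟨-, e⟩ | ⟨e, -⟩
      · exact e
      · exact absurd rfl e
    rcases h34_lv_lvlVec mu c |mu a.1| with ⟨tc, ec⟩ | ⟨tc, ec⟩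
    · -- `c` on the level of `a`
      have cb : lv (lvlVec mu |mu b.1|) c = 0 := by
        rcases h34_lv_lvlVec mu c |mu b.1| with ⟨e, -⟩ | ⟨-, e⟩
        · exact absurd (tc.trans e.symm) hab
        · exact e
      left
      rcases h34_lv_lvlVec mu d |mu a.1| with ⟨-, ed⟩ | ⟨-, ed⟩
      · exfalso
        rcases ha1 with ea | ea <;> rcases ec with ec | ec <;> rcases ed with ed | ed <;>
          rw [ea, ec, ed] at ra <;> norm_num at ra
      · rw [ed] at ra
        rw [cb] at rb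
        constructor <;> linarith
    · right
      rw [ec] at ra
      have td : |mu a.1| = |mu d.1| := by
        rcases h34_lv_lvlVec mu d |mu a.1| with ⟨e, -⟩ | ⟨-, e⟩
        · exact e
        · exfalso
          rw [e] at ra
          rcases ha1 with ea | ea <;> rw [ea] at ra <;> norm_num at ra
      have db : lv (lvlVec mu |mu b.1|) d = 0 := by
        rcases h34_lv_lvlVec mu d |mu b.1| with ⟨e, -⟩ | ⟨-, e⟩
        · exact absurd (td.trans e.symm) hab
        · exact e
      rw [db] at rb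
      constructor <;> linarith

/-- FS3 (FORM) -/
theorem h34_fs3 (mu : Vec n) (hz : (Finset.univ.filter fun i => mu i = 0).card ≤ 1)
    (f : Vec n → Vec n) (hf : IsFrame f) (a b c d : Lab n) (_hab : a.1 ≠ b.1) (_hcd : c.1 ≠ d.1)
    (h : ∀ x, InFace mu x → lv (f x) a - lv (f x) b = lv (f x) c - lv (f x) d)
    (hne : lv (f mu) a ≠ lv (f mu) b) :
    (∀ x, InFace mu x → lv (f x) a = lv (f x) c ∧ lv (f x) b = lv (f x) d) ∨
    (∀ x, InFace mu x → lv (f x) a = - lv (f x) d ∧ lv (f x) b = - lv (f x) c) := by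
  obtain ⟨w, rfl⟩ := hf
  simp only [h34_lv_act] at h hne ⊢
  exact h34_fs3_aux mu hz _ _ _ _ h hne

/-- FS4 -/
theorem h34_fs4 (mu : Vec n) (hz : (Finset.univ.filter fun i => mu i = 0).card ≤ 1)
    (f : Vec n → Vec n) (hf : IsFrame f) (a b c : Lab n) (hab : a.1 ≠ b.1) (hac : a.1 ≠ c.1)
    (hne : lv (f mu) a ≠ lv (f mu) b)
    (h : ∀ x, InFace mu x → lv (f x) c = 2 * lv (f x) a - lv (f x) b) : False := by
  obtain ⟨w, rfl⟩ := hf
  simp only [h34_lv_act] at h hne
  generalize pullLab w a = a' at *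
  generalize pullLab w b = b' at *
  generalize pullLab w c = c' at *
  have r := h _ (h34_lvlVec_inFace mu hz |mu a'.1|)
  apply hne
  refine h34_form_eq mu a' b' ?_ mu (h34_inFace_self mu)
  rcases h34_lv_lvlVec mu a' |mu a'.1| with ⟨-, ea | ea⟩ | ⟨ea, -⟩
  · rcases h34_lv_lvlVec mu b' |mu a'.1| with ⟨-, eb | eb⟩ | ⟨-, eb⟩ <;>
      rcases h34_lv_lvlVec mu c' |mu a'.1| with ⟨-, ec | ec⟩ | ⟨-, ec⟩ <;>
      rw [ea, eb, ec] at r <;> rw [ea, eb] <;> first | (exfalso; norm_num at r; done) | norm_num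
  · rcases h34_lv_lvlVec mu b' |mu a'.1| with ⟨-, eb | eb⟩ | ⟨-, eb⟩ <;>
      rcases h34_lv_lvlVec mu c' |mu a'.1| with ⟨-, ec | ec⟩ | ⟨-, ec⟩ <;>
      rw [ea, eb, ec] at r <;> rw [ea, eb] <;> first | (exfalso; norm_num at r; done) | norm_num
  · exact absurd rfl ea

/-- at most one axis carries the moving value `0` -/
theorem h34_zero_axis (mu : Vec n) (hz : (Finset.univ.filter fun i => mu i = 0).card ≤ 1)
    (f : Vec n → Vec n) (hf : IsFrame f) (i j : Fin n) (hi : f mu i = 0) (hj : f mu j = 0) :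
    i = j := by
  obtain ⟨w, rfl⟩ := hf
  unfold WD.act at hi hj
  have hi' : mu (w.σ.symm i) = 0 := by
    rcases mul_eq_zero.1 hi with h | h
    · rcases sc_sgnB_cases (w.s i) with e | e <;> rw [e] at h <;> norm_num at h
    · exact h
  have hj' : mu (w.σ.symm j) = 0 := by
    rcases mul_eq_zero.1 hj with h | h
    · rcases sc_sgnB_cases (w.s j) with e | e <;> rw [e] at h <;> norm_num at h
    · exact h
  exact w.σ.symm.injective
    (Finset.card_le_one.1 hz _ (by simp [hi']) _ (by simp [hj']))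

end Face

section Levels

/-- genericity read in arbitrary frames -/
theorem h34_single (θ : Shape n) (G : GenericShape θ) (f g : Vec n → Vec n) (hf : IsFrame f)
    (hg : IsFrame g) (β γ : RootD n) (t : ℝ) (h0 : 0 < t) (h1 : t < (θ.length : ℝ))
    (hβ : dot β.vec (f θ.sum) ≠ 0) (hγ : dot γ.vec (g θ.sum) ≠ 0)
    (lβ : HalfInt (dot β.vec (f (θ.val t)))) (lγ : HalfInt (dot γ.vec (g (θ.val t)))) :
    (∀ x, InFace θ.sum x → dot β.vec (f x) = dot γ.vec (g x)) ∨
    (∀ x, InFace θ.sum x → dot β.vec (f x) = - dot γ.vec (g x)) := by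
  obtain ⟨β', hβ'⟩ := sc_frame_root f hf β
  obtain ⟨γ', hγ'⟩ := sc_frame_root g hg γ
  simp only [hβ', hγ'] at hβ hγ lβ lγ ⊢
  exact G.single t h0 h1 β' γ' hβ hγ lβ lγ

theorem h34_halfInt_of_int {a : ℝ} (h : ∃ z : ℤ, a = z) : HalfInt a := by
  obtain ⟨z, rfl⟩ := h
  exact ⟨2 * z, by push_cast; ring⟩

theorem h34_halfInt_sub {a b : ℝ} (ha : HalfInt a) (hb : HalfInt b) : HalfInt (a - b) := by
  obtain ⟨z1, h1⟩ := ha
  obtain ⟨z2, h2⟩ := hb
  exact ⟨z1 - z2, by push_cast; linarith⟩

theorem h34_halfInt_neg {a : ℝ} (ha : HalfInt a) : HalfInt (-a) := by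
  obtain ⟨z1, h1⟩ := ha
  exact ⟨-z1, by push_cast; linarith⟩

theorem h34_halfInt_mul_int {a b : ℝ} (ha : HalfInt a) (hb : ∃ z : ℤ, b = z) : HalfInt (a * b) := by
  obtain ⟨z1, h1⟩ := ha
  obtain ⟨z2, rfl⟩ := hb
  exact ⟨z1 * z2, by push_cast; rw [← h1]; ring⟩

theorem h34_halfInt_sum {ι : Type*} (s : Finset ι) (f : ι → ℝ) (h : ∀ i ∈ s, HalfInt (f i)) :
    HalfInt (∑ i ∈ s, f i) := by
  have := lat_sum_int s (fun i => 2 * f i) h
  rw [← Finset.mul_sum] at this
  exact this

/-- a combination of roots with half-integral coefficients has half-integral root pairings -/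
theorem h34_relSum_halfInt {c : List ℝ} (hc : ∀ a ∈ c, HalfInt a) (l : List (ℝ × RootD n))
    (β : RootD n) : HalfInt (dot (relSum c l) β.vec) := by
  rw [dot_comm, lat_dot_relSum]
  apply h34_halfInt_sum
  intro i _
  apply h34_halfInt_mul_int _ (lat_dot_root_int _ _)
  by_cases hi : (i : ℕ) < c.length
  · rw [List.getD_eq_getElem _ _ hi]; exact hc _ (List.getElem_mem hi)
  · rw [List.getD_eq_default _ _ (by omega)]; exact ⟨0, by simp⟩

/-- schedules with `n` independent roots have half-integral coefficients -/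
theorem h34_coeff_halfInt_aux (lam xi : Vec n) (θ : Shape n) (L : Lbl lam θ xi) (w0 : WD n)
    (l : List (ℝ × RootD n)) (hs : IsSchedule lam θ xi w0 l) (hI : SwIndep l) (hl : l.length = n) :
    ∀ m ∈ swCoeffs θ ⟨w0.act, lam⟩ l, HalfInt m :=
  lat_coeff_half ⟨hI, hl⟩ _ (sc_coeffs_length _ _ _) (sc_balance_mem_Q lam xi θ L w0 l hs).1

variable (lam xi : Vec n) (θ : Shape n) (w0 : WD n) (l : List (ℝ × RootD n))
  (P : Finset (Fin n)) (X : ExcCtx lam θ xi w0 l P)

include X

/-- all coefficients of the exceptional schedule are half-integers -/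
theorem h34_coeff_halfInt : ∀ m ∈ swCoeffs θ ⟨w0.act, lam⟩ l, HalfInt m :=
  h34_coeff_halfInt_aux lam xi θ X.lbl w0 l X.sched X.exc.indep X.exc.len

/-- the translation parts have half-integral root pairings -/
theorem h34_c_halfInt (k : ℕ) (β : RootD n) :
    HalfInt (dot (stAt θ ⟨w0.act, lam⟩ l k).c β.vec) := by
  rw [sc_stAt_c, dot_sub_left]
  apply h34_halfInt_sub (h34_halfInt_of_int (sc_wt_dot_root lam X.lbl.wl β))
  apply h34_relSum_halfInt
  intro a ha
  exact h34_coeff_halfInt lam xi θ w0 l P X a (List.mem_of_mem_take ha)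

/-- a position tie has a half-integral level -/
theorem h34_tie_level (k : ℕ) (t : ℝ) (β : RootD n)
    (h : dot ((stAt θ ⟨w0.act, lam⟩ l k).pos θ t) β.vec = 0) :
    HalfInt (dot β.vec ((stAt θ ⟨w0.act, lam⟩ l k).frame (θ.val t))) := by
  unfold SwState.pos at h
  rw [dot_add_left] at h
  have h1 : dot β.vec ((stAt θ ⟨w0.act, lam⟩ l k).frame (θ.val t))
      = - dot (stAt θ ⟨w0.act, lam⟩ l k).c β.vec := by
    rw [dot_comm]; linarith
  rw [h1]
  exact h34_halfInt_neg (h34_c_halfInt lam xi θ w0 l P X k β)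

/-- every schedule has at least `n` switches -/
theorem h34_len_min (w0' : WD n) (l' : List (ℝ × RootD n)) (h : IsSchedule lam θ xi w0' l') :
    n ≤ l'.length := by
  by_contra hlt
  obtain ⟨P', hE⟩ := X.hard w0' l' h (by omega)
  exact hlt hE.len.ge

/-- every schedule with `n` switches is strict, a basis, and has half-integral coefficients -/
theorem h34_any_strict (w0' : WD n) (l' : List (ℝ × RootD n)) (h : IsSchedule lam θ xi w0' l')
    (hl : l'.length = n) : SwStrict θ ⟨w0'.act, lam⟩ l' ∧ SwIndep l' ∧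
      ∀ m ∈ swCoeffs θ ⟨w0'.act, lam⟩ l', HalfInt m := by
  obtain ⟨P', hE⟩ := X.hard w0' l' h hl.le
  refine ⟨?_, hE.indep, h34_coeff_halfInt_aux lam xi θ X.lbl w0' l' h hE.indep hl⟩
  apply sc_strict_of_min lam xi θ X.lbl.dom w0' l' h
  intro w0'' l'' h''
  rw [hl]
  exact h34_len_min lam xi θ w0 l P X w0'' l'' h''

end Levels


section Cluster

/-- reflections in roots orthogonal to `β` do not change the form of `β` -/
theorem h34_run_orth (θ : Shape n) (S : SwState n) (cl : List (ℝ × RootD n)) (β : RootD n)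
    (ho : ∀ q ∈ cl, dot q.2.vec β.vec = 0) (x : Vec n) :
    dot β.vec ((runSw θ S cl).frame x) = dot β.vec (S.frame x) := by
  induction cl generalizing S with
  | nil => rfl
  | cons q cl ih =>
    rw [runSw, ih _ (fun r hr => ho r (List.mem_cons_of_mem _ hr))]
    simp only [SwState.step, refl]
    rw [sc_dot_sub_right, sc_dot_smul_right, sc_dot_comm β.vec q.2.vec, ho q List.mem_cons_self]
    ring

/-- a cluster at time `τ` keeps the position at time `τ` -/
theorem h34_run_pos (θ : Shape n) (S : SwState n) (cl : List (ℝ × RootD n)) (τ : ℝ)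
    (hcl : ∀ q ∈ cl, q.1 = τ) : (runSw θ S cl).pos θ τ = S.pos θ τ := by
  induction cl generalizing S with
  | nil => rfl
  | cons q cl ih =>
    rw [runSw, ih _ (fun r hr => hcl r (List.mem_cons_of_mem _ hr)), hcl q List.mem_cons_self]
    exact sc_pos_step θ S τ q.2

/-- frame and translation part on an axis which is not used by the cluster -/
theorem h34_run_axis (θ : Shape n) (S : SwState n) (cl : List (ℝ × RootD n)) (i : Fin n)
    (hi : ∀ q ∈ cl, q.2.i ≠ i ∧ q.2.j ≠ i) :
    (∀ x, (runSw θ S cl).frame x i = S.frame x i) ∧ (runSw θ S cl).c i = S.c i := by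
  induction cl generalizing S with
  | nil => exact ⟨fun _ => rfl, rfl⟩
  | cons q cl ih =>
    obtain ⟨h1, h2⟩ := ih (S.step θ q.1 q.2) (fun r hr => hi r (List.mem_cons_of_mem _ hr))
    obtain ⟨a1, a2⟩ := hi q List.mem_cons_self
    have hv : q.2.vec i = 0 := scw_vec_other q.2 a1.symm a2.symm
    refine ⟨fun x => ?_, ?_⟩
    · rw [runSw, h1]; simp [SwState.step, refl, hv]
    · rw [runSw, h2]; simp [SwState.step, hv]

theorem h34_cntLt_split (l : List (ℝ × RootD n)) (hl : l.Pairwise (fun p q => p.1 ≤ q.1)) (s : ℝ) :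
    (∀ p ∈ l.take (cntLt l s), p.1 < s) ∧ ∀ p ∈ l.drop (cntLt l s), s ≤ p.1 := by
  classical
  induction l with
  | nil => simp
  | cons p l ih =>
    obtain ⟨hp, hl'⟩ := List.pairwise_cons.1 hl
    obtain ⟨ih1, ih2⟩ := ih hl'
    by_cases hps : p.1 < s
    · have e : cntLt (p :: l) s = cntLt l s + 1 := by
        unfold cntLt
        rw [List.filter_cons_of_pos (by simpa using hps)]
        rfl
      rw [e]
      refine ⟨?_, ?_⟩
      · intro q hq
        rw [List.take_succ_cons] at hq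
        rcases List.mem_cons.1 hq with rfl | hq
        · exact hps
        · exact ih1 q hq
      · intro q hq
        rw [List.drop_succ_cons] at hq
        exact ih2 q hq
    · have hps' : s ≤ p.1 := not_lt.1 hps
      have e : cntLt (p :: l) s = 0 := by
        unfold cntLt
        rw [List.length_eq_zero_iff, List.filter_eq_nil_iff]
        intro q hq
        rcases List.mem_cons.1 hq with rfl | hq
        · simpa using hps'
        · have := hp q hq
          simp only [decide_eq_true_eq, not_lt]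
          linarith
      rw [e]
      refine ⟨by simp, ?_⟩
      intro q hq
      rw [List.drop_zero] at hq
      rcases List.mem_cons.1 hq with rfl | hq
      · exact hps'
      · have := hp q hq
        linarith

theorem h34_cntLt_le_cntLe (l : List (ℝ × RootD n)) (τ : ℝ) : cntLt l τ ≤ cntLe l τ := by
  classical
  unfold cntLt cntLe
  refine (List.monotone_filter_right l ?_).length_le
  intro p hp
  simp only [decide_eq_true_eq] at hp ⊢
  exact hp.le

theorem h34_cntLe_split (l : List (ℝ × RootD n)) (hl : l.Pairwise (fun p q => p.1 ≤ q.1)) (s : ℝ) :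
    (∀ p ∈ l.take (cntLe l s), p.1 ≤ s) ∧ ∀ p ∈ l.drop (cntLe l s), s < p.1 := by
  classical
  induction l with
  | nil => simp
  | cons p l ih =>
    obtain ⟨hp, hl'⟩ := List.pairwise_cons.1 hl
    obtain ⟨ih1, ih2⟩ := ih hl'
    by_cases hps : p.1 ≤ s
    · have e : cntLe (p :: l) s = cntLe l s + 1 := by
        unfold cntLe
        rw [List.filter_cons_of_pos (by simpa using hps)]
        rfl
      rw [e]
      refine ⟨?_, ?_⟩
      · intro q hq
        rw [List.take_succ_cons] at hq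
        rcases List.mem_cons.1 hq with rfl | hq
        · exact hps
        · exact ih1 q hq
      · intro q hq
        rw [List.drop_succ_cons] at hq
        exact ih2 q hq
    · have hps' : s < p.1 := not_le.1 hps
      have e : cntLe (p :: l) s = 0 := by
        unfold cntLe
        rw [List.length_eq_zero_iff, List.filter_eq_nil_iff]
        intro q hq
        rcases List.mem_cons.1 hq with rfl | hq
        · simpa using hps'
        · have := hp q hq
          simp only [decide_eq_true_eq, not_le]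
          linarith
      rw [e]
      refine ⟨by simp, ?_⟩
      intro q hq
      rw [List.drop_zero] at hq
      rcases List.mem_cons.1 hq with rfl | hq
      · exact hps'
      · have := hp q hq
        linarith

end Cluster

section Replace

/-- REPLACEMENT of a cluster by another one with a `FrameEq` final state -/
theorem h34_replace (lam xi : Vec n) (θ : Shape n) (hθ : ∀ v ∈ θ, Dom v) (w0 : WD n)
    (l₁ cl cl' l₂ : List (ℝ × RootD n)) (τ : ℝ)
    (hs : IsSchedule lam θ xi w0 (l₁ ++ cl ++ l₂)) (hne : cl ≠ [])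
    (hcl : ∀ p ∈ cl, p.1 = τ) (hcl' : ∀ p ∈ cl', p.1 = τ)
    (hv : SwValid θ (runSw θ ⟨w0.act, lam⟩ l₁) cl')
    (hF : FrameEq θ (runSw θ (runSw θ ⟨w0.act, lam⟩ l₁) cl')
      (runSw θ (runSw θ ⟨w0.act, lam⟩ l₁) cl)) :
    IsSchedule lam θ xi w0 (l₁ ++ cl' ++ l₂) ∧
      swCoeffs θ ⟨w0.act, lam⟩ (l₁ ++ cl' ++ l₂) = swCoeffs θ ⟨w0.act, lam⟩ l₁ ++
        swCoeffs θ (runSw θ ⟨w0.act, lam⟩ l₁) cl' ++
        swCoeffs θ (runSw θ ⟨w0.act, lam⟩ (l₁ ++ cl)) l₂ ∧
      swGaps θ ⟨w0.act, lam⟩ (l₁ ++ cl' ++ l₂) = swGaps θ ⟨w0.act, lam⟩ l₁ ++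
        swGaps θ (runSw θ ⟨w0.act, lam⟩ l₁) cl' ++
        swGaps θ (runSw θ ⟨w0.act, lam⟩ (l₁ ++ cl)) l₂ ∧
      swTotals θ ⟨w0.act, lam⟩ (l₁ ++ cl' ++ l₂) = swTotals θ ⟨w0.act, lam⟩ l₁ ++
        swTotals θ (runSw θ ⟨w0.act, lam⟩ l₁) cl' ++
        swTotals θ (runSw θ ⟨w0.act, lam⟩ (l₁ ++ cl)) l₂ := by
  obtain ⟨p0, hp0⟩ := List.exists_mem_of_ne_nil cl hne
  have hp0τ : p0.1 = τ := hcl p0 hp0
  have hso := hs.sorted
  rw [List.pairwise_append, List.pairwise_append] at hso
  obtain ⟨⟨s1, s2, s3⟩, s4, s5⟩ := hso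
  have hval := hs.valid
  rw [sc_valid_append, sc_valid_append, sc_runSw_append] at hval
  obtain ⟨⟨v1, v2⟩, v3⟩ := hval
  refine ⟨⟨?_, ?_, ?_, ?_⟩, ?_, ?_, ?_⟩
  · intro p hp
    rw [List.mem_append, List.mem_append] at hp
    rcases hp with (hp | hp) | hp
    · exact hs.times_mem p (by simp [hp])
    · rw [hcl' p hp, ← hp0τ]
      exact hs.times_mem p0 (by simp [hp0])
    · exact hs.times_mem p (by simp [hp])
  · rw [List.pairwise_append, List.pairwise_append]
    refine ⟨⟨s1, ?_, ?_⟩, s4, ?_⟩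
    · rw [List.pairwise_iff_forall_sublist]
      intro a b hab
      have ha : a ∈ cl' := hab.subset (by simp)
      have hb : b ∈ cl' := hab.subset (by simp)
      rw [hcl' a ha, hcl' b hb]
    · intro a ha b hb
      rw [hcl' b hb, ← hp0τ]
      exact s3 a ha p0 hp0
    · intro a ha b hb
      rw [List.mem_append] at ha
      rcases ha with ha | ha
      · exact s5 a (by simp [ha]) b hb
      · rw [hcl' a ha, ← hp0τ]
        exact s5 p0 (by simp [hp0]) b hb
  · rw [sc_valid_append, sc_valid_append, sc_runSw_append]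
    exact ⟨⟨v1, hv⟩, (sc_frameEq_valid θ hθ _ _ hF l₂).2 v3⟩
  · obtain ⟨w, hw⟩ := hs.endpoint
    refine ⟨w, ?_⟩
    rw [← hw, sc_runSw_append, sc_runSw_append, sc_runSw_append, sc_runSw_append]
    exact sc_frameEq_pos θ hθ _ _ (sc_frameEq_run θ hθ _ _ hF l₂) _
  · rw [sc_coeffs_append, sc_coeffs_append, sc_runSw_append, sc_runSw_append,
      sc_frameEq_coeffs θ hθ _ _ hF l₂]
  · rw [sc_gaps_append, sc_gaps_append, sc_runSw_append, sc_runSw_append,
      sc_frameEq_gaps θ hθ _ _ hF l₂]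
  · rw [sc_totals_append, sc_totals_append, sc_runSw_append, sc_runSw_append,
      sc_frameEq_totals θ hθ _ _ hF l₂]

/-- the decomposition of a sorted list at a time `τ` -/
theorem h34_split_at (l : List (ℝ × RootD n)) (hl : l.Pairwise (fun p q => p.1 ≤ q.1)) (τ : ℝ) :
    l = l.take (cntLt l τ) ++ (l.take (cntLe l τ)).drop (cntLt l τ) ++ l.drop (cntLe l τ) ∧
      (∀ p ∈ l.take (cntLt l τ), p.1 < τ) ∧
      (∀ p ∈ (l.take (cntLe l τ)).drop (cntLt l τ), p.1 = τ) ∧
      (∀ p ∈ l.drop (cntLe l τ), τ < p.1) ∧ cntLt l τ ≤ cntLe l τ ∧ cntLe l τ ≤ l.length := by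
  have hk := h34_cntLt_le_cntLe l τ
  obtain ⟨a1, a2⟩ := h34_cntLt_split l hl τ
  obtain ⟨b1, b2⟩ := h34_cntLe_split l hl τ
  refine ⟨?_, a1, ?_, b2, hk, ?_⟩
  · have e : l.take (cntLt l τ) = (l.take (cntLe l τ)).take (cntLt l τ) := by
      rw [List.take_take, min_eq_left hk]
    rw [e, List.take_append_drop, List.take_append_drop]
  · intro p hp
    refine le_antisymm (b1 p (List.mem_of_mem_drop hp)) (a2 p ?_)
    rw [List.drop_take] at hp
    exact List.mem_of_mem_take hp
  · unfold cntLe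
    exact List.length_filter_le _ _

/-- a cluster of pairwise orthogonal simultaneous switches may be permuted -/
theorem h34_cluster_perm (θ : Shape n) (S : SwState n) (cl cl' : List (ℝ × RootD n)) (τ : ℝ)
    (hcl : ∀ p ∈ cl, p.1 = τ) (hp : cl.Perm cl')
    (ho : cl.Pairwise (fun p q => dot p.2.vec q.2.vec = 0)) :
    runSw θ S cl' = runSw θ S cl ∧ (SwValid θ S cl' ↔ SwValid θ S cl) := by
  induction hp generalizing S with
  | nil => exact ⟨rfl, Iff.rfl⟩
  | cons x _ ih =>
    rw [List.pairwise_cons] at ho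
    obtain ⟨i1, i2⟩ := ih (S.step θ x.1 x.2) (fun p hp => hcl p (List.mem_cons_of_mem _ hp)) ho.2
    refine ⟨i1, ?_⟩
    simp only [SwValid]
    rw [i2]
  | swap x y l =>
    -- `cl = y :: x :: l`, `cl' = x :: y :: l`
    rw [List.pairwise_cons] at ho
    have hyx : dot y.2.vec x.2.vec = 0 := ho.1 x (by simp)
    have hxy : dot x.2.vec y.2.vec = 0 := by rw [sc_dot_comm]; exact hyx
    have hx : x.1 = τ := hcl x (by simp)
    have hy : y.1 = τ := hcl y (by simp)
    have hrun := sc_comm_run θ S τ x.2 y.2 hxy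
    simp only [runSw] at hrun
    obtain ⟨-, d2, d3⟩ := sc_comm_data θ S τ x.2 y.2 hxy
    obtain ⟨-, d2', d3'⟩ := sc_comm_data θ S τ y.2 x.2 hyx
    refine ⟨?_, ?_⟩
    · simp only [runSw]
      rw [hx, hy, hrun]
    · simp only [SwValid]
      rw [hx, hy, hrun, d2, d3, d2', d3']
      tauto
  | trans h1 _ ih1 ih2 =>
    have hcl2 := fun p hp => hcl p (h1.mem_iff.2 hp)
    have ho2 := (h1.pairwise_iff (R := fun p q : ℝ × RootD n => dot p.2.vec q.2.vec = 0)
      (fun {a b} h => by rw [sc_dot_comm]; exact h)).1 ho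
    obtain ⟨a1, a2⟩ := ih1 S hcl ho
    obtain ⟨b1, b2⟩ := ih2 S hcl2 ho2
    exact ⟨b1.trans a1, b2.trans a2⟩

end Replace

section ClusterB

/-- a switch of the knot inside the cluster -/
theorem h34_knot_split (l : List (ℝ × RootD n)) (hl : l.Pairwise (fun p q => p.1 ≤ q.1)) (τ : ℝ)
    (p : ℝ × RootD n) (hp : p ∈ l) (hτ : p.1 = τ) :
    ∃ cl₁ cl₂, (l.take (cntLe l τ)).drop (cntLt l τ) = cl₁ ++ p :: cl₂ := by
  obtain ⟨e, h1, -, h3, -, -⟩ := h34_split_at l hl τ
  rw [e] at hp
  rcases List.mem_append.1 hp with hp | hp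
  · rcases List.mem_append.1 hp with hp | hp
    · exact absurd hτ (h1 p hp).ne
    · exact List.append_of_mem hp
  · exact absurd hτ (h3 p hp).ne'

/-- the state after the knot is obtained from the state before the knot by running the cluster -/
theorem h34_stAt_cntLe (θ : Shape n) (S : SwState n) (l : List (ℝ × RootD n)) (τ : ℝ) :
    stAt θ S l (cntLe l τ)
      = runSw θ (stAt θ S l (cntLt l τ)) ((l.take (cntLe l τ)).drop (cntLt l τ)) := by
  unfold stAt
  rw [← sc_runSw_append]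
  congr 1
  have e : l.take (cntLt l τ) = (l.take (cntLe l τ)).take (cntLt l τ) := by
    rw [List.take_take, min_eq_left (h34_cntLt_le_cntLe l τ)]
  rw [e, List.take_append_drop]

/-- relations inside a decomposed list -/
theorem h34_pairwise_mid {α : Type*} (R : α → α → Prop) (A c₁ c₂ B : List α) (p : α)
    (h : (A ++ (c₁ ++ p :: c₂) ++ B).Pairwise R) :
    (∀ q ∈ c₁, R q p) ∧ (∀ q ∈ c₂, R p q) := by
  have h1 := (List.pairwise_append.1 (List.pairwise_append.1 h).1).2.1
  obtain ⟨-, h2, h3⟩ := List.pairwise_append.1 h1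
  exact ⟨fun q hq => h3 q hq p List.mem_cons_self, fun q hq => (List.pairwise_cons.1 h2).1 q hq⟩

end ClusterB

end Claimed.Agent.R282
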