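import Claimed.Agent.R282.S34.H.Partner
import Claimed.Agent.R282.S34.H.Face
import Claimed.Agent.R282.S34.F.Orth

/-!
# Row 282, package H: simultaneous switches of the exceptional schedule have four distinct axes   (helper22)

`s34f_knot_orth` gives orthogonality; two orthogonal roots share no axis or both axes.  In the second case the two
forms agree on the face (genericity, both totals positive), so a coordinate form vanishes on the face: `h34_fs1`.
-/

set_option autoImplicit false

namespace Claimed.Agent.R282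

variable {n : ℕ}

/-- orthogonal roots with a common axis: equality of the two forms kills a coordinate -/
theorem h34d_share (β γ : RootD n) (h : dot β.vec γ.vec = 0)
    (hn : ¬ (β.i ≠ γ.i ∧ β.i ≠ γ.j ∧ β.j ≠ γ.i ∧ β.j ≠ γ.j)) :
    ∃ k : Fin n, ∀ y : Vec n, dot β.vec y = dot γ.vec y → y k = 0 := by
  have hd : dot β.vec γ.vec = sgnB γ.si * β.vec γ.i + sgnB γ.sj * β.vec γ.j := sc_dot_vec _ _
  rw [hd] at h
  have F : ∀ y : Vec n, dot β.vec y = dot γ.vec y →
      sgnB β.si * y β.i + sgnB β.sj * y β.j = sgnB γ.si * y γ.i + sgnB γ.sj * y γ.j := by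
    intro y hy
    rw [sc_dot_comm, sc_dot_vec, sc_dot_comm, sc_dot_vec] at hy
    exact hy
  by_cases h1 : γ.i = β.i
  · have hj1 : γ.j ≠ β.i := fun e => γ.ne (h1.trans e.symm)
    by_cases h2 : γ.j = β.j
    · rw [h1, h2, scw_vec_i, scw_vec_j] at h
      rcases sc_sgnB_cases β.si with a1 | a1 <;> rcases sc_sgnB_cases β.sj with a2 | a2 <;>
        rcases sc_sgnB_cases γ.si with a3 | a3 <;> rcases sc_sgnB_cases γ.sj with a4 | a4 <;>
        rw [a1, a2, a3, a4] at h <;>
        first
        | (exfalso; norm_num at h; done)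
        | exact ⟨β.i, fun y hy => by
            have := F y hy
            rw [h1, h2, a1, a2, a3, a4] at this
            linarith⟩
        | exact ⟨β.j, fun y hy => by
            have := F y hy
            rw [h1, h2, a1, a2, a3, a4] at this
            linarith⟩
    · exfalso
      rw [h1, scw_vec_i, scw_vec_other β hj1 h2] at h
      rcases sc_sgnB_cases β.si with a1 | a1 <;> rcases sc_sgnB_cases γ.si with a3 | a3 <;>
        rw [a1, a3] at h <;> norm_num at h
  · by_cases h1' : γ.i = β.j
    · have hj1 : γ.j ≠ β.j := fun e => γ.ne (h1'.trans e.symm)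
      by_cases h2 : γ.j = β.i
      · rw [h1', h2, scw_vec_i, scw_vec_j] at h
        rcases sc_sgnB_cases β.si with a1 | a1 <;> rcases sc_sgnB_cases β.sj with a2 | a2 <;>
          rcases sc_sgnB_cases γ.si with a3 | a3 <;> rcases sc_sgnB_cases γ.sj with a4 | a4 <;>
          rw [a1, a2, a3, a4] at h <;>
          first
          | (exfalso; norm_num at h; done)
          | exact ⟨β.i, fun y hy => by
              have := F y hy
              rw [h1', h2, a1, a2, a3, a4] at this
              linarith⟩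
          | exact ⟨β.j, fun y hy => by
              have := F y hy
              rw [h1', h2, a1, a2, a3, a4] at this
              linarith⟩
      · exfalso
        rw [h1', scw_vec_j, scw_vec_other β h2 hj1] at h
        rcases sc_sgnB_cases β.sj with a1 | a1 <;> rcases sc_sgnB_cases γ.si with a3 | a3 <;>
          rw [a1, a3] at h <;> norm_num at h
    · exfalso
      rw [scw_vec_other β h1 h1'] at h
      by_cases h2 : γ.j = β.i
      · rw [h2, scw_vec_i] at h
        rcases sc_sgnB_cases β.si with a1 | a1 <;> rcases sc_sgnB_cases γ.sj with a3 | a3 <;>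
          rw [a1, a3] at h <;> norm_num at h
      · by_cases h2' : γ.j = β.j
        · rw [h2', scw_vec_j] at h
          rcases sc_sgnB_cases β.sj with a1 | a1 <;> rcases sc_sgnB_cases γ.sj with a3 | a3 <;>
            rw [a1, a3] at h <;> norm_num at h
        · exact hn ⟨fun e => h1 e.symm, fun e => h2 e.symm, fun e => h1' e.symm,
            fun e => h2' e.symm⟩

/-- adjacent simultaneous switches have four distinct axes -/
theorem h34d_adj (lam xi : Vec n) (θ : Shape n) (L : Lbl lam θ xi) (G : GenericShape θ)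
    (H : Hard lam θ xi) (w0 : WD n) (l₁ l₂ : List (ℝ × RootD n)) (τ : ℝ) (β β' : RootD n)
    (hs : IsSchedule lam θ xi w0 (l₁ ++ (τ, β) :: (τ, β') :: l₂))
    (hlen : (l₁ ++ (τ, β) :: (τ, β') :: l₂).length ≤ n) :
    β.i ≠ β'.i ∧ β.i ≠ β'.j ∧ β.j ≠ β'.i ∧ β.j ≠ β'.j := by
  by_contra hn
  have horth := s34f_adj_orth lam xi θ L G H w0 l₁ l₂ τ β β' hs hlen
  obtain ⟨h0, h1, hβ, hβ', lβ, lβ'⟩ := s34fo_adj_data lam xi θ L H w0 l₁ l₂ τ β β' hs hlen
  rw [sc_refl_of_orth β β'.vec (by rw [sc_dot_comm]; exact horth)] at hβ' lβ'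
  have hf : IsFrame (runSw θ ⟨w0.act, lam⟩ l₁).frame :=
    sc_isFrame_runSw θ _ (sc_isFrame_act w0) l₁
  have hform := s34fo_forms_eq θ G _ hf τ h0 h1 β β' hβ hβ' lβ lβ'
  obtain ⟨k, hk⟩ := h34d_share β β' horth hn
  obtain ⟨x, hx, hne⟩ := h34_fs1 θ.sum L.hz _ hf (k, false)
  apply hne
  unfold lv
  rw [hk _ (hform x hx), mul_zero]

theorem h34d_far (lam xi : Vec n) (θ : Shape n) (L : Lbl lam θ xi) (G : GenericShape θ)
    (H : Hard lam θ xi) (mid : List (ℝ × RootD n)) :
    ∀ (w0 : WD n) (l₁ l₂ : List (ℝ × RootD n)) (p q : ℝ × RootD n),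
      IsSchedule lam θ xi w0 (l₁ ++ p :: (mid ++ q :: l₂)) →
      (l₁ ++ p :: (mid ++ q :: l₂)).length ≤ n → AxDisj p q := by
  induction mid using List.reverseRecOn with
  | nil =>
    intro w0 l₁ l₂ p q hs hlen hpq
    obtain ⟨tp, β⟩ := p
    obtain ⟨tq, β'⟩ := q
    simp only at hpq
    subst hpq
    exact h34d_adj lam xi θ L G H w0 l₁ l₂ tp β β' hs hlen
  | append_singleton mid r ih =>
    intro w0 l₁ l₂ p q hs hlen hpq
    have e : l₁ ++ p :: ((mid ++ [r]) ++ q :: l₂) = (l₁ ++ p :: mid) ++ r :: q :: l₂ := by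
      simp [List.append_assoc]
    rw [e] at hs hlen
    have hsort := hs.sorted
    rw [List.pairwise_append, List.pairwise_cons] at hsort
    have s1 : p.1 ≤ r.1 := hsort.2.2 p (by simp) r (by simp)
    have s2 : r.1 ≤ q.1 := hsort.2.1.1 q (by simp)
    have hrq : r.1 = q.1 := le_antisymm s2 (by rw [← hpq]; exact s1)
    obtain ⟨tr, γ⟩ := r
    obtain ⟨tq, γ'⟩ := q
    simp only at hrq hpq
    subst hrq
    have horth := s34f_adj_orth lam xi θ L G H w0 (l₁ ++ p :: mid) l₂ tr γ γ' hs hlen
    have hs' := sc_comm_schedule lam xi θ w0 (l₁ ++ p :: mid) l₂ tr γ γ' horth hs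
    have e' : (l₁ ++ p :: mid) ++ (tr, γ') :: (tr, γ) :: l₂
        = l₁ ++ p :: (mid ++ (tr, γ') :: ((tr, γ) :: l₂)) := by
      simp [List.append_assoc]
    rw [e'] at hs'
    refine ih w0 l₁ ((tr, γ) :: l₂) p (tr, γ') hs' ?_ hpq
    rw [← e']
    simpa using hlen

/-- **simultaneous switches of a short schedule have four distinct axes.** -/
theorem h34d_knot_disjoint (lam xi : Vec n) (θ : Shape n) (L : Lbl lam θ xi) (G : GenericShape θ)
    (H : Hard lam θ xi) (w0 : WD n) (l : List (ℝ × RootD n)) (hs : IsSchedule lam θ xi w0 l)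
    (hlen : l.length ≤ n) : l.Pairwise AxDisj := by
  refine s34fo_pairwise_of_split _ l ?_
  intro l₁ mid l₂ p q e
  subst e
  exact h34d_far lam xi θ L G H mid w0 l₁ l₂ p q hs hlen

/-- alias (name used by `H/Knot.lean`, `H/Split.lean`, `H/KnotPhase.lean`) -/
theorem h34_knot_disjoint (lam xi : Vec n) (θ : Shape n) (L : Lbl lam θ xi) (G : GenericShape θ)
    (H : Hard lam θ xi) (w0 : WD n) (l : List (ℝ × RootD n)) (hs : IsSchedule lam θ xi w0 l)
    (hlen : l.length ≤ n) : l.Pairwise AxDisj :=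
  h34d_knot_disjoint lam xi θ L G H w0 l hs hlen

/-- the form used in package H -/
theorem h34_axDisj (lam xi : Vec n) (θ : Shape n) (w0 : WD n) (l : List (ℝ × RootD n))
    (P : Finset (Fin n)) (X : ExcCtx lam θ xi w0 l P) : l.Pairwise AxDisj :=
  h34d_knot_disjoint lam xi θ X.lbl X.gen X.hard w0 l X.sched X.exc.len.le

end Claimed.Agent.R282
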