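import Claimed.Agent.R282.S34.H.Disj
import Claimed.Agent.R282.S34.Lat.Phase
import Claimed.Agent.R282.S34.Lat.Exc

/-!
# Row 282, package H: phases and types of the switches of one knot (leaf L-H-F2, helper90)

Index forms, prefix `h34k_`.  `k = cntLt l τ`, `k' = cntLe l τ`: the switches at time `τ` are those with index in `[k, k')`
(`h34_split_at`); they have pairwise disjoint axes (`h34_knot_disjoint`), so the phase of an axis of the `j`-th switch changes only at `j`
(`lat_phase_off`), where `lat_phase_bridge` / `lat_phase_cyc` apply.  All switches of a knot have the same coefficient up to sign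
(`h34_single`), and bridges have integral, cycle edges half-odd coefficients (`lat_exc_coeff_*`).
-/

set_option autoImplicit false

namespace Claimed.Agent.R282

variable {n : ℕ}

/-- the switches at time `τ` are those with index in `[cntLt, cntLe)` -/
theorem h34k_time_iff (l : List (ℝ × RootD n)) (hl : l.Pairwise (fun p q => p.1 ≤ q.1)) (τ : ℝ)
    (j : ℕ) (hj : j < l.length) : l[j].1 = τ ↔ cntLt l τ ≤ j ∧ j < cntLe l τ := by
  obtain ⟨-, h1, h2, h3, h4, h5⟩ := h34_split_at l hl τ
  by_cases ha : j < cntLt l τ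
  · have hm : l[j] ∈ l.take (cntLt l τ) := by
      have hlen : j < (l.take (cntLt l τ)).length := by
        rw [List.length_take]; omega
      have := List.getElem_mem hlen
      rwa [List.getElem_take] at this
    have := h1 _ hm
    constructor
    · intro h; exact absurd h this.ne
    · intro h; omega
  · by_cases hb : j < cntLe l τ
    · have hm : l[j] ∈ (l.take (cntLe l τ)).drop (cntLt l τ) := by
        have hlen : j - cntLt l τ < ((l.take (cntLe l τ)).drop (cntLt l τ)).length := by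
          rw [List.length_drop, List.length_take]; omega
        have := List.getElem_mem hlen
        rw [List.getElem_drop, List.getElem_take] at this
        have e : cntLt l τ + (j - cntLt l τ) = j := by omega
        simpa only [e] using this
      exact ⟨fun _ => ⟨by omega, hb⟩, fun _ => h2 _ hm⟩
    · have hm : l[j] ∈ l.drop (cntLe l τ) := by
        have hlen : j - cntLe l τ < (l.drop (cntLe l τ)).length := by
          rw [List.length_drop]; omega
        have := List.getElem_mem hlen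
        rw [List.getElem_drop] at this
        have e : cntLe l τ + (j - cntLe l τ) = j := by omega
        simpa only [e] using this
      have := h3 _ hm
      constructor
      · intro h; exact absurd h this.ne'
      · intro h; omega

/-- the phase of an axis is constant along switches not incident to it -/
theorem h34k_phase_const {l : List (ℝ × RootD n)} (h : SwBasis l) (c : Fin n) {k k' : ℕ}
    (hkk : k ≤ k') (hk' : k' ≤ l.length)
    (hoff : ∀ (j : ℕ) (hj : j < l.length), k ≤ j → j < k' → c ≠ l[j].2.i ∧ c ≠ l[j].2.j) :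
    phase l k' c = phase l k c := by
  induction k', hkk using Nat.le_induction with
  | base => rfl
  | succ m hm ih =>
    have hml : m < l.length := by omega
    obtain ⟨e1, e2⟩ := hoff m hml hm (Nat.lt_succ_self m)
    rw [lat_phase_off h hml c e1 e2]
    exact ih (by omega) (fun j hj h1 h2 => hoff j hj h1 (by omega))

/-- two different simultaneous switches have disjoint axes (index form) -/
theorem h34k_disj {l : List (ℝ × RootD n)} (hd : l.Pairwise AxDisj) {j j' : ℕ} (hj : j < l.length)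
    (hj' : j' < l.length) (hne : j' ≠ j) (ht : l[j'].1 = l[j].1) (c : Fin n)
    (hc : c = l[j].2.i ∨ c = l[j].2.j) : c ≠ l[j'].2.i ∧ c ≠ l[j'].2.j := by
  rw [List.pairwise_iff_getElem] at hd
  rcases lt_or_gt_of_ne hne with hlt | hlt
  · obtain ⟨a1, a2, a3, a4⟩ := hd j' j hj' hj hlt ht
    rcases hc with rfl | rfl
    · exact ⟨a1.symm, a3.symm⟩
    · exact ⟨a2.symm, a4.symm⟩
  · obtain ⟨a1, a2, a3, a4⟩ := hd j j' hj hj' hlt ht.symm
    rcases hc with rfl | rfl
    · exact ⟨a1, a2⟩
    · exact ⟨a3, a4⟩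

/-- the phase of an axis of a switch of the knot only changes at this switch -/
theorem h34k_phase_step {l : List (ℝ × RootD n)} (h : SwBasis l)
    (hs : l.Pairwise (fun p q => p.1 ≤ q.1)) (hd : l.Pairwise AxDisj) (τ : ℝ) {j : ℕ}
    (hj : j < l.length) (hτ : l[j].1 = τ) (c : Fin n) (hc : c = l[j].2.i ∨ c = l[j].2.j) :
    phase l j c = phase l (cntLt l τ) c ∧ phase l (cntLe l τ) c = phase l (j + 1) c := by
  obtain ⟨h1, h2⟩ := (h34k_time_iff l hs τ j hj).1 hτ
  have h5 : cntLe l τ ≤ l.length := (h34_split_at l hs τ).2.2.2.2.2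
  constructor
  · apply h34k_phase_const h c h1 hj.le
    intro j' hj' e1 e2
    apply h34k_disj hd hj hj' (by omega) _ c hc
    rw [hτ]
    exact (h34k_time_iff l hs τ j' hj').2 ⟨e1, by omega⟩
  · apply h34k_phase_const h c h2 h5
    intro j' hj' e1 e2
    apply h34k_disj hd hj hj' (by omega) _ c hc
    rw [hτ]
    exact (h34k_time_iff l hs τ j' hj').2 ⟨by omega, e2⟩

/-- phases at a switch of the knot, with its type -/
theorem h34k_knot_phase {l : List (ℝ × RootD n)} (h : SwBasis l)
    (hs : l.Pairwise (fun p q => p.1 ≤ q.1)) (hd : l.Pairwise AxDisj) (τ : ℝ) {j : ℕ}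
    (hj : j < l.length) (hτ : l[j].1 = τ) :
    (IsCyc l j ∧ phase l (cntLe l τ) l[j].2.i = phase l (cntLt l τ) l[j].2.i + 1 / 2 ∧
      phase l (cntLe l τ) l[j].2.j = phase l (cntLt l τ) l[j].2.j + 1 / 2) ∨
    (IsBridge l j ∧
      ((phase l (cntLe l τ) l[j].2.i = phase l (cntLt l τ) l[j].2.i + 1 ∧
        phase l (cntLe l τ) l[j].2.j = phase l (cntLt l τ) l[j].2.j) ∨
      (phase l (cntLe l τ) l[j].2.i = phase l (cntLt l τ) l[j].2.i ∧
        phase l (cntLe l τ) l[j].2.j = phase l (cntLt l τ) l[j].2.j + 1))) := by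
  obtain ⟨i1, i2⟩ := h34k_phase_step h hs hd τ hj hτ l[j].2.i (Or.inl rfl)
  obtain ⟨j1, j2⟩ := h34k_phase_step h hs hd τ hj hτ l[j].2.j (Or.inr rfl)
  rw [i2, j2, ← i1, ← j1]
  rcases lat_bridge_or_cyc h hj with hb | hc
  · right
    refine ⟨hb, ?_⟩
    rcases lat_phase_bridge h hj hb with ⟨e1, e2, e3⟩ | ⟨e1, e2, e3⟩
    · left; exact ⟨by rw [e1, e2]; norm_num, e3⟩
    · right; exact ⟨e3, by rw [e1, e2]; norm_num⟩
  · left
    exact ⟨hc, lat_phase_cyc h hj hc⟩

/-- an axis of a switch of the knot advances by `1/2` iff the switch is a cycle edge -/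
theorem h34k_cyc_iff {l : List (ℝ × RootD n)} (h : SwBasis l)
    (hs : l.Pairwise (fun p q => p.1 ≤ q.1)) (hd : l.Pairwise AxDisj) (τ : ℝ) {j : ℕ}
    (hj : j < l.length) (hτ : l[j].1 = τ) (c : Fin n) (hc : c = l[j].2.i ∨ c = l[j].2.j) :
    phase l (cntLe l τ) c = phase l (cntLt l τ) c + 1 / 2 ↔ IsCyc l j := by
  rcases h34k_knot_phase h hs hd τ hj hτ with ⟨hcyc, c1, c2⟩ | ⟨hb, hh⟩
  · refine ⟨fun _ => hcyc, fun _ => ?_⟩
    rcases hc with rfl | rfl
    · exact c1
    · exact c2
  · have hn := lat_not_bridge_cyc (lat_basis_span h) hj hb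
    refine ⟨fun e => ?_, fun e => absurd e hn⟩
    exfalso
    rcases hh with ⟨c1, c2⟩ | ⟨c1, c2⟩ <;> rcases hc with rfl | rfl
    · rw [c1] at e; linarith
    · rw [c2] at e; linarith
    · rw [c1] at e; linarith
    · rw [c2] at e; linarith

/-- the axes of a transfer -/
theorem h34k_axes (β : RootD n) (a b : Lab n)
    (h : β.vec = Pi.single b.1 (sgnB b.2) - Pi.single a.1 (sgnB a.2)) :
    (a.1 = β.i ∧ b.1 = β.j) ∨ (a.1 = β.j ∧ b.1 = β.i) := by
  have key : ∀ c : Fin n, β.vec c ≠ 0 → c = b.1 ∨ c = a.1 := by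
    intro c hc
    by_contra hcon
    push Not at hcon
    apply hc
    rw [h]
    simp [hcon.1, hcon.2]
  have hi := key β.i (by rw [lat_vec_i]; exact lat_sgnB_ne_zero _)
  have hj := key β.j (by rw [lat_vec_j]; exact lat_sgnB_ne_zero _)
  have hne := β.ne
  rcases hi with hi | hi <;> rcases hj with hj | hj
  · exact absurd (hi.trans hj.symm) hne
  · right; exact ⟨hj.symm, hi.symm⟩
  · left; exact ⟨hi.symm, hj.symm⟩
  · exact absurd (hi.trans hj.symm) hne

section Ctx

variable (lam xi : Vec n) (θ : Shape n) (w0 : WD n) (l : List (ℝ × RootD n))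
  (P : Finset (Fin n)) (X : ExcCtx lam θ xi w0 l P) (τ : ℝ)

include X

/-- all switches of a knot have the same coefficient up to sign -/
theorem h34k_coeff_pm {j j' : ℕ} (hj : j < l.length) (hj' : j' < l.length) (hτ : l[j].1 = τ)
    (hτ' : l[j'].1 = τ) :
    (swCoeffs θ ⟨w0.act, lam⟩ l).getD j 0 = (swCoeffs θ ⟨w0.act, lam⟩ l).getD j' 0 ∨
      (swCoeffs θ ⟨w0.act, lam⟩ l).getD j 0 = - (swCoeffs θ ⟨w0.act, lam⟩ l).getD j' 0 := by
  obtain ⟨⟨ht, -, htot⟩, -, hhalf⟩ := h34_any_strict lam xi θ w0 l P X w0 l X.sched X.exc.len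
  have hlen : (swCoeffs θ ⟨w0.act, lam⟩ l).length = l.length := sc_coeffs_length _ _ _
  have hlen' : (swTotals θ ⟨w0.act, lam⟩ l).length = l.length := sc_totals_length _ _ _
  have data : ∀ (i : ℕ) (hi : i < l.length), l[i].1 = τ →
      dot l[i].2.vec ((stAt θ ⟨w0.act, lam⟩ l i).frame θ.sum) ≠ 0 ∧
      HalfInt (dot l[i].2.vec ((stAt θ ⟨w0.act, lam⟩ l i).frame (θ.val τ))) ∧
      (swCoeffs θ ⟨w0.act, lam⟩ l).getD i 0
        = - dot l[i].2.vec ((stAt θ ⟨w0.act, lam⟩ l i).frame (θ.val τ)) := by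
    intro i hi hiτ
    have e1 := sc_coeffs_get θ ⟨w0.act, lam⟩ l i hi
    have e2 := sc_totals_get θ ⟨w0.act, lam⟩ l i hi
    unfold SwState.coeff at e1
    unfold SwState.total at e2
    rw [hiτ] at e1
    have p1 : 0 < (swTotals θ ⟨w0.act, lam⟩ l).getD i 0 := by
      rw [List.getD_eq_getElem _ _ (hlen' ▸ hi)]
      exact htot _ (List.getElem_mem _)
    have p2 : HalfInt ((swCoeffs θ ⟨w0.act, lam⟩ l).getD i 0) := by
      rw [List.getD_eq_getElem _ _ (hlen ▸ hi)]
      exact hhalf _ (List.getElem_mem _)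
    refine ⟨?_, ?_, e1⟩
    · intro h0; rw [e2, h0] at p1; simp at p1
    · have := h34_halfInt_neg p2
      rwa [e1, neg_neg] at this
  obtain ⟨a1, a2, a3⟩ := data j hj hτ
  obtain ⟨b1, b2, b3⟩ := data j' hj' hτ'
  have hτ0 := ht _ (List.getElem_mem hj)
  rw [hτ] at hτ0
  have hF := sc_inFace_val θ X.lbl.dom τ
  rcases h34_single θ X.gen _ _ (sc_isFrame_stAt θ ⟨w0.act, lam⟩ (sc_isFrame_act w0) l j)
    (sc_isFrame_stAt θ ⟨w0.act, lam⟩ (sc_isFrame_act w0) l j') l[j].2 l[j'].2 τ hτ0.1 hτ0.2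
    a1 b1 a2 b2 with h | h
  · left; rw [a3, b3, h _ hF]
  · right; rw [a3, b3, h _ hF]

/-- all switches of a knot have the same type -/
theorem h34k_same_type {j j' : ℕ} (hj : j < l.length) (hj' : j' < l.length) (hτ : l[j].1 = τ)
    (hτ' : l[j'].1 = τ) (hc : IsCyc l j) : IsCyc l j' := by
  rcases lat_bridge_or_cyc (lat_exc_basis X.exc) hj' with hb | hc'
  · exfalso
    obtain ⟨z, hz⟩ := lat_exc_coeff_cyc lam xi θ X.lbl w0 X.sched X.exc hj hc
    obtain ⟨z', hz'⟩ := lat_exc_coeff_bridge lam xi θ X.lbl w0 X.sched X.exc hj' hb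
    rcases h34k_coeff_pm lam xi θ w0 l P X τ hj hj' hτ hτ' with h | h <;> rw [hz, hz'] at h
    · have : (2 * z + 1 : ℤ) = 2 * z' := by
        have h2 : (2 * (z : ℝ) + 1) = 2 * z' := by linarith
        exact_mod_cast h2
      omega
    · have : (2 * z + 1 : ℤ) = - (2 * z') := by
        have h2 : (2 * (z : ℝ) + 1) = - (2 * z') := by linarith
        exact_mod_cast h2
      omega
  · exact hc'

end Ctx

end Claimed.Agent.R282
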