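import Claimed.Agent.R282.S34.H.Disj

/-!
# Row 282, package H: classes of a knot and spectators (tools for L-H-F3, L-H-F4)   (helper49)

* `h34q_knot_sw`, `h34q_transfer_sw`: every switch of a knot read in the state BEFORE the knot;
* `h34q_lab_single`: genericity for differences of labels;
* `h34q_two_forms`: two transfers of one knot are in the same class or in mirror classes (forms on the face);
* `h34q_tie_class`;
* `h34q_noBlock_at`, `h34q_block_lab`: the blocker corollary at a switch of the knot;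
* `h34q_block_pair`: the two blocker corollaries for two transfers, in the order of the list;
* `h34q_spect`: the arithmetic of a spectator.
-/

set_option autoImplicit false

namespace Claimed.Agent.R282

variable {n : ℕ}

section Lab

theorem h34q_dot_labVec (a : Lab n) (y : Vec n) : dot (labVec a) y = lv y a := by
  unfold dot labVec lv
  rw [Finset.sum_eq_single a.1]
  · rw [Pi.single_eq_same]
  · intro i _ hi
    rw [Pi.single_eq_of_ne hi, zero_mul]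
  · intro h
    exact absurd (Finset.mem_univ _) h

theorem h34q_dot_transfer (β : RootD n) (a b : Lab n) (h : β.vec = labVec b - labVec a)
    (y : Vec n) : dot β.vec y = lv y b - lv y a := by
  rw [h, sc_dot_sub_left, h34q_dot_labVec, h34q_dot_labVec]

theorem h34q_labDiff_vec (a c : Lab n) (h : a.1 ≠ c.1) :
    (labDiff a c h).vec = labVec a - labVec c := by
  funext k
  simp only [labDiff, RootD.vec, labVec, Pi.sub_apply, Pi.single_apply, h34_sgnB_not]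
  by_cases h1 : k = a.1
  · subst h1
    simp [h]
  · by_cases h2 : k = c.1
    · simp [h2, sub_eq_add_neg]
    · simp [h1, h2]

theorem h34q_sgnB_ne (b : Bool) : sgnB b ≠ 0 := by
  rcases sc_sgnB_cases b with h | h <;> rw [h] <;> norm_num

/-- the axes of a root `e_b - e_a` -/
theorem h34q_axes (β : RootD n) (a b : Lab n) (h : β.vec = labVec b - labVec a) :
    a.1 ≠ b.1 ∧ ((β.i = a.1 ∧ β.j = b.1) ∨ (β.i = b.1 ∧ β.j = a.1)) := by
  have hmem : ∀ k, β.vec k ≠ 0 → k = a.1 ∨ k = b.1 := by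
    intro k hk
    by_contra hcon
    push Not at hcon
    apply hk
    rw [h]
    simp only [labVec, Pi.sub_apply]
    rw [Pi.single_eq_of_ne hcon.2, Pi.single_eq_of_ne hcon.1, sub_zero]
  have hi := hmem β.i (by rw [scw_vec_i]; exact h34q_sgnB_ne _)
  have hj := hmem β.j (by rw [scw_vec_j]; exact h34q_sgnB_ne _)
  have hne := β.ne
  rcases hi with hi | hi <;> rcases hj with hj | hj
  · exact absurd (hi.trans hj.symm) hne
  · exact ⟨fun e => hne (hi.trans (e.trans hj.symm)), Or.inl ⟨hi, hj⟩⟩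
  · exact ⟨fun e => hne (hi.trans (e.symm.trans hj.symm)), Or.inr ⟨hi, hj⟩⟩
  · exact absurd (hi.trans hj.symm) hne

/-- `lv` only depends on one coordinate -/
theorem h34q_lv_congr (x y : Vec n) (a : Lab n) (h : x a.1 = y a.1) : lv x a = lv y a := by
  unfold lv
  rw [h]

end Lab

section Sw

variable (lam xi : Vec n) (θ : Shape n) (w0 : WD n) (l : List (ℝ × RootD n))
  (P : Finset (Fin n)) (X : ExcCtx lam θ xi w0 l P)

include X

/-- the list cut at a switch of the knot -/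
theorem h34q_cut (τ : ℝ) (c₁ c₂ : List (ℝ × RootD n)) (p : ℝ × RootD n)
    (hmid : (l.take (cntLe l τ)).drop (cntLt l τ) = c₁ ++ p :: c₂) :
    l = (l.take (cntLt l τ) ++ c₁) ++ (p :: (c₂ ++ l.drop (cntLe l τ))) ∧
    l = l.take (cntLt l τ) ++ (c₁ ++ p :: c₂) ++ l.drop (cntLe l τ) ∧
    (∀ q ∈ c₁ ++ p :: c₂, q.1 = τ) ∧
    runSw θ ⟨w0.act, lam⟩ (l.take (cntLt l τ) ++ c₁)
      = runSw θ (stAt θ ⟨w0.act, lam⟩ l (cntLt l τ)) c₁ := by
  obtain ⟨e, -, h2, -, -, -⟩ := h34_split_at l X.sched.sorted τ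
  rw [hmid] at e h2
  refine ⟨?_, e, h2, ?_⟩
  · conv_lhs => rw [e]
    simp [List.append_assoc]
  · rw [sc_runSw_append]
    rfl

/-- every switch of a knot, read in the state BEFORE the knot: positive gap, positive total,
half-integral level -/
theorem h34q_knot_sw (τ : ℝ) (p : ℝ × RootD n) (hp : p ∈ l) (hτ : p.1 = τ) :
    0 < dot (kY θ ⟨w0.act, lam⟩ l τ) p.2.vec ∧
    dot p.2.vec (kVm θ ⟨w0.act, lam⟩ l τ) < 0 ∧
    HalfInt (dot p.2.vec ((stAt θ ⟨w0.act, lam⟩ l (cntLt l τ)).frame (θ.val τ))) := by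
  obtain ⟨cl₁, cl₂, hcl⟩ := h34_knot_split l X.sched.sorted τ p hp hτ
  obtain ⟨e', e, h2, hrun⟩ := h34q_cut lam xi θ w0 l P X τ cl₁ cl₂ p hcl
  obtain ⟨-, -, hst, hhalf⟩ := s34f_hard_data lam xi θ X.lbl X.hard w0 l X.sched X.exc.len.le
  have horth := s34f_knot_orth lam xi θ X.lbl X.gen X.hard w0 l X.sched X.exc.len.le
  unfold kY kVm
  set A := l.take (cntLt l τ) with hA
  set B := l.drop (cntLe l τ) with hB
  set S := stAt θ ⟨w0.act, lam⟩ l (cntLt l τ) with hS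
  have ho : ∀ q ∈ cl₁, dot q.2.vec p.2.vec = 0 := by
    intro q hq
    have h := (h34_pairwise_mid _ A cl₁ cl₂ B p (e ▸ horth)).1 q hq
    exact h ((h2 q (List.mem_append_left _ hq)).trans hτ.symm)
  have ht : ∀ q ∈ cl₁, q.1 = τ := fun q hq => h2 q (List.mem_append_left _ hq)
  have mg : (runSw θ S cl₁).gap θ p.1 p.2 ∈ swGaps θ ⟨w0.act, lam⟩ l := by
    have hh : swGaps θ ⟨w0.act, lam⟩ l = swGaps θ ⟨w0.act, lam⟩ (A ++ cl₁)
        ++ swGaps θ (runSw θ S cl₁) (p :: (cl₂ ++ B)) := by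
      conv_lhs => rw [e']
      rw [sc_gaps_append, hrun]
    rw [hh]
    exact List.mem_append_right _ List.mem_cons_self
  have mt : (runSw θ S cl₁).total θ p.2 ∈ swTotals θ ⟨w0.act, lam⟩ l := by
    have hh : swTotals θ ⟨w0.act, lam⟩ l = swTotals θ ⟨w0.act, lam⟩ (A ++ cl₁)
        ++ swTotals θ (runSw θ S cl₁) (p :: (cl₂ ++ B)) := by
      conv_lhs => rw [e']
      rw [sc_totals_append, hrun]
    rw [hh]
    exact List.mem_append_right _ List.mem_cons_self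
  have mc : (runSw θ S cl₁).coeff θ p.1 p.2 ∈ swCoeffs θ ⟨w0.act, lam⟩ l := by
    have hh : swCoeffs θ ⟨w0.act, lam⟩ l = swCoeffs θ ⟨w0.act, lam⟩ (A ++ cl₁)
        ++ swCoeffs θ (runSw θ S cl₁) (p :: (cl₂ ++ B)) := by
      conv_lhs => rw [e']
      rw [sc_coeffs_append, hrun]
    rw [hh]
    exact List.mem_append_right _ List.mem_cons_self
  have g := hst.2.1 _ mg
  have t := hst.2.2 _ mt
  have c := hhalf _ mc
  unfold SwState.gap at g
  unfold SwState.total at t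
  unfold SwState.coeff at c
  rw [hτ, h34_run_pos θ S cl₁ τ ht] at g
  rw [h34_run_orth θ S cl₁ p.2 ho] at t
  rw [hτ, h34_run_orth θ S cl₁ p.2 ho] at c
  refine ⟨g, by linarith, ?_⟩
  have := h34_halfInt_neg c
  rwa [neg_neg] at this

omit X in
theorem h34q_isFrame (k : ℕ) : IsFrame (stAt θ ⟨w0.act, lam⟩ l k).frame :=
  sc_isFrame_stAt θ _ (sc_isFrame_act w0) l _

/-- a transfer read in the state before the knot -/
theorem h34q_transfer_sw (τ : ℝ) (a b : Lab n) (h : IsTransfer l τ a b) :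
    lv (kY θ ⟨w0.act, lam⟩ l τ) a < lv (kY θ ⟨w0.act, lam⟩ l τ) b ∧
    lv (kVm θ ⟨w0.act, lam⟩ l τ) b < lv (kVm θ ⟨w0.act, lam⟩ l τ) a ∧
    HalfInt (lv ((stAt θ ⟨w0.act, lam⟩ l (cntLt l τ)).frame (θ.val τ)) a
      - lv ((stAt θ ⟨w0.act, lam⟩ l (cntLt l τ)).frame (θ.val τ)) b) ∧
    0 < τ ∧ τ < (θ.length : ℝ) ∧ a.1 ≠ b.1 ∧ (a.1 ∈ P ↔ b.1 ∈ P) := by
  obtain ⟨p, hp, hτ, hv⟩ := h
  obtain ⟨g, t, c⟩ := h34q_knot_sw lam xi θ w0 l P X τ p hp hτ
  obtain ⟨-, -, hst, -⟩ := s34f_hard_data lam xi θ X.lbl X.hard w0 l X.sched X.exc.len.le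
  obtain ⟨i0, i1⟩ := hst.1 p hp
  obtain ⟨hne, hax⟩ := h34q_axes p.2 a b hv
  rw [sc_dot_comm, h34q_dot_transfer p.2 a b hv] at g
  rw [h34q_dot_transfer p.2 a b hv] at t c
  refine ⟨by linarith, by linarith, ?_, hτ ▸ i0, hτ ▸ i1, hne, ?_⟩
  · have := h34_halfInt_neg c
    rwa [neg_sub] at this
  · have hcl := X.exc.connP.2.1 p hp
    rcases hax with ⟨e1, e2⟩ | ⟨e1, e2⟩
    · rw [e1, e2] at hcl; exact hcl
    · rw [e1, e2] at hcl; exact hcl.symm

omit X in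
/-- genericity for differences of labels -/
theorem h34q_lab_single (G : GenericShape θ) (f : Vec n → Vec n) (hf : IsFrame f)
    (a b c d : Lab n) (hab : a.1 ≠ b.1) (hcd : c.1 ≠ d.1) (t : ℝ) (h0 : 0 < t)
    (h1 : t < (θ.length : ℝ)) (vab : lv (f θ.sum) a ≠ lv (f θ.sum) b)
    (vcd : lv (f θ.sum) c ≠ lv (f θ.sum) d)
    (lab : HalfInt (lv (f (θ.val t)) a - lv (f (θ.val t)) b))
    (lcd : HalfInt (lv (f (θ.val t)) c - lv (f (θ.val t)) d)) :
    (∀ x, InFace θ.sum x → lv (f x) a - lv (f x) b = lv (f x) c - lv (f x) d) ∨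
    (∀ x, InFace θ.sum x → lv (f x) a - lv (f x) b = - (lv (f x) c - lv (f x) d)) := by
  have := h34_single θ G f f hf hf (labDiff a b hab) (labDiff c d hcd) t h0 h1
    (by rw [h34_dot_labDiff]; exact sub_ne_zero.2 vab)
    (by rw [h34_dot_labDiff]; exact sub_ne_zero.2 vcd)
    (by rw [h34_dot_labDiff]; exact lab) (by rw [h34_dot_labDiff]; exact lcd)
  simpa only [h34_dot_labDiff] using this

/-- two transfers of one knot: same class or mirror classes, as forms on the face -/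
theorem h34q_two_forms (τ : ℝ) (a b c d : Lab n) (h : IsTransfer l τ a b)
    (h' : IsTransfer l τ c d) :
    (∀ x, InFace θ.sum x →
      lv ((stAt θ ⟨w0.act, lam⟩ l (cntLt l τ)).frame x) a
        = lv ((stAt θ ⟨w0.act, lam⟩ l (cntLt l τ)).frame x) c ∧
      lv ((stAt θ ⟨w0.act, lam⟩ l (cntLt l τ)).frame x) b
        = lv ((stAt θ ⟨w0.act, lam⟩ l (cntLt l τ)).frame x) d) ∨
    (∀ x, InFace θ.sum x →
      lv ((stAt θ ⟨w0.act, lam⟩ l (cntLt l τ)).frame x) a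
        = - lv ((stAt θ ⟨w0.act, lam⟩ l (cntLt l τ)).frame x) d ∧
      lv ((stAt θ ⟨w0.act, lam⟩ l (cntLt l τ)).frame x) b
        = - lv ((stAt θ ⟨w0.act, lam⟩ l (cntLt l τ)).frame x) c) := by
  obtain ⟨-, t1, c1, i0, i1, n1, -⟩ := h34q_transfer_sw lam xi θ w0 l P X τ a b h
  obtain ⟨-, t2, c2, -, -, n2, -⟩ := h34q_transfer_sw lam xi θ w0 l P X τ c d h'
  have hF := h34q_isFrame lam θ w0 l (cntLt l τ)
  unfold kVm at t1 t2
  set f := (stAt θ ⟨w0.act, lam⟩ l (cntLt l τ)).frame with hf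
  have hsame : ∀ x, InFace θ.sum x → lv (f x) a - lv (f x) b = lv (f x) c - lv (f x) d := by
    rcases h34q_lab_single θ X.gen f hF a b c d n1 n2 τ i0 i1 t1.ne' t2.ne' c1 c2 with hh | hh
    · exact hh
    · exfalso
      have := hh θ.sum (h34_inFace_self _)
      linarith
  exact h34_fs3 θ.sum X.lbl.hz f hF a b c d n1 n2 hsame t1.ne'

/-- (F5) -/
theorem h34q_two_transfers (τ : ℝ) (a b c d : Lab n) (h : IsTransfer l τ a b)
    (h' : IsTransfer l τ c d) :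
    (lv (kVm θ ⟨w0.act, lam⟩ l τ) c = lv (kVm θ ⟨w0.act, lam⟩ l τ) a ∧
      lv (kVm θ ⟨w0.act, lam⟩ l τ) d = lv (kVm θ ⟨w0.act, lam⟩ l τ) b) ∨
    (lv (kVm θ ⟨w0.act, lam⟩ l τ) c = - lv (kVm θ ⟨w0.act, lam⟩ l τ) b ∧
      lv (kVm θ ⟨w0.act, lam⟩ l τ) d = - lv (kVm θ ⟨w0.act, lam⟩ l τ) a) := by
  unfold kVm
  rcases h34q_two_forms lam xi θ w0 l P X τ a b c d h h' with hh | hh
  · obtain ⟨e1, e2⟩ := hh θ.sum (h34_inFace_self _)
    exact Or.inl ⟨e1.symm, e2.symm⟩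
  · obtain ⟨e1, e2⟩ := hh θ.sum (h34_inFace_self _)
    right
    constructor <;> linarith

/-- level of a position tie at the knot -/
theorem h34q_tie_half (τ : ℝ) (a c : Lab n) (hac : a.1 ≠ c.1)
    (ht : lv (kY θ ⟨w0.act, lam⟩ l τ) a = lv (kY θ ⟨w0.act, lam⟩ l τ) c) :
    HalfInt (lv ((stAt θ ⟨w0.act, lam⟩ l (cntLt l τ)).frame (θ.val τ)) a
      - lv ((stAt θ ⟨w0.act, lam⟩ l (cntLt l τ)).frame (θ.val τ)) c) := by
  have := h34_tie_level lam xi θ w0 l P X (cntLt l τ) τ (labDiff a c hac) (by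
    rw [sc_dot_comm, h34_dot_labDiff]
    unfold kY at ht
    rw [ht, sub_self])
  rwa [h34_dot_labDiff] at this

/-- (F7) -/
theorem h34q_tie_class (τ : ℝ) (a b c : Lab n) (h : IsTransfer l τ a b)
    (hac : a.1 ∈ P ↔ c.1 ∉ P)
    (ht : lv (kY θ ⟨w0.act, lam⟩ l τ) c = lv (kY θ ⟨w0.act, lam⟩ l τ) a ∨
      lv (kY θ ⟨w0.act, lam⟩ l τ) c = lv (kY θ ⟨w0.act, lam⟩ l τ) b) :
    lv (kVm θ ⟨w0.act, lam⟩ l τ) c = lv (kVm θ ⟨w0.act, lam⟩ l τ) a ∨
      lv (kVm θ ⟨w0.act, lam⟩ l τ) c = lv (kVm θ ⟨w0.act, lam⟩ l τ) b := by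
  obtain ⟨-, t1, c1, i0, i1, n1, hP⟩ := h34q_transfer_sw lam xi θ w0 l P X τ a b h
  have hF := h34q_isFrame lam θ w0 l (cntLt l τ)
  have nac : a.1 ≠ c.1 := by
    intro e
    rw [e] at hac
    by_cases hc : c.1 ∈ P
    · exact hac.1 hc hc
    · exact hc (hac.2 hc)
  have nbc : b.1 ≠ c.1 := by
    intro e
    rw [hP, e] at hac
    by_cases hc : c.1 ∈ P
    · exact hac.1 hc hc
    · exact hc (hac.2 hc)
  by_contra hcon
  push Not at hcon
  obtain ⟨va, vb⟩ := hcon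
  rcases ht with ht | ht
  · have c2 := h34q_tie_half lam xi θ w0 l P X τ a c nac ht.symm
    unfold kVm at t1 va vb
    set f := (stAt θ ⟨w0.act, lam⟩ l (cntLt l τ)).frame with hf
    rcases h34q_lab_single θ X.gen f hF a c a b nac n1 τ i0 i1 (Ne.symm va) t1.ne' c2 c1 with hh | hh
    · apply vb
      have := hh θ.sum (h34_inFace_self _)
      linarith
    · exact h34_fs4 θ.sum X.lbl.hz f hF a b c n1 nac t1.ne' (fun x hx => by
        have := hh x hx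
        linarith)
  · have c2 := h34q_tie_half lam xi θ w0 l P X τ b c nbc ht.symm
    unfold kVm at t1 va vb
    set f := (stAt θ ⟨w0.act, lam⟩ l (cntLt l τ)).frame with hf
    rcases h34q_lab_single θ X.gen f hF b c a b nbc n1 τ i0 i1 (Ne.symm vb) t1.ne' c2 c1 with hh | hh
    · exact h34_fs4 θ.sum X.lbl.hz f hF b a c n1.symm nbc t1.ne (fun x hx => by
        have := hh x hx
        linarith)
    · apply va
      have := hh θ.sum (h34_inFace_self _)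
      linarith

end Sw

section Block

theorem h34q_noBlock_append (ty : Ty) (θ : Shape n) (S : SwState n) (l₁ l₂ : List (ℝ × RootD n)) :
    SwNoBlock ty θ S (l₁ ++ l₂) ↔ SwNoBlock ty θ S l₁ ∧ SwNoBlock ty θ (runSw θ S l₁) l₂ := by
  induction l₁ generalizing S with
  | nil => simp [SwNoBlock, runSw]
  | cons p l ih => simp only [List.cons_append, SwNoBlock, runSw, ih, and_assoc]

/-- a blocked spectator -/
def Blk (y : Vec n) (H L V : ℝ) (a b w : Lab n) : Prop :=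
  lv y a < lv y w ∧ lv y w < lv y b ∧ L < V ∧ V < H

variable (lam xi : Vec n) (θ : Shape n) (w0 : WD n) (l : List (ℝ × RootD n))
  (P : Finset (Fin n)) (X : ExcCtx lam θ xi w0 l P)

include X

/-- the blocker corollary at a switch of the knot, in root form -/
theorem h34q_noBlock_at (τ : ℝ) (c₁ c₂ : List (ℝ × RootD n)) (p : ℝ × RootD n)
    (hmid : (l.take (cntLe l τ)).drop (cntLt l τ) = c₁ ++ p :: c₂) (a' d' : RootD n)
    (hsum : a'.vec + d'.vec = p.2.vec) :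
    ¬ (0 < dot (kY θ ⟨w0.act, lam⟩ l τ) a'.vec ∧ 0 < dot (kY θ ⟨w0.act, lam⟩ l τ) d'.vec ∧
      dot ((runSw θ (stAt θ ⟨w0.act, lam⟩ l (cntLt l τ)) c₁).frame θ.sum) a'.vec < 0 ∧
      dot ((runSw θ (stAt θ ⟨w0.act, lam⟩ l (cntLt l τ)) c₁).frame θ.sum) d'.vec < 0) := by
  obtain ⟨e', -, h2, hrun⟩ := h34q_cut lam xi θ w0 l P X τ c₁ c₂ p hmid
  have hnb := X.noBlock
  have hnb' : SwNoBlock .D θ ⟨w0.act, lam⟩
      ((l.take (cntLt l τ) ++ c₁) ++ (p :: (c₂ ++ l.drop (cntLe l τ)))) := by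
    rw [← e']; exact hnb
  rw [h34q_noBlock_append, hrun] at hnb'
  have h := hnb'.2.1 a' d' trivial trivial hsum
  have hτ : p.1 = τ := h2 p (by simp)
  rw [hτ, h34_run_pos θ _ c₁ τ (fun q hq => h2 q (List.mem_append_left _ hq))] at h
  exact h

/-- the blocker corollary at a switch of the knot, for labels -/
theorem h34q_block_lab (τ : ℝ) (c₁ c₂ : List (ℝ × RootD n)) (p : ℝ × RootD n)
    (hmid : (l.take (cntLe l τ)).drop (cntLt l τ) = c₁ ++ p :: c₂) (a b w : Lab n)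
    (hv : p.2.vec = labVec b - labVec a) (hwa : w.1 ≠ a.1) (hwb : w.1 ≠ b.1) :
    ¬ Blk (kY θ ⟨w0.act, lam⟩ l τ)
      (lv ((runSw θ (stAt θ ⟨w0.act, lam⟩ l (cntLt l τ)) c₁).frame θ.sum) a)
      (lv ((runSw θ (stAt θ ⟨w0.act, lam⟩ l (cntLt l τ)) c₁).frame θ.sum) b)
      (lv ((runSw θ (stAt θ ⟨w0.act, lam⟩ l (cntLt l τ)) c₁).frame θ.sum) w) a b w := by
  have h := h34q_noBlock_at lam xi θ w0 l P X τ c₁ c₂ p hmid (labDiff b w hwb.symm)
    (labDiff w a hwa) (by rw [h34q_labDiff_vec, h34q_labDiff_vec, hv]; abel)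
  rw [sc_dot_comm _ (labDiff b w hwb.symm).vec, sc_dot_comm _ (labDiff w a hwa).vec,
    sc_dot_comm _ (labDiff b w hwb.symm).vec, sc_dot_comm _ (labDiff w a hwa).vec] at h
  simp only [h34_dot_labDiff] at h
  rintro ⟨h1, h2, h3, h4⟩
  exact h ⟨by linarith, by linarith, by linarith, by linarith⟩

/-- the other switches of the knot avoid the axes of a given one -/
theorem h34q_others (τ : ℝ) (c₁ c₂ : List (ℝ × RootD n)) (p : ℝ × RootD n)
    (hmid : (l.take (cntLe l τ)).drop (cntLt l τ) = c₁ ++ p :: c₂) :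
    ∀ q ∈ c₁ ++ c₂, q.2.i ≠ p.2.i ∧ q.2.i ≠ p.2.j ∧ q.2.j ≠ p.2.i ∧ q.2.j ≠ p.2.j := by
  obtain ⟨-, e, h2, -⟩ := h34q_cut lam xi θ w0 l P X τ c₁ c₂ p hmid
  have hd := h34_axDisj lam xi θ w0 l P X
  obtain ⟨d1, d2⟩ := h34_pairwise_mid _ _ c₁ c₂ _ p (e ▸ hd)
  have hτ : p.1 = τ := h2 p (by simp)
  intro q hq
  rcases List.mem_append.1 hq with hq | hq
  · exact d1 q hq ((h2 q (by simp [hq])).trans hτ.symm)
  · obtain ⟨a1, a2, a3, a4⟩ := d2 q hq (hτ.trans (h2 q (by simp [hq])).symm)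
    exact ⟨a1.symm, a3.symm, a2.symm, a4.symm⟩

omit X in
/-- axes of a transfer are free in a list which avoids the axes of its root -/
theorem h34q_free (cl : List (ℝ × RootD n)) (p : ℝ × RootD n) (a b : Lab n)
    (hv : p.2.vec = labVec b - labVec a)
    (hD : ∀ q ∈ cl, q.2.i ≠ p.2.i ∧ q.2.i ≠ p.2.j ∧ q.2.j ≠ p.2.i ∧ q.2.j ≠ p.2.j) :
    (∀ q ∈ cl, q.2.i ≠ a.1 ∧ q.2.j ≠ a.1) ∧ (∀ q ∈ cl, q.2.i ≠ b.1 ∧ q.2.j ≠ b.1) := by
  obtain ⟨-, hax⟩ := h34q_axes p.2 a b hv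
  rcases hax with ⟨e1, e2⟩ | ⟨e1, e2⟩
  · rw [e1, e2] at hD
    exact ⟨fun q hq => ⟨(hD q hq).1, (hD q hq).2.2.1⟩, fun q hq => ⟨(hD q hq).2.1, (hD q hq).2.2.2⟩⟩
  · rw [e1, e2] at hD
    exact ⟨fun q hq => ⟨(hD q hq).2.1, (hD q hq).2.2.2⟩, fun q hq => ⟨(hD q hq).1, (hD q hq).2.2.1⟩⟩

omit X in
/-- value of a label whose axis is free in the first part of the cluster -/
theorem h34q_val_m (S : SwState n) (c₁ : List (ℝ × RootD n)) (w : Lab n)
    (hw : ∀ q ∈ c₁, q.2.i ≠ w.1 ∧ q.2.j ≠ w.1) (x : Vec n) :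
    lv ((runSw θ S c₁).frame x) w = lv (S.frame x) w :=
  h34q_lv_congr _ _ _ ((h34_run_axis θ S c₁ w.1 hw).1 x)

omit X in
/-- value of a label whose axis is free in the last part of the cluster -/
theorem h34q_val_p (τ : ℝ) (c₁ c₂ : List (ℝ × RootD n))
    (hmid : (l.take (cntLe l τ)).drop (cntLt l τ) = c₁ ++ c₂) (w : Lab n)
    (hw : ∀ q ∈ c₂, q.2.i ≠ w.1 ∧ q.2.j ≠ w.1) :
    lv ((runSw θ (stAt θ ⟨w0.act, lam⟩ l (cntLt l τ)) c₁).frame θ.sum) w
      = lv (kVp θ ⟨w0.act, lam⟩ l τ) w := by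
  unfold kVp
  rw [h34_stAt_cntLe, hmid, sc_runSw_append]
  exact (h34q_val_m θ _ c₂ w hw θ.sum).symm

/-- (F8) -/
theorem h34q_noBlock_single (τ : ℝ) (a b c : Lab n) (h : IsTransfer l τ a b)
    (hc : Unused l τ c.1) :
    ¬ (lv (kY θ ⟨w0.act, lam⟩ l τ) a < lv (kY θ ⟨w0.act, lam⟩ l τ) c ∧
      lv (kY θ ⟨w0.act, lam⟩ l τ) c < lv (kY θ ⟨w0.act, lam⟩ l τ) b ∧
      lv (kVm θ ⟨w0.act, lam⟩ l τ) b < lv (kVm θ ⟨w0.act, lam⟩ l τ) c ∧
      lv (kVm θ ⟨w0.act, lam⟩ l τ) c < lv (kVm θ ⟨w0.act, lam⟩ l τ) a) := by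
  obtain ⟨p, hp, hτ, hv⟩ := h
  obtain ⟨c₁, c₂, hmid⟩ := h34_knot_split l X.sched.sorted τ p hp hτ
  obtain ⟨-, e, h2, -⟩ := h34q_cut lam xi θ w0 l P X τ c₁ c₂ p hmid
  obtain ⟨-, hax⟩ := h34q_axes p.2 a b hv
  obtain ⟨u1, u2⟩ := hc p hp hτ
  have hca : c.1 ≠ a.1 := by
    rcases hax with ⟨e1, e2⟩ | ⟨e1, e2⟩
    · rw [← e1]; exact u1.symm
    · rw [← e2]; exact u2.symm
  have hcb : c.1 ≠ b.1 := by
    rcases hax with ⟨e1, e2⟩ | ⟨e1, e2⟩
    · rw [← e2]; exact u2.symm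
    · rw [← e1]; exact u1.symm
  have hb := h34q_block_lab lam xi θ w0 l P X τ c₁ c₂ p hmid a b c hv hca hcb
  obtain ⟨fa, fb⟩ := h34q_free c₁ p a b hv
    (fun q hq => h34q_others lam xi θ w0 l P X τ c₁ c₂ p hmid q (List.mem_append_left _ hq))
  have fc : ∀ q ∈ c₁, q.2.i ≠ c.1 ∧ q.2.j ≠ c.1 := by
    intro q hq
    refine hc q ?_ (h2 q (by simp [hq]))
    rw [e]
    simp [hq]
  rw [h34q_val_m θ _ c₁ a fa, h34q_val_m θ _ c₁ b fb, h34q_val_m θ _ c₁ c fc] at hb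
  exact hb

/-- the two blocker corollaries for two transfers, the first one earlier in the list -/
theorem h34q_block_ordered (τ : ℝ) (a b c d : Lab n) (c₁ c₂ : List (ℝ × RootD n))
    (p p' : ℝ × RootD n) (hmid : (l.take (cntLe l τ)).drop (cntLt l τ) = c₁ ++ p :: c₂)
    (hp' : p' ∈ c₂) (hv : p.2.vec = labVec b - labVec a) (hv' : p'.2.vec = labVec d - labVec c) :
    ¬ Blk (kY θ ⟨w0.act, lam⟩ l τ) (lv (kVm θ ⟨w0.act, lam⟩ l τ) a)
        (lv (kVm θ ⟨w0.act, lam⟩ l τ) b) (lv (kVm θ ⟨w0.act, lam⟩ l τ) c) a b c ∧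
    ¬ Blk (kY θ ⟨w0.act, lam⟩ l τ) (lv (kVm θ ⟨w0.act, lam⟩ l τ) a)
        (lv (kVm θ ⟨w0.act, lam⟩ l τ) b) (lv (kVm θ ⟨w0.act, lam⟩ l τ) d) a b d ∧
    ¬ Blk (kY θ ⟨w0.act, lam⟩ l τ) (lv (kVm θ ⟨w0.act, lam⟩ l τ) c)
        (lv (kVm θ ⟨w0.act, lam⟩ l τ) d) (lv (kVp θ ⟨w0.act, lam⟩ l τ) a) c d a ∧
    ¬ Blk (kY θ ⟨w0.act, lam⟩ l τ) (lv (kVm θ ⟨w0.act, lam⟩ l τ) c)
        (lv (kVm θ ⟨w0.act, lam⟩ l τ) d) (lv (kVp θ ⟨w0.act, lam⟩ l τ) b) c d b := by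
  obtain ⟨e₁, e₂, rfl⟩ := List.append_of_mem hp'
  have hmid' : (l.take (cntLe l τ)).drop (cntLt l τ) = (c₁ ++ p :: e₁) ++ p' :: e₂ := by
    rw [hmid]; simp
  have o := h34q_others lam xi θ w0 l P X τ c₁ (e₁ ++ p' :: e₂) p hmid
  have o' := h34q_others lam xi θ w0 l P X τ (c₁ ++ p :: e₁) e₂ p' hmid'
  -- the four axes are distinct
  obtain ⟨q1, q2, q3, q4⟩ := o p' (by simp)
  obtain ⟨-, hax⟩ := h34q_axes p.2 a b hv
  obtain ⟨-, hax'⟩ := h34q_axes p'.2 c d hv'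
  have hdist : c.1 ≠ a.1 ∧ c.1 ≠ b.1 ∧ d.1 ≠ a.1 ∧ d.1 ≠ b.1 := by
    rcases hax with ⟨e1, e2⟩ | ⟨e1, e2⟩ <;> rcases hax' with ⟨e3, e4⟩ | ⟨e3, e4⟩ <;>
      simp only [e1, e2, e3, e4] at q1 q2 q3 q4
    · exact ⟨q1, q2, q3, q4⟩
    · exact ⟨q3, q4, q1, q2⟩
    · exact ⟨q2, q1, q4, q3⟩
    · exact ⟨q4, q3, q2, q1⟩
  obtain ⟨n1, n2, n3, n4⟩ := hdist
  -- free axes
  obtain ⟨fa, fb⟩ := h34q_free c₁ p a b hv (fun q hq => o q (List.mem_append_left _ hq))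
  obtain ⟨fc, fd⟩ := h34q_free c₁ p' c d hv' (fun q hq => o' q (by simp [hq]))
  obtain ⟨fc', fd'⟩ := h34q_free (c₁ ++ p :: e₁) p' c d hv'
    (fun q hq => o' q (List.mem_append_left _ hq))
  obtain ⟨ga, gb⟩ := h34q_free (p' :: e₂) p a b hv (fun q hq => o q (by
    rcases List.mem_cons.1 hq with rfl | hq
    · simp
    · simp [hq]))
  have b1 := h34q_block_lab lam xi θ w0 l P X τ c₁ _ p hmid a b c hv n1 n2
  have b2 := h34q_block_lab lam xi θ w0 l P X τ c₁ _ p hmid a b d hv n3 n4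
  have b3 := h34q_block_lab lam xi θ w0 l P X τ _ e₂ p' hmid' c d a hv' n1.symm n3.symm
  have b4 := h34q_block_lab lam xi θ w0 l P X τ _ e₂ p' hmid' c d b hv' n2.symm n4.symm
  rw [h34q_val_m θ _ c₁ a fa, h34q_val_m θ _ c₁ b fb, h34q_val_m θ _ c₁ c fc] at b1
  rw [h34q_val_m θ _ c₁ a fa, h34q_val_m θ _ c₁ b fb, h34q_val_m θ _ c₁ d fd] at b2
  rw [h34q_val_m θ _ _ c fc', h34q_val_m θ _ _ d fd',
    h34q_val_p lam θ w0 l τ _ _ hmid' a ga] at b3
  rw [h34q_val_m θ _ _ c fc', h34q_val_m θ _ _ d fd',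
    h34q_val_p lam θ w0 l τ _ _ hmid' b gb] at b4
  exact ⟨b1, b2, b3, b4⟩

end Block

section Cross

open Classical in
/-- inversion indicator -/
noncomputable def invR (s t : ℝ) : ℝ := if s * t < 0 then 1 else 0

theorem h34q_invR_pp {s t : ℝ} (hs : 0 < s) (ht : 0 < t) : invR s t = 0 := by
  unfold invR
  rw [if_neg (not_lt.2 (mul_pos hs ht).le)]

theorem h34q_invR_nn {s t : ℝ} (hs : s < 0) (ht : t < 0) : invR s t = 0 := by
  unfold invR
  rw [if_neg (not_lt.2 (mul_pos_of_neg_of_neg hs ht).le)]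

theorem h34q_invR_pn {s t : ℝ} (hs : 0 < s) (ht : t < 0) : invR s t = 1 := by
  unfold invR
  rw [if_pos (mul_neg_of_pos_of_neg hs ht)]

theorem h34q_invR_np {s t : ℝ} (hs : s < 0) (ht : 0 < t) : invR s t = 1 := by
  unfold invR
  rw [if_pos (mul_neg_of_neg_of_pos hs ht)]

theorem h34q_invR_symm (s t s' t' : ℝ) (hs : s' = -s) (ht : t' = -t) : invR s' t' = invR s t := by
  unfold invR
  rw [hs, ht, neg_mul_neg]

/-- the same sign of `t`, `t'` gives the same indicator -/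
theorem h34q_invR_congr (s t t' : ℝ) (h : 0 < t * t') : invR s t = invR s t' := by
  rcases lt_trichotomy s 0 with hs | hs | hs
  · rcases pos_and_pos_or_neg_and_neg_of_mul_pos h with ⟨h1, h2⟩ | ⟨h1, h2⟩
    · rw [h34q_invR_np hs h1, h34q_invR_np hs h2]
    · rw [h34q_invR_nn hs h1, h34q_invR_nn hs h2]
  · subst hs
    simp [invR]
  · rcases pos_and_pos_or_neg_and_neg_of_mul_pos h with ⟨h1, h2⟩ | ⟨h1, h2⟩
    · rw [h34q_invR_pp hs h1, h34q_invR_pp hs h2]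
    · rw [h34q_invR_pn hs h1, h34q_invR_pn hs h2]

/-- the arithmetic of a spectator -/
theorem h34q_spect (ya yb yw H L V : ℝ) (hy : ya < yb) (hv : L < H) (n1 : yw ≠ ya) (n2 : yw ≠ yb)
    (m1 : V ≠ H) (m2 : V ≠ L) (nb : ¬ (ya < yw ∧ yw < yb ∧ L < V ∧ V < H)) :
    invR (ya - yw) (H - V) + invR (yb - yw) (L - V)
      = invR (ya - yw) (L - V) + invR (yb - yw) (H - V) := by
  rcases lt_or_gt_of_ne m1 with h1 | h1
  · rcases lt_or_gt_of_ne m2 with h2 | h2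
    · -- `V < L < H`
      rw [h34q_invR_congr (ya - yw) (H - V) (L - V) (mul_pos (sub_pos.2 h1) (sub_pos.2 h2)),
        h34q_invR_congr (yb - yw) (L - V) (H - V) (mul_pos (sub_pos.2 h2) (sub_pos.2 h1))]
    · -- `L < V < H`
      rcases lt_or_gt_of_ne n1 with k1 | k1
      · rw [h34q_invR_pp (sub_pos.2 k1) (sub_pos.2 h1),
          h34q_invR_pn (sub_pos.2 (k1.trans hy)) (sub_neg.2 h2),
          h34q_invR_pn (sub_pos.2 k1) (sub_neg.2 h2),
          h34q_invR_pp (sub_pos.2 (k1.trans hy)) (sub_pos.2 h1)]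
        ring
      · rcases lt_or_gt_of_ne n2 with k2 | k2
        · exact absurd ⟨k1, k2, h2, h1⟩ nb
        · rw [h34q_invR_np (sub_neg.2 k1) (sub_pos.2 h1), h34q_invR_nn (sub_neg.2 k2) (sub_neg.2 h2),
            h34q_invR_nn (sub_neg.2 k1) (sub_neg.2 h2), h34q_invR_np (sub_neg.2 k2) (sub_pos.2 h1)]
          ring
  · -- `L < H < V`
    have h2 : L < V := hv.trans h1
    rw [h34q_invR_congr (ya - yw) (H - V) (L - V)
        (mul_pos_of_neg_of_neg (sub_neg.2 h1) (sub_neg.2 h2)),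
      h34q_invR_congr (yb - yw) (L - V) (H - V)
        (mul_pos_of_neg_of_neg (sub_neg.2 h2) (sub_neg.2 h1))]

/-- two swaps in mirror classes, the swap `a → b` first -/
theorem h34q_cross_inv (ya yb yc yd H L : ℝ) (yab : ya < yb) (ycd : yc < yd) (hLH : L < H)
    (hs : H + L ≠ 0) (hH : H ≠ 0) (hL : L ≠ 0) (nac : ya ≠ yc) (nad : ya ≠ yd) (nbc : yb ≠ yc)
    (nbd : yb ≠ yd)
    (b1 : ¬ (ya < yc ∧ yc < yb ∧ L < -L ∧ -L < H)) (b2 : ¬ (ya < yd ∧ yd < yb ∧ L < -H ∧ -H < H))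
    (b3 : ¬ (yc < ya ∧ ya < yd ∧ -H < L ∧ L < -L)) (b4 : ¬ (yc < yb ∧ yb < yd ∧ -H < H ∧ H < -L)) :
    invR (ya - yc) (H - -L) + invR (ya - yd) (H - -H) + invR (yb - yc) (L - -L)
        + invR (yb - yd) (L - -H)
      = invR (ya - yc) (L - -H) + invR (ya - yd) (L - -L) + invR (yb - yc) (H - -H)
        + invR (yb - yd) (H - -L) := by
  have s1 := h34q_spect ya yb yc H L (-L) yab hLH nac.symm nbc.symm
    (fun e => hs (by linarith)) (fun e => hL (by linarith)) b1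
  have s2 := h34q_spect ya yb yd H L (-H) yab hLH nad.symm nbd.symm
    (fun e => hH (by linarith)) (fun e => hs (by linarith)) b2
  have s3 := h34q_spect yc yd ya (-L) (-H) L ycd (by linarith) nac nad
    (fun e => hL (by linarith)) (fun e => hs (by linarith)) b3
  have s4 := h34q_spect yc yd yb (-L) (-H) H ycd (by linarith) nbc nbd
    (fun e => hs (by linarith)) (fun e => hH (by linarith)) b4
  rw [h34q_invR_symm (ya - yc) (L - -L) (yc - ya) (-L - L) (by ring) (by ring),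
    h34q_invR_symm (ya - yd) (L - -H) (yd - ya) (-H - L) (by ring) (by ring),
    h34q_invR_symm (ya - yc) (L - -H) (yc - ya) (-H - L) (by ring) (by ring),
    h34q_invR_symm (ya - yd) (L - -L) (yd - ya) (-L - L) (by ring) (by ring)] at s3
  rw [h34q_invR_symm (yb - yc) (H - -L) (yc - yb) (-L - H) (by ring) (by ring),
    h34q_invR_symm (yb - yd) (H - -H) (yd - yb) (-H - H) (by ring) (by ring),
    h34q_invR_symm (yb - yc) (H - -H) (yc - yb) (-H - H) (by ring) (by ring),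
    h34q_invR_symm (yb - yd) (H - -L) (yd - yb) (-L - H) (by ring) (by ring)] at s4
  linarith

theorem h34q_jP_inv (y v : Vec n) (ph : Fin n → ℝ) (a c : Lab n) (hy : lv y a ≠ lv y c) :
    jPlus y v ph a c = invR (lv y a - lv y c) (lv v a - lv v c) := by
  unfold jPlus invR
  by_cases h : (lv y a - lv y c) * (lv v a - lv v c) < 0
  · rw [if_pos h, if_pos h]
  · rw [if_neg h, if_neg h, if_neg (fun e => hy e.1)]

theorem h34q_jM_inv (y v : Vec n) (ph : Fin n → ℝ) (a c : Lab n) (hy : lv y a ≠ lv y c)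
    (hv : lv v a ≠ lv v c) :
    jMinus y v ph a c = invR (lv y a - lv y c) (lv v a - lv v c) := by
  unfold jMinus invR
  by_cases h : (lv y a - lv y c) * (lv v a - lv v c) < 0
  · rw [if_pos ⟨hv, h.le⟩, if_pos h]
  · rw [if_neg h, if_neg (fun e => h (lt_of_le_of_ne e.2
      (mul_ne_zero (sub_ne_zero.2 hy) (sub_ne_zero.2 hv)))), if_neg (fun e => hy e.1)]


variable (lam xi : Vec n) (θ : Shape n) (w0 : WD n) (l : List (ℝ × RootD n))
  (P : Finset (Fin n)) (X : ExcCtx lam θ xi w0 l P)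

include X

omit X in
theorem h34q_ne_of_cross {a c : Lab n} (hac : a.1 ∈ P ↔ c.1 ∉ P) : a.1 ≠ c.1 := by
  intro e
  rw [e] at hac
  by_cases hc : c.1 ∈ P
  · exact hac.1 hc hc
  · exact hc (hac.2 hc)

/-- two transfers in mirror classes which are not the same class: values and absence of ties -/
theorem h34q_cross_data (τ : ℝ) (a b c d : Lab n) (h : IsTransfer l τ a b)
    (h' : IsTransfer l τ c d) (hac : a.1 ∈ P ↔ c.1 ∉ P)
    (hne : lv (kVm θ ⟨w0.act, lam⟩ l τ) c ≠ lv (kVm θ ⟨w0.act, lam⟩ l τ) a) :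
    lv (kVm θ ⟨w0.act, lam⟩ l τ) c = - lv (kVm θ ⟨w0.act, lam⟩ l τ) b ∧
    lv (kVm θ ⟨w0.act, lam⟩ l τ) d = - lv (kVm θ ⟨w0.act, lam⟩ l τ) a ∧
    lv (kVm θ ⟨w0.act, lam⟩ l τ) a + lv (kVm θ ⟨w0.act, lam⟩ l τ) b ≠ 0 ∧
    lv (kVm θ ⟨w0.act, lam⟩ l τ) a ≠ 0 ∧ lv (kVm θ ⟨w0.act, lam⟩ l τ) b ≠ 0 ∧
    lv (kY θ ⟨w0.act, lam⟩ l τ) a ≠ lv (kY θ ⟨w0.act, lam⟩ l τ) c ∧
    lv (kY θ ⟨w0.act, lam⟩ l τ) a ≠ lv (kY θ ⟨w0.act, lam⟩ l τ) d ∧
    lv (kY θ ⟨w0.act, lam⟩ l τ) b ≠ lv (kY θ ⟨w0.act, lam⟩ l τ) c ∧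
    lv (kY θ ⟨w0.act, lam⟩ l τ) b ≠ lv (kY θ ⟨w0.act, lam⟩ l τ) d := by
  obtain ⟨-, t1, c1, i0, i1, n1, hP⟩ := h34q_transfer_sw lam xi θ w0 l P X τ a b h
  obtain ⟨-, -, -, -, -, -, hP'⟩ := h34q_transfer_sw lam xi θ w0 l P X τ c d h'
  have hF := h34q_isFrame lam θ w0 l (cntLt l τ)
  have nac : a.1 ≠ c.1 := h34q_ne_of_cross P hac
  have nad : a.1 ≠ d.1 := h34q_ne_of_cross P (hac.trans (not_congr hP'))
  have nbc : b.1 ≠ c.1 := h34q_ne_of_cross P (hP.symm.trans hac)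
  have nbd : b.1 ≠ d.1 := h34q_ne_of_cross P (hP.symm.trans (hac.trans (not_congr hP')))
  have tac := h34q_tie_half lam xi θ w0 l P X τ a c nac
  have tad := h34q_tie_half lam xi θ w0 l P X τ a d nad
  have tbc := h34q_tie_half lam xi θ w0 l P X τ b c nbc
  have tbd := h34q_tie_half lam xi θ w0 l P X τ b d nbd
  have hform : ∀ x, InFace θ.sum x →
      lv ((stAt θ ⟨w0.act, lam⟩ l (cntLt l τ)).frame x) a
        = - lv ((stAt θ ⟨w0.act, lam⟩ l (cntLt l τ)).frame x) d ∧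
      lv ((stAt θ ⟨w0.act, lam⟩ l (cntLt l τ)).frame x) b
        = - lv ((stAt θ ⟨w0.act, lam⟩ l (cntLt l τ)).frame x) c := by
    rcases h34q_two_forms lam xi θ w0 l P X τ a b c d h h' with hh | hh
    · exact absurd (hh θ.sum (h34_inFace_self _)).1.symm hne
    · exact hh
  unfold kVm at *
  generalize kY θ ⟨w0.act, lam⟩ l τ = y at *
  set f := (stAt θ ⟨w0.act, lam⟩ l (cntLt l τ)).frame with hf
  obtain ⟨e1, e2⟩ := hform θ.sum (h34_inFace_self _)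
  have vc : lv (f θ.sum) c = - lv (f θ.sum) b := by linarith
  have vd : lv (f θ.sum) d = - lv (f θ.sum) a := by linarith
  have hs : lv (f θ.sum) a + lv (f θ.sum) b ≠ 0 := fun e => hne (by linarith)
  have zero_of : ∀ w : Lab n, lv (f θ.sum) w = 0 → f θ.sum w.1 = 0 := by
    intro w hw
    unfold lv at hw
    rcases mul_eq_zero.1 hw with h0 | h0
    · exact absurd h0 (h34q_sgnB_ne _)
    · exact h0
  have hH : lv (f θ.sum) a ≠ 0 := by
    intro e
    exact nad (h34_zero_axis θ.sum X.lbl.hz f hF a.1 d.1 (zero_of a e)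
      (zero_of d (by rw [vd, e, neg_zero])))
  have hL : lv (f θ.sum) b ≠ 0 := by
    intro e
    exact nbc (h34_zero_axis θ.sum X.lbl.hz f hF b.1 c.1 (zero_of b e)
      (zero_of c (by rw [vc, e, neg_zero])))
  -- a form cannot vanish on the face
  have nz : ∀ w : Lab n, ¬ ∀ x, InFace θ.sum x → lv (f x) w = 0 := by
    intro w hw
    obtain ⟨x, hx, hx'⟩ := h34_fs1 θ.sum X.lbl.hz f hF w
    exact hx' (hw x hx)
  refine ⟨vc, vd, hs, hH, hL, ?_, ?_, ?_, ?_⟩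
  · intro e
    rcases h34q_lab_single θ X.gen f hF a c a b nac n1 τ i0 i1 (Ne.symm hne) t1.ne' (tac e) c1
      with hh | hh
    · exact nz b (fun x hx => by
        have := hh x hx
        have := (hform x hx).2
        linarith)
    · exact nz a (fun x hx => by
        have := hh x hx
        have := (hform x hx).2
        linarith)
  · intro e
    rcases h34q_lab_single θ X.gen f hF a d a b nad n1 τ i0 i1
      (fun e' => hH (by linarith)) t1.ne' (tad e) c1 with hh | hh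
    · apply hs
      have := hh θ.sum (h34_inFace_self _)
      linarith
    · exact h34_fs4 θ.sum X.lbl.hz f hF a b d n1 nad t1.ne' (fun x hx => by
        have := hh x hx
        have := (hform x hx).1
        linarith)
  · intro e
    rcases h34q_lab_single θ X.gen f hF b c a b nbc n1 τ i0 i1
      (fun e' => hL (by linarith)) t1.ne' (tbc e) c1 with hh | hh
    · exact h34_fs4 θ.sum X.lbl.hz f hF b a c n1.symm nbc t1.ne (fun x hx => by
        have := hh x hx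
        have := (hform x hx).2
        linarith)
    · apply hs
      have := hh θ.sum (h34_inFace_self _)
      linarith
  · intro e
    rcases h34q_lab_single θ X.gen f hF b d a b nbd n1 τ i0 i1
      (fun e' => hs (by linarith)) t1.ne' (tbd e) c1 with hh | hh
    · exact nz b (fun x hx => by
        have := hh x hx
        have := (hform x hx).1
        linarith)
    · exact nz a (fun x hx => by
        have := hh x hx
        have := (hform x hx).1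
        linarith)

/-- the blocker corollaries of two transfers of one knot, in the order of the list -/
theorem h34q_block_pair (τ : ℝ) (a b c d : Lab n) (h : IsTransfer l τ a b)
    (h' : IsTransfer l τ c d) (hac : a.1 ∈ P ↔ c.1 ∉ P) :
    (¬ Blk (kY θ ⟨w0.act, lam⟩ l τ) (lv (kVm θ ⟨w0.act, lam⟩ l τ) a)
        (lv (kVm θ ⟨w0.act, lam⟩ l τ) b) (lv (kVm θ ⟨w0.act, lam⟩ l τ) c) a b c ∧
    ¬ Blk (kY θ ⟨w0.act, lam⟩ l τ) (lv (kVm θ ⟨w0.act, lam⟩ l τ) a)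
        (lv (kVm θ ⟨w0.act, lam⟩ l τ) b) (lv (kVm θ ⟨w0.act, lam⟩ l τ) d) a b d ∧
    ¬ Blk (kY θ ⟨w0.act, lam⟩ l τ) (lv (kVm θ ⟨w0.act, lam⟩ l τ) c)
        (lv (kVm θ ⟨w0.act, lam⟩ l τ) d) (lv (kVp θ ⟨w0.act, lam⟩ l τ) a) c d a ∧
    ¬ Blk (kY θ ⟨w0.act, lam⟩ l τ) (lv (kVm θ ⟨w0.act, lam⟩ l τ) c)
        (lv (kVm θ ⟨w0.act, lam⟩ l τ) d) (lv (kVp θ ⟨w0.act, lam⟩ l τ) b) c d b) ∨
    (¬ Blk (kY θ ⟨w0.act, lam⟩ l τ) (lv (kVm θ ⟨w0.act, lam⟩ l τ) c)
        (lv (kVm θ ⟨w0.act, lam⟩ l τ) d) (lv (kVm θ ⟨w0.act, lam⟩ l τ) a) c d a ∧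
    ¬ Blk (kY θ ⟨w0.act, lam⟩ l τ) (lv (kVm θ ⟨w0.act, lam⟩ l τ) c)
        (lv (kVm θ ⟨w0.act, lam⟩ l τ) d) (lv (kVm θ ⟨w0.act, lam⟩ l τ) b) c d b ∧
    ¬ Blk (kY θ ⟨w0.act, lam⟩ l τ) (lv (kVm θ ⟨w0.act, lam⟩ l τ) a)
        (lv (kVm θ ⟨w0.act, lam⟩ l τ) b) (lv (kVp θ ⟨w0.act, lam⟩ l τ) c) a b c ∧
    ¬ Blk (kY θ ⟨w0.act, lam⟩ l τ) (lv (kVm θ ⟨w0.act, lam⟩ l τ) a)
        (lv (kVm θ ⟨w0.act, lam⟩ l τ) b) (lv (kVp θ ⟨w0.act, lam⟩ l τ) d) a b d) := by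
  obtain ⟨-, -, -, -, -, -, hP⟩ := h34q_transfer_sw lam xi θ w0 l P X τ a b h
  obtain ⟨-, -, -, -, -, -, hP'⟩ := h34q_transfer_sw lam xi θ w0 l P X τ c d h'
  have nac : a.1 ≠ c.1 := h34q_ne_of_cross P hac
  have nad : a.1 ≠ d.1 := h34q_ne_of_cross P (hac.trans (not_congr hP'))
  have nbc : b.1 ≠ c.1 := h34q_ne_of_cross P (hP.symm.trans hac)
  have nbd : b.1 ≠ d.1 := h34q_ne_of_cross P (hP.symm.trans (hac.trans (not_congr hP')))
  obtain ⟨p, hp, hτ, hv⟩ := h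
  obtain ⟨p', hp', hτ', hv'⟩ := h'
  obtain ⟨c₁, c₂, hmid⟩ := h34_knot_split l X.sched.sorted τ p hp hτ
  obtain ⟨c₁', c₂', hmid'⟩ := h34_knot_split l X.sched.sorted τ p' hp' hτ'
  have hne : p' ≠ p := by
    intro e
    subst e
    obtain ⟨-, hax⟩ := h34q_axes p'.2 a b hv
    obtain ⟨-, hax'⟩ := h34q_axes p'.2 c d hv'
    rcases hax with ⟨e1, e2⟩ | ⟨e1, e2⟩ <;> rcases hax' with ⟨e3, e4⟩ | ⟨e3, e4⟩
    · exact nac (e1.symm.trans e3)
    · exact nad (e1.symm.trans e3)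
    · exact nbc (e1.symm.trans e3)
    · exact nbd (e1.symm.trans e3)
  have hmem : p' ∈ c₁ ++ p :: c₂ := by
    rw [← hmid, hmid']
    simp
  rcases List.mem_append.1 hmem with hm | hm
  · right
    obtain ⟨e₁, e₂, rfl⟩ := List.append_of_mem hm
    exact h34q_block_ordered lam xi θ w0 l P X τ c d a b e₁ (e₂ ++ p :: c₂) p' p
      (by rw [hmid]; simp) (by simp) hv' hv
  · rcases List.mem_cons.1 hm with hm | hm
    · exact absurd hm hne
    · left
      exact h34q_block_ordered lam xi θ w0 l P X τ a b c d c₁ c₂ p p' hmid hm hv hv'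


omit X in
/-- (F9), abstract form -/
theorem h34q_cross_final (y vm vp : Vec n) (pm pp : Fin n → ℝ) (a b c d : Lab n)
    (hxz : lv y a < lv y b) (hhk : lv y c < lv y d) (hLH : lv vm b < lv vm a)
    (hva : lv vp a = lv vm b) (hvb : lv vp b = lv vm a) (hvc : lv vp c = lv vm d)
    (hvd : lv vp d = lv vm c) (vc : lv vm c = - lv vm b) (vd : lv vm d = - lv vm a)
    (hs : lv vm a + lv vm b ≠ 0) (hH : lv vm a ≠ 0) (hL : lv vm b ≠ 0)
    (nac : lv y a ≠ lv y c) (nad : lv y a ≠ lv y d) (nbc : lv y b ≠ lv y c)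
    (nbd : lv y b ≠ lv y d)
    (B : (¬ Blk y (lv vm a) (lv vm b) (lv vm c) a b c ∧ ¬ Blk y (lv vm a) (lv vm b) (lv vm d) a b d ∧
        ¬ Blk y (lv vm c) (lv vm d) (lv vp a) c d a ∧ ¬ Blk y (lv vm c) (lv vm d) (lv vp b) c d b) ∨
      (¬ Blk y (lv vm c) (lv vm d) (lv vm a) c d a ∧ ¬ Blk y (lv vm c) (lv vm d) (lv vm b) c d b ∧
        ¬ Blk y (lv vm a) (lv vm b) (lv vp c) a b c ∧ ¬ Blk y (lv vm a) (lv vm b) (lv vp d) a b d)) :
    0 ≤ (jPlus y vp pp a c - jMinus y vm pm a c) + (jPlus y vp pp a d - jMinus y vm pm a d)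
      + (jPlus y vp pp b c - jMinus y vm pm b c) + (jPlus y vp pp b d - jMinus y vm pm b d) := by
  rw [h34q_jP_inv y vp pp a c nac, h34q_jP_inv y vp pp a d nad, h34q_jP_inv y vp pp b c nbc,
    h34q_jP_inv y vp pp b d nbd,
    h34q_jM_inv y vm pm a c nac (by rw [vc]; intro e; exact hs (by linarith)),
    h34q_jM_inv y vm pm a d nad (by rw [vd]; intro e; exact hH (by linarith)),
    h34q_jM_inv y vm pm b c nbc (by rw [vc]; intro e; exact hL (by linarith)),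
    h34q_jM_inv y vm pm b d nbd (by rw [vd]; intro e; exact hs (by linarith))]
  unfold Blk at B
  rw [hva, hvb, hvc, hvd, vc, vd] at B ⊢
  generalize lv vm a = H at *
  generalize lv vm b = L at *
  generalize lv y a = ya at *
  generalize lv y b = yb at *
  generalize lv y c = yc at *
  generalize lv y d = yd at *
  rcases B with ⟨b1, b2, b3, b4⟩ | ⟨b1, b2, b3, b4⟩
  · have := h34q_cross_inv ya yb yc yd H L hxz hhk hLH hs hH hL nac nad nbc nbd b1 b2 b3 b4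
    linarith
  · have := h34q_cross_inv yc yd ya yb (-L) (-H) hhk hxz (by linarith)
      (fun e => hs (by linarith)) (fun e => hL (by linarith)) (fun e => hH (by linarith))
      nac.symm nbc.symm nad.symm nbd.symm (by rw [neg_neg]; exact b1) (by rw [neg_neg]; exact b2)
      (by rw [neg_neg, neg_neg]; exact b3) (by rw [neg_neg, neg_neg]; exact b4)
    rw [h34q_invR_symm (ya - yc) (H - -L) (yc - ya) (-L - - -H) (by ring) (by ring),
      h34q_invR_symm (yb - yc) (L - -L) (yc - yb) (-L - - -L) (by ring) (by ring),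
      h34q_invR_symm (ya - yd) (H - -H) (yd - ya) (-H - - -H) (by ring) (by ring),
      h34q_invR_symm (yb - yd) (L - -H) (yd - yb) (-H - - -L) (by ring) (by ring),
      h34q_invR_symm (ya - yc) (L - -H) (yc - ya) (-H - - -L) (by ring) (by ring),
      h34q_invR_symm (yb - yc) (H - -H) (yc - yb) (-H - - -H) (by ring) (by ring),
      h34q_invR_symm (ya - yd) (L - -L) (yd - ya) (-L - - -L) (by ring) (by ring),
      h34q_invR_symm (yb - yd) (H - -L) (yd - yb) (-L - - -H) (by ring) (by ring)] at this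
    linarith

end Cross

end Claimed.Agent.R282
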