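import Claimed.Agent.R282.S34.H.Disj
import Claimed.Agent.R282.S34.F.J
import Claimed.Agent.R282.S34.Lat.Exc
import Claimed.Agent.R282.S34.Lat.Phase
import Claimed.Agent.R282.S34.Lat.Rel

/-!
# Row 282, package H, sub-package BP-S34-HX2 (architect helper296): the SPLIT of a transfer `a → b` into `c → b`, `a → c`

EXPORT: `h34s_split_false` (GLUE, proved here from the leaves below); `h34_fc_ps_strict/_donor/_recip` of `H/Knot.lean` are its corollaries.
All leaves are PAPER-FREE.  TRAP: `r.map (fun z => (z : ℝ))` with `r : List ℤ` is NOT `List.map Int.cast r` syntactically: normalise with `lat_cast_map`, `lat_cast_getD`, `lat_cast_length` (Lat/Basic).  Fill the `sorry`s IN PLACE, statements verbatim, auxiliary lemmas with prefix `h34s_`; edit only your section.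
Every statement of the imported files may be used as a black box (`sc_*` = Sched/*, `lat_*` = S34/Lat/*, `s34f_*` = S34/F/*, `h34_*` = H/Face).

MATHEMATICS (all checked by hand).   `S0 = ⟨w0.act, lam⟩`, `l = l₁ ++ (τ,β) :: l₂` the exceptional schedule, `i0 = l₁.length`, `S₁ = runSw θ S0 l₁ = (f, c₁)`,
`β = e_b - e_a`, `β' = e_b - e_c = labRoot b c`, `β'' = e_c - e_a = labRoot c a`:  `β = β' + β''`, `β'·β'' = -1`, `s_{β'} β'' = β`.
The labels `a`, `c` have the same moving value, so `β''∘f = φ_c - φ_a` vanishes on the face (`h34_fs2`).  Hence (section `Local`)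
  * level functions: `- β'·f η(t) = - β·f η(t)` and `- β''·s_{β'} f η(t) = - β·f η(t)`: both new switches have the level function, the coefficient `m` and the total of the old one;
  * `s_{β''} s_{β'} u = u - (u·β')(β' + β'') = s_β u` if `u·β'' = 0`: the states after `[(τ,β'),(τ,β'')]` and after `[(τ,β)]` are `FrameEq`;
  * gaps: `y·β' = y_b - y_c`, `y·β'' = y_c - y_a` (`sc_pos_step`).
So `l' = l₁ ++ (τ,β') :: (τ,β'') :: l₂` is a schedule with `n + 1` switches (`h34_replace`).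
RELATION (section `Rel`).  `β' = ∑ e_j β_j` in the basis `l`, `e = e₁ ++ e0 :: e₂`.  Then `d = e₁ ++ (e0 - 1) :: e0 :: e₂` is a relation of `l'`;  `e_j = x_j·β'` (`x_j` dual basis) is in `{0, ±1/2, ±1, ..}`
and `= ±1/2` for a cycle edge (its dual vector has all entries `±1/2` on its component, `0` on the other one, and `β'` has exactly one axis in each component): `r = 2 d` is primitive.
GAP FORM.  `gapLin d l' i0 β' = - (∑_{j<i0} e_j β_j)·β' - (e0 - 1)`,  `gapLin d l' (i0+1) β'' = - (∑_{j<i0} e_j β_j)·β'' - 1`.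
KEY (`h34s_used_cross`): for a root `γ = e_u - e_w` joining the two components with coefficient list `e`:   `(∑_{j<k} e_j β_j)·γ = phase l k u + phase l k w`.
 [`e_j = x_j·γ = lv x_j u - lv x_j w`, `β_j·γ = lv β_j u - lv β_j w`; `x_j` and `β_j` live in one component, so the cross terms vanish; `lv x u * lv β u = x_u β_u`; `lat_phase_succ`.]
 With `γ = β'`, `k = i0 + 1` (`β·β' = 1`):  `gapLin d l' i0 β' = 1 - phase l (i0+1) b - phase l (i0+1) c`.
 With `γ = β''` (coefficient list `-e₁ ++ (1 - e0) :: -e₂`), `k = i0`:  `gapLin d l' (i0+1) β'' = phase l i0 a + phase l i0 c - 1`.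
HALF: `lat_half_int`; the alternative "all coefficients integral" is excluded by a cycle edge (`lat_closed_exists_cyc`, `lat_exc_coeff_cyc`).
ORDER: `r' = 2 (e0 - 1) ≤ 2 e0 = r''`; all other simultaneous pairs are orthogonal (`s34f_knot_orth`; disjoint axes for `β'`, `β''`).

LEAVES:  L-HS-LAB (section `Lab`), L-HS-CL (`h34s_time_iff`, `h34s_pos`, `h34s_frame_off`, `h34s_phase_off`), L-HS-LOC (`h34s_locate`), L-HS-ST (section `Local`),
L-HS-REL (`h34s_split_rel`, `h34s_gapLin_*`, `h34s_take_*`), L-HS-PRIM (`h34s_join_coeff`, `h34s_split_primRel`), L-HS-USED (`h34s_used_cross`), L-HS-GL (`h34s_split_gapLin`), L-HS-BASE (`h34s_base_of_split`).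
-/

set_option autoImplicit false

namespace Claimed.Agent.R282

variable {n : ℕ}

/-! ## labels and roots  (leaf L-HS-LAB, ~120 lines: unfold, `Pi.single_apply`, cases on the signs) -/

section Lab

theorem h34s_lv_labVec (a c : Lab n) :
    lv (labVec a) c = if a.1 = c.1 then sgnB a.2 * sgnB c.2 else 0 := by
  unfold lv labVec
  rw [Pi.single_apply]
  by_cases h : a.1 = c.1
  · rw [if_pos h, if_pos h.symm, mul_comm]
  · rw [if_neg h, if_neg (fun e => h e.symm), mul_zero]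

theorem h34s_labRoot_vec (a c : Lab n) (h : a.1 ≠ c.1) : (labRoot a c h).vec = labVec a - labVec c := by
  funext k
  unfold labRoot RootD.vec labVec
  simp only [Pi.sub_apply, Pi.single_apply, s34f_sgnB_not]
  by_cases h2 : k = c.1
  · rw [if_pos h2, if_pos h2, sub_eq_add_neg]
  · rw [if_neg h2, if_neg h2, sub_zero, add_zero]

theorem h34s_lv_sub (x y : Vec n) (a : Lab n) : lv (x - y) a = lv x a - lv y a := by
  unfold lv
  rw [Pi.sub_apply]
  ring

theorem h34s_dot_labVec (x : Vec n) (a : Lab n) : dot x (labVec a) = lv x a := by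
  unfold dot labVec lv
  rw [Finset.sum_eq_single a.1]
  · rw [Pi.single_eq_same, mul_comm]
  · intro k _ hk
    rw [Pi.single_eq_of_ne hk, mul_zero]
  · intro h
    exact absurd (Finset.mem_univ _) h

/-- a root whose vector is `e_b - e_a` -/
theorem h34s_root_of_vec (β : RootD n) (a b : Lab n) (h : β.vec = labVec b - labVec a) :
    a.1 ≠ b.1 ∧ ((β.i = b.1 ∧ β.j = a.1) ∨ (β.i = a.1 ∧ β.j = b.1)) := by
  have hs : ∀ s : Bool, sgnB s ≠ 0 := fun s => by
    rcases sc_sgnB_cases s with e | e <;> rw [e] <;> norm_num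
  have key : ∀ k : Fin n, β.vec k ≠ 0 → k = b.1 ∨ k = a.1 := by
    intro k hk
    by_contra hcon
    push Not at hcon
    apply hk
    rw [h]
    unfold labVec
    rw [Pi.sub_apply, Pi.single_eq_of_ne hcon.1, Pi.single_eq_of_ne hcon.2, sub_zero]
  have hi := key β.i (by rw [scw_vec_i]; exact hs _)
  have hj := key β.j (by rw [scw_vec_j]; exact hs _)
  have hne := β.ne
  rcases hi with hi | hi <;> rcases hj with hj | hj
  · exact absurd (hi.trans hj.symm) hne
  · exact ⟨fun e => hne (by rw [hi, hj, e]), Or.inl ⟨hi, hj⟩⟩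
  · exact ⟨fun e => hne (by rw [hi, hj, e]), Or.inr ⟨hi, hj⟩⟩
  · exact absurd (hi.trans hj.symm) hne

/-- a root whose axes avoid the axis of `a` is orthogonal to `e_a` -/
theorem h34s_dot_labVec_off (β : RootD n) (a : Lab n) (hi : β.i ≠ a.1) (hj : β.j ≠ a.1) :
    dot β.vec (labVec a) = 0 := by
  rw [h34s_dot_labVec]
  unfold lv
  rw [scw_vec_other β hi.symm hj.symm, mul_zero]

/-- `β'·β'' = -1` -/
theorem h34s_dot_split (a b c : Lab n) (hbc : b.1 ≠ c.1) (hca : c.1 ≠ a.1) (hab : a.1 ≠ b.1) :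
    dot (labRoot b c hbc).vec (labRoot c a hca).vec = -1 := by
  rw [s34f_dot_labRoot, h34s_labRoot_vec, h34s_lv_sub, h34s_lv_sub, h34s_lv_labVec, h34s_lv_labVec,
    h34s_lv_labVec, h34s_lv_labVec, if_neg hbc, if_pos rfl, if_neg hab.symm, if_neg hca,
    sc_sgnB_mul_self]
  norm_num

end Lab

/-! ## clusters  (leaf L-HS-CL ~250 lines; also useful for L-H-F1, L-H-F2)

`time_iff`: `h34_split_at` (or directly: induction on the sorted list).  `pos`: induction on `k` from `cntLt`, `sc_stAt_succ`, `sc_pos_step`, `time_iff`.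
`frame_off`: induction on `k'`, `sc_stAt_succ`; `refl β z i = z i - (z·β) β_i` and `β.vec i = 0` (`lat_vec_off`).   `phase_off`: induction, `lat_phase_off`. -/

section Cluster

theorem h34s_time_iff (l : List (ℝ × RootD n)) (hl : l.Pairwise (fun p q => p.1 ≤ q.1)) (τ : ℝ) (j : ℕ)
    (hj : j < l.length) : l[j].1 = τ ↔ cntLt l τ ≤ j ∧ j < cntLe l τ := by
  obtain ⟨-, h1, h2, h3, h4, h5⟩ := h34_split_at l hl τ
  constructor
  · intro he
    constructor
    · by_contra hlt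
      have hm : l[j] ∈ l.take (cntLt l τ) :=
        List.mem_take_iff_getElem.2 ⟨j, by rw [lt_min_iff]; exact ⟨by omega, hj⟩, rfl⟩
      have := h1 _ hm
      linarith
    · by_contra hge
      have hm : l[j] ∈ l.drop (cntLe l τ) :=
        List.mem_drop_iff_getElem.2 ⟨j - cntLe l τ, by omega, by congr 1; omega⟩
      have := h3 _ hm
      linarith
  · rintro ⟨ha, hb⟩
    apply h2
    refine List.mem_drop_iff_getElem.2 ⟨j - cntLt l τ, ?_, ?_⟩
    · rw [List.length_take]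
      omega
    · rw [List.getElem_take]
      congr 1
      omega

/-- the position at `τ` does not change inside the knot -/
theorem h34s_pos (θ : Shape n) (S : SwState n) (l : List (ℝ × RootD n))
    (hl : l.Pairwise (fun p q => p.1 ≤ q.1)) (τ : ℝ) (k : ℕ) (h1 : cntLt l τ ≤ k) (h2 : k ≤ cntLe l τ) :
    (stAt θ S l k).pos θ τ = (stAt θ S l (cntLt l τ)).pos θ τ := by
  have hB : cntLe l τ ≤ l.length := (h34_split_at l hl τ).2.2.2.2.2
  induction k, h1 using Nat.le_induction with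
  | base => rfl
  | succ k hk ih =>
    have hkl : k < l.length := by omega
    have ht : l[k].1 = τ := (h34s_time_iff l hl τ k hkl).2 ⟨hk, by omega⟩
    rw [sc_stAt_succ θ S l k hkl, ht, sc_pos_step, ih (by omega)]

/-- a coordinate of the frame only changes at switches incident to the axis -/
theorem h34s_frame_off (θ : Shape n) (S : SwState n) (l : List (ℝ × RootD n)) (k k' : ℕ) (hkk : k ≤ k')
    (hk' : k' ≤ l.length) (i : Fin n)
    (hoff : ∀ (j : ℕ) (hj : j < l.length), k ≤ j → j < k' → l[j].2.i ≠ i ∧ l[j].2.j ≠ i) (x : Vec n) :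
    (stAt θ S l k').frame x i = (stAt θ S l k).frame x i := by
  induction k', hkk using Nat.le_induction with
  | base => rfl
  | succ m hm ih =>
    have hml : m < l.length := by omega
    obtain ⟨o1, o2⟩ := hoff m hml hm (by omega)
    rw [sc_stAt_succ θ S l m hml, ← ih (by omega) (fun j hj a b => hoff j hj a (by omega))]
    show refl l[m].2 ((stAt θ S l m).frame x) i = _
    unfold refl
    rw [Pi.sub_apply, Pi.smul_apply, lat_vec_off _ i (Ne.symm o1) (Ne.symm o2), smul_zero, sub_zero]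

theorem h34s_phase_off (l : List (ℝ × RootD n)) (h : SwBasis l) (k k' : ℕ) (hkk : k ≤ k')
    (hk' : k' ≤ l.length) (i : Fin n)
    (hoff : ∀ (j : ℕ) (hj : j < l.length), k ≤ j → j < k' → l[j].2.i ≠ i ∧ l[j].2.j ≠ i) :
    phase l k' i = phase l k i := by
  induction k', hkk using Nat.le_induction with
  | base => rfl
  | succ m hm ih =>
    have hml : m < l.length := by omega
    obtain ⟨o1, o2⟩ := hoff m hml hm (by omega)
    rw [lat_phase_off h hml i (Ne.symm o1) (Ne.symm o2),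
      ih (by omega) (fun j hj a b => hoff j hj a (by omega))]

/-- simultaneous switches have four distinct axes (`h34_knot_disjoint` of `H/Disj.lean`, helper104) -/
theorem h34s_knot_disjoint (lam xi : Vec n) (θ : Shape n) (w0 : WD n) (l : List (ℝ × RootD n))
    (P : Finset (Fin n)) (X : ExcCtx lam θ xi w0 l P) :
    l.Pairwise (fun p q => p.1 = q.1 →
      p.2.i ≠ q.2.i ∧ p.2.i ≠ q.2.j ∧ p.2.j ≠ q.2.i ∧ p.2.j ≠ q.2.j) :=
  h34_knot_disjoint lam xi θ X.lbl X.gen X.hard w0 l X.sched X.exc.len.le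

/-- **localisation of a transfer and an unused label**  (leaf L-HS-LOC, ~250 lines).
PLAN.  `p ∈ l`: index `i0` (`List.getElem_of_mem`), `l₁ = l.take i0`, `l₂ = l.drop (i0+1)` (`List.take_append_drop`, `List.drop_eq_getElem_cons`), `runSw θ S0 l₁ = stAt θ S0 l i0` by definition, `l₁.length = i0`.
`cntLt ≤ i0 < cntLe` (`h34s_time_iff`, `X.sched.sorted`).  Axes of `β`: `h34s_root_of_vec`; component: `X.exc.connP.2.1`.
The switches `j ≠ i0` of the knot avoid the axes `a.1`, `b.1` (`h34s_knot_disjoint`, `List.pairwise_iff_getElem`) and all switches of the knot avoid `c.1` (`hc`).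
Then `h34s_pos`, `h34s_frame_off` (`k = cntLt`, `k' = i0`), `h34s_phase_off` (`cntLt → i0` for `a`, `c`; `i0 + 1 → cntLe` for `b`; `cntLt → i0 + 1` for `c`), `h34s_dot_labVec_off`. -/
theorem h34s_locate (lam xi : Vec n) (θ : Shape n) (w0 : WD n) (l : List (ℝ × RootD n))
    (P : Finset (Fin n)) (X : ExcCtx lam θ xi w0 l P) (τ : ℝ) (a b c : Lab n)
    (h : IsTransfer l τ a b) (hc : Unused l τ c.1) :
    ∃ (l₁ l₂ : List (ℝ × RootD n)) (β : RootD n), l = l₁ ++ (τ, β) :: l₂ ∧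
      β.vec = labVec b - labVec a ∧ a.1 ≠ b.1 ∧ (a.1 ∈ P ↔ b.1 ∈ P) ∧
      (runSw θ ⟨w0.act, lam⟩ l₁).pos θ τ = kY θ ⟨w0.act, lam⟩ l τ ∧
      lv ((runSw θ ⟨w0.act, lam⟩ l₁).frame θ.sum) a = lv (kVm θ ⟨w0.act, lam⟩ l τ) a ∧
      lv ((runSw θ ⟨w0.act, lam⟩ l₁).frame θ.sum) c = lv (kVm θ ⟨w0.act, lam⟩ l τ) c ∧
      phase l l₁.length a.1 = kPm l τ a.1 ∧ phase l l₁.length c.1 = kPm l τ c.1 ∧
      phase l (l₁.length + 1) b.1 = kPp l τ b.1 ∧ phase l (l₁.length + 1) c.1 = kPm l τ c.1 ∧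
      ∀ p ∈ l₁ ++ l₂, p.1 = τ → dot p.2.vec (labVec a) = 0 ∧ dot p.2.vec (labVec b) = 0 ∧
        dot p.2.vec (labVec c) = 0 := by
  obtain ⟨p, hp, hpτ, hpv⟩ := h
  obtain ⟨i0, hi0, rfl⟩ := List.getElem_of_mem hp
  have hsort := X.sched.sorted
  have hBas : SwBasis l := lat_exc_basis X.exc
  obtain ⟨hA, hB⟩ := (h34s_time_iff l hsort τ i0 hi0).1 hpτ
  have hBl : cntLe l τ ≤ l.length := (h34_split_at l hsort τ).2.2.2.2.2
  obtain ⟨hab, hax⟩ := h34s_root_of_vec l[i0].2 a b hpv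
  have hdis := List.pairwise_iff_getElem.1 (h34s_knot_disjoint lam xi θ w0 l P X)
  have hF : ∀ (j : ℕ) (hj : j < l.length), l[j].1 = τ → j ≠ i0 →
      (l[j].2.i ≠ a.1 ∧ l[j].2.j ≠ a.1) ∧ (l[j].2.i ≠ b.1 ∧ l[j].2.j ≠ b.1) := by
    intro j hj hjτ hne
    rcases lt_or_gt_of_ne hne with hlt | hlt
    · obtain ⟨d1, d2, d3, d4⟩ := hdis j i0 hj hi0 hlt (by rw [hjτ, hpτ])
      rcases hax with ⟨e1, e2⟩ | ⟨e1, e2⟩
      · rw [e1] at d1 d3
        rw [e2] at d2 d4
        exact ⟨⟨d2, d4⟩, ⟨d1, d3⟩⟩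
      · rw [e1] at d1 d3
        rw [e2] at d2 d4
        exact ⟨⟨d1, d3⟩, ⟨d2, d4⟩⟩
    · obtain ⟨d1, d2, d3, d4⟩ := hdis i0 j hi0 hj hlt (by rw [hjτ, hpτ])
      rcases hax with ⟨e1, e2⟩ | ⟨e1, e2⟩
      · rw [e1] at d1 d2
        rw [e2] at d3 d4
        exact ⟨⟨d3.symm, d4.symm⟩, ⟨d1.symm, d2.symm⟩⟩
      · rw [e1] at d1 d2
        rw [e2] at d3 d4
        exact ⟨⟨d1.symm, d2.symm⟩, ⟨d3.symm, d4.symm⟩⟩
  have hC : ∀ (j : ℕ) (hj : j < l.length), l[j].1 = τ → l[j].2.i ≠ c.1 ∧ l[j].2.j ≠ c.1 :=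
    fun j hj hjτ => hc _ (List.getElem_mem hj) hjτ
  have hT : ∀ (j : ℕ) (hj : j < l.length), cntLt l τ ≤ j → j < cntLe l τ → l[j].1 = τ :=
    fun j hj h1 h2 => (h34s_time_iff l hsort τ j hj).2 ⟨h1, h2⟩
  have hlen : (l.take i0).length = i0 := by
    rw [List.length_take]
    omega
  refine ⟨l.take i0, l.drop (i0 + 1), l[i0].2, ?_, hpv, hab, ?_, ?_, ?_, ?_, ?_, ?_, ?_, ?_, ?_⟩
  · have e1 : (τ, l[i0].2) = l[i0] := Prod.ext hpτ.symm rfl
    rw [e1, ← List.drop_eq_getElem_cons hi0, List.take_append_drop]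
  · have h1 := X.exc.connP.2.1 _ (List.getElem_mem hi0)
    rcases hax with ⟨e1, e2⟩ | ⟨e1, e2⟩
    · rw [e1, e2] at h1
      exact h1.symm
    · rw [e1, e2] at h1
      exact h1
  · exact h34s_pos θ ⟨w0.act, lam⟩ l hsort τ i0 hA hB.le
  · unfold lv kVm
    congr 1
    exact h34s_frame_off θ ⟨w0.act, lam⟩ l (cntLt l τ) i0 hA hi0.le a.1
      (fun j hj h1 h2 => (hF j hj (hT j hj h1 (by omega)) (by omega)).1) θ.sum
  · unfold lv kVm
    congr 1
    exact h34s_frame_off θ ⟨w0.act, lam⟩ l (cntLt l τ) i0 hA hi0.le c.1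
      (fun j hj h1 h2 => hC j hj (hT j hj h1 (by omega))) θ.sum
  · rw [hlen]
    exact h34s_phase_off l hBas (cntLt l τ) i0 hA hi0.le a.1
      (fun j hj h1 h2 => (hF j hj (hT j hj h1 (by omega)) (by omega)).1)
  · rw [hlen]
    exact h34s_phase_off l hBas (cntLt l τ) i0 hA hi0.le c.1
      (fun j hj h1 h2 => hC j hj (hT j hj h1 (by omega)))
  · rw [hlen]
    exact (h34s_phase_off l hBas (i0 + 1) (cntLe l τ) hB hBl b.1
      (fun j hj h1 h2 => (hF j hj (hT j hj (by omega) h2) (by omega)).2)).symm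
  · rw [hlen]
    exact h34s_phase_off l hBas (cntLt l τ) (i0 + 1) (by omega) hi0 c.1
      (fun j hj h1 h2 => hC j hj (hT j hj h1 (by omega)))
  · intro q hq hqτ
    have hex : ∃ (j : ℕ) (hj : j < l.length), j ≠ i0 ∧ l[j] = q := by
      rcases List.mem_append.1 hq with hq | hq
      · obtain ⟨j, hj, rfl⟩ := List.mem_take_iff_getElem.1 hq
        rw [lt_min_iff] at hj
        exact ⟨j, hj.2, by omega, rfl⟩
      · obtain ⟨j, hj, rfl⟩ := List.mem_drop_iff_getElem.1 hq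
        exact ⟨i0 + 1 + j, by omega, by omega, rfl⟩
    obtain ⟨j, hj, hne, rfl⟩ := hex
    obtain ⟨⟨f1, f2⟩, ⟨f3, f4⟩⟩ := hF j hj hqτ hne
    obtain ⟨f5, f6⟩ := hC j hj hqτ
    exact ⟨h34s_dot_labVec_off _ a f1 f2, h34s_dot_labVec_off _ b f3 f4,
      h34s_dot_labVec_off _ c f5 f6⟩

end Cluster

/-! ## the local computation  (leaf L-HS-ST, ~250 lines) -/

section Local

/-- PLAN: header.  `runSw θ S [(τ,β'),(τ,β'')] = (S.step θ τ β').step θ τ β''` by `rfl`; unfold `SwState.step/coeff/total/gap`, `refl`; `sc_dot_*`, `sc_inFace_val`, `sc_inFace_sum`, `sc_pos_step`. -/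
theorem h34s_split_state (θ : Shape n) (hθ : ∀ v ∈ θ, Dom v) (S : SwState n) (τ : ℝ)
    (β β' β'' : RootD n) (hβ : β.vec = β'.vec + β''.vec) (hdot : dot β'.vec β''.vec = -1)
    (hface : ∀ x, InFace θ.sum x → dot β''.vec (S.frame x) = 0) :
    FrameEq θ (runSw θ S [(τ, β'), (τ, β'')]) (runSw θ S [(τ, β)]) ∧
      (∀ t, S.coeff θ t β' = S.coeff θ t β) ∧
      (∀ t, (S.step θ τ β').coeff θ t β'' = S.coeff θ t β) ∧
      S.total θ β' = S.total θ β ∧ (S.step θ τ β').total θ β'' = S.total θ β ∧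
      (S.step θ τ β').gap θ τ β'' = dot (S.pos θ τ) β''.vec := by
  have hc1 : ∀ x, InFace θ.sum x → dot β'.vec (S.frame x) = dot β.vec (S.frame x) := by
    intro x hx
    rw [hβ, sc_dot_add_left, hface x hx, add_zero]
  have hc2 : ∀ u : Vec n, dot β''.vec (refl β' u) = dot β.vec u := by
    intro u
    unfold refl
    rw [sc_dot_sub_right, sc_dot_smul_right, sc_dot_comm β''.vec β'.vec, hdot, hβ, sc_dot_add_left,
      sc_dot_comm u β'.vec]
    ring
  have k1 : ∀ t, S.coeff θ t β' = S.coeff θ t β := by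
    intro t
    unfold SwState.coeff
    rw [hc1 _ (sc_inFace_val θ hθ t)]
  have k2 : ∀ t, (S.step θ τ β').coeff θ t β'' = S.coeff θ t β := by
    intro t
    show - dot β''.vec (refl β' (S.frame (θ.val t))) = - dot β.vec (S.frame (θ.val t))
    rw [hc2]
  refine ⟨⟨?_, ?_⟩, k1, k2, ?_, ?_, ?_⟩
  · show (S.c - S.coeff θ τ β' • β'.vec) - (S.step θ τ β').coeff θ τ β'' • β''.vec
      = S.c - S.coeff θ τ β • β.vec
    rw [k1, k2, hβ, smul_add]
    abel
  · intro x hx
    show refl β'' (refl β' (S.frame x)) = refl β (S.frame x)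
    have h0 : dot (S.frame x) β''.vec = 0 := by rw [sc_dot_comm]; exact hface x hx
    unfold refl
    rw [sc_dot_sub_left, sc_dot_smul_left, hdot, h0, hβ, sc_dot_add_right, h0, smul_add]
    simp only [add_zero, mul_neg, mul_one, zero_sub, neg_neg]
    abel
  · unfold SwState.total
    rw [hc1 _ (sc_inFace_sum θ.sum)]
  · show - dot β''.vec (refl β' (S.frame θ.sum)) = - dot β.vec (S.frame θ.sum)
    rw [hc2]
  · unfold SwState.gap
    rw [sc_pos_step]

/-- PLAN: `h34_replace` with `cl = [(τ,β)]`, `cl' = [(τ,β'),(τ,β'')]` (`List.append_assoc`, `List.cons_append`, `List.nil_append`), `h34s_split_state`; `SwValid` of `cl'` from `hg'`, `hg''` and the total of the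
old switch (`sc_valid_append` for `hs.valid`); `swCoeffs/swGaps/swTotals` of a two element list by `rfl`; `runSw θ S0 (l₁ ++ [(τ,β)]) = (runSw θ S0 l₁).step θ τ β` (`sc_runSw_append`, `rfl`). -/
theorem h34s_split_sched (lam xi : Vec n) (θ : Shape n) (hθ : ∀ v ∈ θ, Dom v) (w0 : WD n)
    (l₁ l₂ : List (ℝ × RootD n)) (τ : ℝ) (β β' β'' : RootD n)
    (hs : IsSchedule lam θ xi w0 (l₁ ++ (τ, β) :: l₂))
    (hβ : β.vec = β'.vec + β''.vec) (hdot : dot β'.vec β''.vec = -1)
    (hface : ∀ x, InFace θ.sum x → dot β''.vec ((runSw θ ⟨w0.act, lam⟩ l₁).frame x) = 0)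
    (hg' : 0 ≤ dot ((runSw θ ⟨w0.act, lam⟩ l₁).pos θ τ) β'.vec)
    (hg'' : 0 ≤ dot ((runSw θ ⟨w0.act, lam⟩ l₁).pos θ τ) β''.vec) :
    IsSchedule lam θ xi w0 (l₁ ++ (τ, β') :: (τ, β'') :: l₂) ∧
      swCoeffs θ ⟨w0.act, lam⟩ (l₁ ++ (τ, β') :: (τ, β'') :: l₂) = swCoeffs θ ⟨w0.act, lam⟩ l₁ ++
        (runSw θ ⟨w0.act, lam⟩ l₁).coeff θ τ β :: (runSw θ ⟨w0.act, lam⟩ l₁).coeff θ τ β ::
          swCoeffs θ ((runSw θ ⟨w0.act, lam⟩ l₁).step θ τ β) l₂ ∧
      swGaps θ ⟨w0.act, lam⟩ (l₁ ++ (τ, β') :: (τ, β'') :: l₂) = swGaps θ ⟨w0.act, lam⟩ l₁ ++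
        dot ((runSw θ ⟨w0.act, lam⟩ l₁).pos θ τ) β'.vec ::
          dot ((runSw θ ⟨w0.act, lam⟩ l₁).pos θ τ) β''.vec ::
          swGaps θ ((runSw θ ⟨w0.act, lam⟩ l₁).step θ τ β) l₂ ∧
      swTotals θ ⟨w0.act, lam⟩ (l₁ ++ (τ, β') :: (τ, β'') :: l₂) = swTotals θ ⟨w0.act, lam⟩ l₁ ++
        (runSw θ ⟨w0.act, lam⟩ l₁).total θ β :: (runSw θ ⟨w0.act, lam⟩ l₁).total θ β ::
          swTotals θ ((runSw θ ⟨w0.act, lam⟩ l₁).step θ τ β) l₂ := by
  set S₁ := runSw θ ⟨w0.act, lam⟩ l₁ with hS₁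
  obtain ⟨hF, k1, k2, t1, t2, g2⟩ := h34s_split_state θ hθ S₁ τ β β' β'' hβ hdot hface
  have e1 : l₁ ++ (τ, β) :: l₂ = l₁ ++ [(τ, β)] ++ l₂ := by simp
  have e2 : l₁ ++ (τ, β') :: (τ, β'') :: l₂ = l₁ ++ [(τ, β'), (τ, β'')] ++ l₂ := by simp
  have htot : 0 ≤ S₁.total θ β := by
    have hv := ((sc_valid_append θ ⟨w0.act, lam⟩ l₁ ((τ, β) :: l₂)).1 hs.valid).2
    exact hv.2.1
  have hv : SwValid θ S₁ [(τ, β'), (τ, β'')] := by
    refine ⟨hg', by rw [t1]; exact htot, ?_, by rw [t2]; exact htot, trivial⟩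
    rw [g2]; exact hg''
  have hrun : runSw θ ⟨w0.act, lam⟩ (l₁ ++ [(τ, β)]) = S₁.step θ τ β := by
    rw [sc_runSw_append]; rfl
  obtain ⟨r1, r2, r3, r4⟩ := h34_replace lam xi θ hθ w0 l₁ [(τ, β)] [(τ, β'), (τ, β'')] l₂ τ (e1 ▸ hs)
    (by simp) (by simp) (by simp) hv hF
  rw [hrun] at r2 r3 r4
  rw [e2]
  refine ⟨r1, ?_, ?_, ?_⟩
  · rw [r2]
    show swCoeffs θ ⟨w0.act, lam⟩ l₁ ++ [S₁.coeff θ τ β', (S₁.step θ τ β').coeff θ τ β''] ++ _ = _
    rw [k1, k2]
    simp
  · rw [r3]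
    show swGaps θ ⟨w0.act, lam⟩ l₁ ++ [S₁.gap θ τ β', (S₁.step θ τ β').gap θ τ β''] ++ _ = _
    rw [g2]
    simp [SwState.gap]
  · rw [r4]
    show swTotals θ ⟨w0.act, lam⟩ l₁ ++ [S₁.total θ β', (S₁.step θ τ β').total θ β''] ++ _ = _
    rw [t1, t2]
    simp

end Local

/-! ## the relation -/

section Rel

/-! ### list bookkeeping  (leaf L-HS-REL, ~200 lines: `sc_relSum_append`, `sc_relSum_cons`, `List.take_append…`, `List.getD_append…`) -/

theorem h34s_relSum_nil (l : List (ℝ × RootD n)) : relSum [] l = 0 := by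
  simp [relSum]

theorem h34s_getD_map_mul (s : ℝ) (d : List ℝ) (k : ℕ) :
    (d.map (s * ·)).getD k 0 = s * d.getD k 0 := by
  have := List.getD_map (l := d) (n := k) (d := (0 : ℝ)) (s * ·)
  simpa using this

theorem h34s_take_fst_aux (l₁ l₂ : List (ℝ × RootD n)) (e₁ e₂ : List ℝ) (h1 : e₁.length = l₁.length) :
    relSum ((e₁ ++ e₂).take l₁.length) (l₁ ++ l₂) = relSum e₁ l₁ := by
  rw [← h1, List.take_left]
  have := sc_relSum_append e₁ [] l₁ l₂ h1
  rw [List.append_nil, h34s_relSum_nil, add_zero] at this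
  exact this

theorem h34s_take_snd_aux (l₁ l₂ : List (ℝ × RootD n)) (p : ℝ × RootD n) (e₁ e₂ : List ℝ) (u : ℝ)
    (h1 : e₁.length = l₁.length) :
    relSum ((e₁ ++ u :: e₂).take (l₁.length + 1)) (l₁ ++ p :: l₂) = relSum e₁ l₁ + u • p.2.vec := by
  have e : (e₁ ++ u :: e₂).take (l₁.length + 1) = e₁ ++ [u] := by
    rw [← h1, List.take_length_add_append]
    simp
  rw [e, sc_relSum_append _ _ _ _ h1, sc_relSum_cons, h34s_relSum_nil, add_zero]

theorem h34s_split_rel (l₁ l₂ : List (ℝ × RootD n)) (p p' p'' : ℝ × RootD n)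
    (hβ : p.2.vec = p'.2.vec + p''.2.vec) (e₁ e₂ : List ℝ) (e0 : ℝ) (h1 : e₁.length = l₁.length)
    (h2 : e₂.length = l₂.length) (he : relSum (e₁ ++ e0 :: e₂) (l₁ ++ p :: l₂) = p'.2.vec) :
    IsRel (e₁ ++ (e0 - 1) :: e0 :: e₂) (l₁ ++ p' :: p'' :: l₂) := by
  constructor
  · simp only [List.length_append, List.length_cons, h1, h2]
  · rw [sc_relSum_append _ _ _ _ h1, sc_relSum_cons, hβ] at he
    rw [sc_relSum_append _ _ _ _ h1, sc_relSum_cons, sc_relSum_cons]
    have : relSum e₁ l₁ + ((e0 - 1) • p'.2.vec + (e0 • p''.2.vec + relSum e₂ l₂)) =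
        (relSum e₁ l₁ + (e0 • (p'.2.vec + p''.2.vec) + relSum e₂ l₂)) - p'.2.vec := by
      module
    rw [this, he, sub_self]

theorem h34s_gapLin_smul (s : ℝ) (d : List ℝ) (l : List (ℝ × RootD n)) (i : ℕ) (γ : RootD n) :
    gapLin (d.map (s * ·)) l i γ = s * gapLin d l i γ := by
  unfold gapLin
  rw [← List.map_take, sc_relSum_smul, h34s_getD_map_mul, dot_smul_left]
  ring

theorem h34s_gapLin_fst (l₁ l₂ : List (ℝ × RootD n)) (e₁ e₂ : List ℝ) (u : ℝ)
    (h1 : e₁.length = l₁.length) (γ : RootD n) :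
    gapLin (e₁ ++ u :: e₂) (l₁ ++ l₂) l₁.length γ = - dot (relSum e₁ l₁) γ.vec - u := by
  unfold gapLin
  rw [h34s_take_fst_aux _ _ _ _ h1, List.getD_append_right _ _ _ _ (by omega), h1, Nat.sub_self,
    List.getD_cons_zero]

theorem h34s_gapLin_snd (l₁ l₂ : List (ℝ × RootD n)) (p : ℝ × RootD n) (e₁ e₂ : List ℝ) (u v : ℝ)
    (h1 : e₁.length = l₁.length) (γ : RootD n) :
    gapLin (e₁ ++ u :: v :: e₂) (l₁ ++ p :: l₂) (l₁.length + 1) γ
      = - dot (relSum e₁ l₁ + u • p.2.vec) γ.vec - v := by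
  unfold gapLin
  rw [h34s_take_snd_aux _ _ _ _ _ _ h1, List.getD_append_right _ _ _ _ (by omega), h1,
    Nat.add_sub_cancel_left, List.getD_cons_succ, List.getD_cons_zero]

theorem h34s_take_fst (l₁ l₂ : List (ℝ × RootD n)) (e₁ e₂ : List ℝ) (h1 : e₁.length = l₁.length) :
    relSum ((e₁ ++ e₂).take l₁.length) (l₁ ++ l₂) = relSum e₁ l₁ := by
  exact h34s_take_fst_aux l₁ l₂ e₁ e₂ h1

theorem h34s_take_snd (l₁ l₂ : List (ℝ × RootD n)) (p : ℝ × RootD n) (e₁ e₂ : List ℝ) (u : ℝ)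
    (h1 : e₁.length = l₁.length) :
    relSum ((e₁ ++ u :: e₂).take (l₁.length + 1)) (l₁ ++ p :: l₂) = relSum e₁ l₁ + u • p.2.vec := by
  exact h34s_take_snd_aux l₁ l₂ p e₁ e₂ u h1

/-- entries of an integral list whose cast is `2 d` -/
theorem h34s_getD_two (r : List ℤ) (d : List ℝ) (h : r.map (fun z => (z : ℝ)) = d.map (2 * ·)) (k : ℕ) :
    ((r.getD k 0 : ℤ) : ℝ) = 2 * d.getD k 0 := by
  rw [← lat_cast_getD, h, h34s_getD_map_mul]

/-! ### primitivity  (leaf L-HS-PRIM, ~250 lines) -/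

/-- coefficients of a root joining the two components of an exceptional basis: half-integers, one of them `± 1/2`.
PLAN.  Dual vectors `x_j` (`lat_dual_exists`), `e_j = x_j·γ` (`lat_dual_relSum`), `2 e_j ∈ ℤ` (`lat_dual_dot_root`, `lat_basis_span`).
A cycle edge `j` (`lat_closed_exists_cyc` for `P`): `vsupp x_j = P` (`lat_cyc_dual`, `lat_cyc_supp_conn`), so exactly one of `x_j γ.i`, `x_j γ.j` is `0`, the other one `± 1/2`; `lat_dot_vec`. -/
theorem h34s_join_coeff (l : List (ℝ × RootD n)) (P : Finset (Fin n)) (hB : SwBasis l)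
    (hP : SwConn l P) (hQ : SwConn l Pᶜ) (γ : RootD n) (hj : γ.i ∈ P ↔ γ.j ∉ P) (e : List ℝ)
    (he : e.length = l.length) (hr : relSum e l = γ.vec) :
    (∀ a ∈ e, ∃ z : ℤ, 2 * a = z) ∧ ∃ a ∈ e, |a| = 1 / 2 := by
  have hs := lat_basis_span hB
  have hval : ∀ (i : ℕ) (hi : i < l.length) (x : Vec n), IsDual l i x → e.getD i 0 = dot x γ.vec := by
    intro i hi x hx
    rw [← hr, lat_dual_relSum hx hi e]
  constructor
  · intro a ha
    obtain ⟨i, hi, rfl⟩ := List.getElem_of_mem ha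
    have hi' : i < l.length := he ▸ hi
    obtain ⟨x, hx⟩ := lat_dual_exists hB.1 hi'
    obtain ⟨z, hz, -⟩ := lat_dual_dot_root hs hi' hx γ
    refine ⟨z, ?_⟩
    rw [← hz, ← hval i hi' x hx, List.getD_eq_getElem _ _ hi]
  · obtain ⟨i, hi, ⟨x, hx, h2⟩, hiP⟩ := lat_closed_exists_cyc hB hP.2.1 hP.1
    have hsupp := lat_cyc_supp_conn hs hi hx h2 hP hiP
    have hin : ∀ a, a ∈ P → |x a| = 1 / 2 := by
      intro a ha
      rw [← hsupp, lat_mem_vsupp] at ha
      exact (h2 a).resolve_left ha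
    have hout : ∀ a, a ∉ P → x a = 0 := by
      intro a ha
      by_contra h
      exact ha (hsupp ▸ (lat_mem_vsupp x a).2 h)
    have hi' : i < e.length := he ▸ hi
    refine ⟨e[i], List.getElem_mem hi', ?_⟩
    rw [← List.getD_eq_getElem _ 0 hi', hval i hi x hx, lat_dot_vec]
    by_cases hγ : γ.i ∈ P
    · rw [hout _ (hj.1 hγ), mul_zero, add_zero, abs_mul, lat_sgnB_abs, one_mul, hin _ hγ]
    · have hγj : γ.j ∈ P := by
        by_contra h
        exact hγ (hj.2 h)
      rw [hout _ hγ, mul_zero, zero_add, abs_mul, lat_sgnB_abs, one_mul, hin _ hγj]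

/-- PLAN.  `e` from `lat_span_exists_relSum` (`lat_basis_span`); split it at `l₁.length` (`e₁ = e.take _`, `e0 = e.getD _ 0`, `e₂ = e.drop _`).  `h34s_join_coeff`: choose integers `z` with `2 e_j = z_j`;
`r = z₁ ++ (z0 - 2) :: z0 :: z₂`.  Relation: `h34s_split_rel`, `sc_relSum_smul`.  Primitive: every entry `2 e_j` of `2 e` is an entry of `r`, one of them is `± 1`. -/
theorem h34s_split_primRel (l₁ l₂ : List (ℝ × RootD n)) (τ : ℝ) (β β' β'' : RootD n)
    (P : Finset (Fin n)) (hB : SwBasis (l₁ ++ (τ, β) :: l₂)) (hP : SwConn (l₁ ++ (τ, β) :: l₂) P)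
    (hQ : SwConn (l₁ ++ (τ, β) :: l₂) Pᶜ) (hβ : β.vec = β'.vec + β''.vec)
    (hj : β'.i ∈ P ↔ β'.j ∉ P) :
    ∃ (e₁ e₂ : List ℝ) (e0 : ℝ) (r : List ℤ), e₁.length = l₁.length ∧ e₂.length = l₂.length ∧
      relSum (e₁ ++ e0 :: e₂) (l₁ ++ (τ, β) :: l₂) = β'.vec ∧
      r.map (fun z => (z : ℝ)) = (e₁ ++ (e0 - 1) :: e0 :: e₂).map (2 * ·) ∧
      IsPrimRel r (l₁ ++ (τ, β') :: (τ, β'') :: l₂) := by
  obtain ⟨e, he, hr⟩ := lat_span_exists_relSum (lat_basis_span hB) β'.vec
  obtain ⟨hint, a0, ha0, habs⟩ := h34s_join_coeff _ P hB hP hQ β' hj e he hr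
  have hlen : e.length = l₁.length + (l₂.length + 1) := by
    rw [he]
    simp
  obtain ⟨e₁, hE₁⟩ : ∃ e₁, e₁ = e.take l₁.length := ⟨_, rfl⟩
  have hl₁ : e₁.length = l₁.length := by
    rw [hE₁, List.length_take]
    omega
  have hdrop : (e.drop l₁.length).length = l₂.length + 1 := by
    rw [List.length_drop]
    omega
  obtain ⟨e0, e₂, hE₂⟩ : ∃ e0 e₂, e.drop l₁.length = e0 :: e₂ := by
    cases hd : e.drop l₁.length with
    | nil => rw [hd] at hdrop; simp at hdrop
    | cons a t => exact ⟨a, t, rfl⟩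
  have hl₂ : e₂.length = l₂.length := by
    rw [hE₂] at hdrop
    simpa using hdrop
  have hsplit : e = e₁ ++ e0 :: e₂ := by
    rw [hE₁, ← hE₂, List.take_append_drop]
  have hmem : ∀ a ∈ e, a ∈ e₁ ++ (e0 - 1) :: e0 :: e₂ := by
    intro a ha
    rw [hsplit] at ha
    simp only [List.mem_append, List.mem_cons] at ha ⊢
    rcases ha with h | h | h
    · exact Or.inl h
    · exact Or.inr (Or.inr (Or.inl h))
    · exact Or.inr (Or.inr (Or.inr h))
  have hint' : ∀ a : ℝ, a ∈ (e₁ ++ (e0 - 1) :: e0 :: e₂).map (fun x : ℝ => 2 * x) → ∃ z : ℤ, a = (z : ℝ) := by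
    intro a ha
    obtain ⟨a', ha', rfl⟩ := List.mem_map.1 ha
    simp only [List.mem_append, List.mem_cons] at ha'
    rcases ha' with h | h | h | h
    · exact hint a' (by rw [hsplit]; simp [h])
    · obtain ⟨z, hz⟩ := hint e0 (by rw [hsplit]; simp)
      refine ⟨z - 2, ?_⟩
      rw [h]
      push_cast
      linarith
    · exact hint a' (by rw [hsplit]; simp [h])
    · exact hint a' (by rw [hsplit]; simp [h])
  obtain ⟨r, hrr⟩ := lat_cast_exists _ hint'
  have hrel := h34s_split_rel l₁ l₂ (τ, β) (τ, β') (τ, β'') hβ e₁ e₂ e0 hl₁ hl₂ (hsplit ▸ hr)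
  refine ⟨e₁, e₂, e0, r, hl₁, hl₂, hsplit ▸ hr, hrr, ?_, ?_, ?_⟩
  · rw [← lat_cast_length r, hrr, List.length_map]
    exact hrel.1
  · rw [hrr, sc_relSum_smul, hrel.2, smul_zero]
  · intro d hd
    have h1 : 2 * a0 ∈ r.map (fun z => (z : ℝ)) := by
      rw [hrr]
      exact List.mem_map.2 ⟨a0, hmem a0 ha0, rfl⟩
    obtain ⟨z, hz, hza⟩ := lat_cast_mem.1 h1
    have h2 : |z| = 1 := by
      have : |(z : ℝ)| = 1 := by
        rw [hza, abs_mul, habs]
        norm_num
      exact_mod_cast this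
    have h3 : IsUnit z := Int.isUnit_iff_abs_eq.2 h2
    exact isUnit_of_dvd_unit (hd z hz) h3

/-! ### the used part of a joining root  (leaf L-HS-USED, ~250 lines) -/

/-- off a closed set containing the edge `k`, both the dual vector and the root vanish -/
theorem h34s_off {l : List (ℝ × RootD n)} (hB : SwBasis l) {k : ℕ} (hk : k < l.length) {x : Vec n}
    (hx : IsDual l k x) {B : Finset (Fin n)} (hBc : SwClosed l B) (hi : l[k].2.i ∈ B) (a : Fin n)
    (ha : a ∉ B) : x a = 0 ∧ l[k].2.vec a = 0 := by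
  constructor
  · by_contra h
    exact ha (lat_dual_supp_subset (lat_basis_span hB) hk hx hBc hi ((lat_mem_vsupp x a).2 h))
  · refine lat_vec_off _ a ?_ ?_
    · rintro rfl
      exact ha hi
    · rintro rfl
      exact ha ((hBc l[k] (List.getElem_mem hk)).1 hi)

theorem h34s_lv_mul (x y : Vec n) (u : Lab n) : lv x u * lv y u = x u.1 * y u.1 := by
  unfold lv
  calc sgnB u.2 * x u.1 * (sgnB u.2 * y u.1) = (sgnB u.2 * sgnB u.2) * (x u.1 * y u.1) := by ring
    _ = x u.1 * y u.1 := by rw [lat_sgnB_sq, one_mul]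

/-- the step of `h34s_used_cross` -/
theorem h34s_used_step {l : List (ℝ × RootD n)} {P : Finset (Fin n)} (hB : SwBasis l)
    (hP : SwClosed l P) (u w : Lab n) (huw : u.1 ∈ P ↔ w.1 ∉ P) {k : ℕ} (hk : k < l.length) {x : Vec n}
    (hx : IsDual l k x) :
    (lv x u - lv x w) * (lv l[k].2.vec u - lv l[k].2.vec w)
      = x u.1 * l[k].2.vec u.1 + x w.1 * l[k].2.vec w.1 := by
  have key : ∀ a : Lab n, (x a.1 = 0 ∧ l[k].2.vec a.1 = 0) → lv x a = 0 ∧ lv l[k].2.vec a = 0 := by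
    rintro a ⟨h1, h2⟩
    unfold lv
    rw [h1, h2]
    simp
  have hcase : (x u.1 = 0 ∧ l[k].2.vec u.1 = 0) ∨ (x w.1 = 0 ∧ l[k].2.vec w.1 = 0) := by
    by_cases hi : l[k].2.i ∈ P
    · by_cases hu : u.1 ∈ P
      · exact Or.inr (h34s_off hB hk hx hP hi _ (huw.1 hu))
      · exact Or.inl (h34s_off hB hk hx hP hi _ hu)
    · have hi' : l[k].2.i ∈ Pᶜ := Finset.mem_compl.2 hi
      by_cases hu : u.1 ∈ P
      · exact Or.inl (h34s_off hB hk hx (lat_closed_compl hP) hi' _ (by simpa using hu))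
      · have hw : w.1 ∈ P := by
          by_contra hw
          exact hu (huw.2 hw)
        exact Or.inr (h34s_off hB hk hx (lat_closed_compl hP) hi' _ (by simpa using hw))
  rcases hcase with h | h
  · obtain ⟨a1, a2⟩ := key u h
    rw [a1, a2, h.1]
    have := h34s_lv_mul x l[k].2.vec w
    linarith
  · obtain ⟨a1, a2⟩ := key w h
    rw [a1, a2, h.1]
    have := h34s_lv_mul x l[k].2.vec u
    linarith

theorem h34s_used_le (l : List (ℝ × RootD n)) (P : Finset (Fin n)) (hB : SwBasis l)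
    (hP : SwClosed l P) (u w : Lab n) (hne : u.1 ≠ w.1) (huw : u.1 ∈ P ↔ w.1 ∉ P) (e : List ℝ)
    (hr : relSum e l = (labRoot u w hne).vec) (k : ℕ) (hk : k ≤ l.length) :
    dot (relSum (e.take k) l) (labRoot u w hne).vec = phase l k u.1 + phase l k w.1 := by
  induction k with
  | zero =>
    rw [List.take_zero, latRel_nil, sc_dot_zero_left, lat_phase_zero, lat_phase_zero, add_zero]
  | succ k ih =>
    have hk' : k < l.length := hk
    obtain ⟨x, hx⟩ := lat_dual_exists hB.1 hk'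
    have h1 : e.getD k 0 = lv x u - lv x w := by
      rw [← lat_dual_relSum hx hk' e, hr, s34f_dot_labRoot]
    rw [lat_relSum_take_succ e l k hk', sc_dot_add_left, sc_dot_smul_left, ih hk'.le, h1,
      s34f_dot_labRoot, h34s_used_step hB hP u w huw hk' hx, lat_phase_succ hB hk' hx,
      lat_phase_succ hB hk' hx]
    ring

/-- KEY of the header.
PLAN.  Induction on `k`.  `k = 0`: `lat_phase_zero`, `relSum [] l = 0`.  `k ≥ l.length`: `List.take_of_length_le`, `lat_phase_ge` and the step below up to `l.length`; or do the induction only for `k ≤ l.length` and reduce.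
Step `k < l.length`: `lat_relSum_take_succ`; `x` dual to `k` (`lat_dual_exists`), `e.getD k 0 = x·γ` (`lat_dual_relSum`, `hr`) `= lv x u - lv x w` (`s34f_dot_labRoot`), `β_k·γ = lv β_k u - lv β_k w`, `lat_phase_succ`.
The edge `k` lies in `P` or in `Pᶜ` (`hP`, `lat_closed_compl`); `vsupp x` is contained in the same set (`lat_dual_supp_subset`, `lat_basis_span`) and `β_k` vanishes off its axes (`lat_vec_off`): for the label in the
other component both `x` and `β_k` vanish.  `lv x u * lv y u = x u.1 * y u.1` (`lat_sgnB_sq`). -/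
theorem h34s_used_cross (l : List (ℝ × RootD n)) (P : Finset (Fin n)) (hB : SwBasis l)
    (hP : SwClosed l P) (u w : Lab n) (hne : u.1 ≠ w.1) (huw : u.1 ∈ P ↔ w.1 ∉ P) (e : List ℝ)
    (he : e.length = l.length) (hr : relSum e l = (labRoot u w hne).vec) (k : ℕ) :
    dot (relSum (e.take k) l) (labRoot u w hne).vec = phase l k u.1 + phase l k w.1 := by
  rcases le_total k l.length with hk | hk
  · exact h34s_used_le l P hB hP u w hne huw e hr k hk
  · have h1 := h34s_used_le l P hB hP u w hne huw e hr l.length le_rfl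
    rw [List.take_of_length_le (by omega), lat_phase_ge hB hk, lat_phase_ge hB hk]
    rw [List.take_of_length_le (by omega), lat_phase_ge hB le_rfl, lat_phase_ge hB le_rfl] at h1
    exact h1

/-- the gap form of the relation at the two new switches  (leaf L-HS-GL, ~150 lines).
PLAN: header, GAP FORM.  `h34s_gapLin_fst`, `h34s_gapLin_snd`, `h34s_take_fst`, `h34s_take_snd`, `h34s_used_cross` for `(b, c)`, `e`, `k = l₁.length + 1` and for `(c, a)`,
`e'' = e₁.map (-1 * ·) ++ (1 - e0) :: e₂.map (-1 * ·)`, `k = l₁.length` (`relSum e'' l = β - β'`: `sc_relSum_append`, `sc_relSum_cons`, `sc_relSum_smul`); `β·β' = 1`, `β'·β'' = -1` (`h34s_dot_split`, `sc_vec_dot_self`). -/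
theorem h34s_split_gapLin (l₁ l₂ : List (ℝ × RootD n)) (τ : ℝ) (β : RootD n) (P : Finset (Fin n))
    (a b c : Lab n) (hbc : b.1 ≠ c.1) (hca : c.1 ≠ a.1) (hab : a.1 ≠ b.1)
    (hB : SwBasis (l₁ ++ (τ, β) :: l₂)) (hP : SwClosed (l₁ ++ (τ, β) :: l₂) P)
    (hβ : β.vec = labVec b - labVec a) (hbP : b.1 ∈ P ↔ c.1 ∉ P) (haP : a.1 ∈ P ↔ c.1 ∉ P)
    (e₁ e₂ : List ℝ) (e0 : ℝ) (h1 : e₁.length = l₁.length) (h2 : e₂.length = l₂.length)
    (he : relSum (e₁ ++ e0 :: e₂) (l₁ ++ (τ, β) :: l₂) = (labRoot b c hbc).vec) :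
    gapLin (e₁ ++ (e0 - 1) :: e0 :: e₂) (l₁ ++ (τ, labRoot b c hbc) :: (τ, labRoot c a hca) :: l₂)
        l₁.length (labRoot b c hbc)
      = 1 - phase (l₁ ++ (τ, β) :: l₂) (l₁.length + 1) b.1
          - phase (l₁ ++ (τ, β) :: l₂) (l₁.length + 1) c.1 ∧
    gapLin (e₁ ++ (e0 - 1) :: e0 :: e₂) (l₁ ++ (τ, labRoot b c hbc) :: (τ, labRoot c a hca) :: l₂)
        (l₁.length + 1) (labRoot c a hca)
      = phase (l₁ ++ (τ, β) :: l₂) l₁.length a.1 + phase (l₁ ++ (τ, β) :: l₂) l₁.length c.1 - 1 := by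
  have hv' : (labRoot b c hbc).vec = labVec b - labVec c := h34s_labRoot_vec b c hbc
  have hv'' : (labRoot c a hca).vec = labVec c - labVec a := h34s_labRoot_vec c a hca
  have hsum : β.vec = (labRoot b c hbc).vec + (labRoot c a hca).vec := by
    rw [hβ, hv', hv'']
    abel
  have hdot : dot (labRoot b c hbc).vec (labRoot c a hca).vec = -1 := h34s_dot_split a b c hbc hca hab
  have hlen : (e₁ ++ e0 :: e₂).length = (l₁ ++ (τ, β) :: l₂).length := by
    simp [h1, h2]
  constructor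
  · have hu := h34s_used_cross _ P hB hP b c hbc hbP (e₁ ++ e0 :: e₂) hlen he (l₁.length + 1)
    rw [h34s_take_snd l₁ l₂ (τ, β) e₁ e₂ e0 h1, sc_dot_add_left, sc_dot_smul_left] at hu
    have hbb : dot β.vec (labRoot b c hbc).vec = 1 := by
      rw [hsum, sc_dot_add_left, sc_vec_dot_self, sc_dot_comm, hdot]
      norm_num
    have hu' : dot (relSum e₁ l₁) (labRoot b c hbc).vec + e0 * dot β.vec (labRoot b c hbc).vec
        = phase (l₁ ++ (τ, β) :: l₂) (l₁.length + 1) b.1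
          + phase (l₁ ++ (τ, β) :: l₂) (l₁.length + 1) c.1 := hu
    rw [hbb] at hu'
    rw [h34s_gapLin_fst l₁ _ e₁ _ (e0 - 1) h1]
    linarith
  · have hcP : c.1 ∈ P ↔ a.1 ∉ P := by
      constructor
      · intro hc ha
        exact (haP.1 ha) hc
      · intro ha
        by_contra hc
        exact ha (haP.2 hc)
    have hl1' : (e₁.map (-1 * ·)).length = l₁.length := by rw [List.length_map, h1]
    have hlen'' : (e₁.map (-1 * ·) ++ (1 - e0) :: e₂.map (-1 * ·)).length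
        = (l₁ ++ (τ, β) :: l₂).length := by
      simp [h1, h2]
    have he'' : relSum (e₁.map (-1 * ·) ++ (1 - e0) :: e₂.map (-1 * ·)) (l₁ ++ (τ, β) :: l₂)
        = (labRoot c a hca).vec := by
      rw [sc_relSum_append _ _ _ _ h1, sc_relSum_cons] at he
      rw [sc_relSum_append _ _ _ _ hl1', sc_relSum_cons, sc_relSum_smul, sc_relSum_smul]
      have h3 : (labRoot c a hca).vec = β.vec - (labRoot b c hbc).vec := by
        rw [hsum]
        abel
      rw [h3, ← he]
      show -1 • relSum e₁ l₁ + ((1 - e0) • β.vec + -1 • relSum e₂ l₂)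
        = β.vec - (relSum e₁ l₁ + (e0 • β.vec + relSum e₂ l₂))
      module
    have hu := h34s_used_cross _ P hB hP c a hca hcP _ hlen'' he'' l₁.length
    rw [h34s_take_fst l₁ _ _ _ hl1', sc_relSum_smul, sc_dot_smul_left] at hu
    rw [h34s_gapLin_snd l₁ _ (τ, labRoot b c hbc) e₁ _ (e0 - 1) e0 h1, sc_dot_add_left, sc_dot_smul_left]
    show -(dot (relSum e₁ l₁) (labRoot c a hca).vec
      + (e0 - 1) * dot (labRoot b c hbc).vec (labRoot c a hca).vec) - e0 = _
    rw [hdot]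
    linarith

end Rel

/-! ## assembly of `LinkBase`  (leaf L-HS-BASE, ~300 lines, index bookkeeping only; model: `s34f_base_of_ins`) -/

section Base

theorem h34s_mem_of_ne2 {α : Type*} (A B : List α) (x y : α) (i : ℕ)
    (hi : i < (A ++ x :: y :: B).length) (h1 : i ≠ A.length) (h2 : i ≠ A.length + 1) :
    (A ++ x :: y :: B)[i] ∈ A ++ B := by
  rcases lt_or_gt_of_ne h1 with h | h
  · rw [List.getElem_append_left h]
    exact List.mem_append_left _ (List.getElem_mem h)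
  · rw [List.getElem_append_right h.le]
    obtain ⟨j, hj⟩ : ∃ j, i - A.length = j + 2 := ⟨i - A.length - 2, by omega⟩
    simp only [hj, List.getElem_cons_succ]
    exact List.mem_append_right _ (List.getElem_mem _)

theorem h34s_getElem_fst {α : Type*} (A B : List α) (x : α) (hi : A.length < (A ++ x :: B).length) :
    (A ++ x :: B)[A.length] = x := by
  simp

theorem h34s_getElem_snd {α : Type*} (A B : List α) (x y : α)
    (hi : A.length + 1 < (A ++ x :: y :: B).length) : (A ++ x :: y :: B)[A.length + 1] = y := by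
  rw [List.getElem_append_right (by omega)]
  simp

/-- PLAN.  `l' = l₁ ++ (τ,β') :: (τ,β'') :: l₂`, `k = l₁.length`.  Index `i`: `i < k`: `l'[i] = l₁[i]`; `i = k`: `(τ,β')`, `stAt θ S0 l' k = runSw θ S0 l₁`; `i = k + 1`: `(τ,β'')`,
`stAt θ S0 l' (k+1) = (runSw θ S0 l₁).step θ τ β'`; `i = k + 2 + j`: `l₂[j]`  (`List.getElem_append…`, `List.take_append…`, `sc_runSw_append`).
`time`: `List.getElem_mem`.   `gap`: `sc_gaps_get` + `gaps` (`List.getD_append`, `List.getD_append_right`, `List.getD_cons_zero/succ`, `List.getD_eq_getElem`, `List.getElem_mem`).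
`ord`: `(i, j) = (k, k+1)`: second alternative (`lev`, `hr`; `levFn` unfolds to `(stAt …).coeff`).  One index in `{k, k+1}`, the other one not: `orth'` (`sc_dot_comm`).  Both outside: `orth` (`List.pairwise_iff_getElem`). -/
theorem h34s_base_of_split (lam xi : Vec n) (θ : Shape n) (w0 : WD n) (l₁ l₂ : List (ℝ × RootD n))
    (τ : ℝ) (β' β'' : RootD n) (r : List ℤ)
    (sched : IsSchedule lam θ xi w0 (l₁ ++ (τ, β') :: (τ, β'') :: l₂))
    (len : (l₁ ++ (τ, β') :: (τ, β'') :: l₂).length = n + 1)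
    (gen : SwGenQ (l₁ ++ (τ, β') :: (τ, β'') :: l₂))
    (rel : IsPrimRel r (l₁ ++ (τ, β') :: (τ, β'') :: l₂))
    (half : List.Forall₂ (fun (m : ℝ) (a : ℤ) => ∃ z : ℤ, m + (1 / 2) * a = z)
      (swCoeffs θ ⟨w0.act, lam⟩ (l₁ ++ (τ, β') :: (τ, β'') :: l₂)) r)
    (tot : ∀ a ∈ swTotals θ ⟨w0.act, lam⟩ (l₁ ++ (τ, β') :: (τ, β'') :: l₂), 0 < a)
    (time : ∀ p ∈ l₁ ++ (τ, β') :: (τ, β'') :: l₂, 0 < p.1 ∧ p.1 < (θ.length : ℝ))
    (A B : List ℝ) (G' G'' : ℝ)
    (gaps : swGaps θ ⟨w0.act, lam⟩ (l₁ ++ (τ, β') :: (τ, β'') :: l₂) = A ++ G' :: G'' :: B)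
    (hA : A.length = l₁.length) (hApos : ∀ g ∈ A, 0 < g) (hBpos : ∀ g ∈ B, 0 < g)
    (hG' : 0 < G' ∨ (G' = 0 ∧ 0 ≤ gapLin (r.map (fun z => (z : ℝ)))
      (l₁ ++ (τ, β') :: (τ, β'') :: l₂) l₁.length β'))
    (hG'' : 0 < G'' ∨ (G'' = 0 ∧ 0 ≤ gapLin (r.map (fun z => (z : ℝ)))
      (l₁ ++ (τ, β') :: (τ, β'') :: l₂) (l₁.length + 1) β''))
    (orth : (l₁ ++ l₂).Pairwise (fun p q => p.1 = q.1 → dot p.2.vec q.2.vec = 0))
    (orth' : ∀ p ∈ l₁ ++ l₂, p.1 = τ → dot p.2.vec β'.vec = 0 ∧ dot p.2.vec β''.vec = 0)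
    (lev : ∀ t, (runSw θ ⟨w0.act, lam⟩ l₁).coeff θ t β'
      = ((runSw θ ⟨w0.act, lam⟩ l₁).step θ τ β').coeff θ t β'')
    (hr : r.getD l₁.length 0 ≤ r.getD (l₁.length + 1) 0) :
    LinkBase lam θ xi w0 (l₁ ++ (τ, β') :: (τ, β'') :: l₂) r := by
  refine
    { sched := sched
      len := len
      gen := gen
      rel := rel
      half := half
      tot := tot
      time := fun i hi => Or.inl (time _ (List.getElem_mem hi))
      gap := ?_
      ord := ?_ }
  · intro i hi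
    rw [← sc_gaps_get θ ⟨w0.act, lam⟩ _ i hi]
    have hi' : i < (A ++ G' :: G'' :: B).length := by
      rw [← gaps, sc_gaps_length]; exact hi
    rw [gaps, List.getD_eq_getElem _ _ hi']
    by_cases h1 : i = l₁.length
    · subst h1
      have e1 : (A ++ G' :: G'' :: B)[l₁.length] = G' := by
        simp only [← hA]
        exact h34s_getElem_fst A _ G' _
      simp only [e1, h34s_getElem_fst]
      exact hG'
    · by_cases h2 : i = l₁.length + 1
      · subst h2
        have e1 : (A ++ G' :: G'' :: B)[l₁.length + 1] = G'' := by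
          simp only [← hA]
          exact h34s_getElem_snd A _ G' G'' _
        simp only [e1, h34s_getElem_snd]
        exact hG''
      · left
        rcases List.mem_append.1 (h34s_mem_of_ne2 A B G' G'' i hi' (by rw [hA]; exact h1)
          (by rw [hA]; exact h2)) with h | h
        · exact hApos _ h
        · exact hBpos _ h
  · intro i j hi hj hij he
    by_cases hk : i = l₁.length ∧ j = l₁.length + 1
    · obtain ⟨rfl, rfl⟩ := hk
      right
      refine ⟨fun t => ?_, hr⟩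
      have s1 : stAt θ ⟨w0.act, lam⟩ (l₁ ++ (τ, β') :: (τ, β'') :: l₂) l₁.length
          = runSw θ ⟨w0.act, lam⟩ l₁ := by
        unfold stAt
        rw [List.take_left']
        rfl
      have s2 : stAt θ ⟨w0.act, lam⟩ (l₁ ++ (τ, β') :: (τ, β'') :: l₂) (l₁.length + 1)
          = (runSw θ ⟨w0.act, lam⟩ l₁).step θ τ β' := by
        rw [sc_stAt_succ θ _ _ _ hi, s1]
        simp only [h34s_getElem_fst]
      unfold levFn
      simp only [s1, s2, h34s_getElem_fst, h34s_getElem_snd]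
      exact lev t
    · left
      have hpw : (l₁ ++ (τ, β') :: (τ, β'') :: l₂).Pairwise
          (fun p q => (p ∈ l₁ ++ l₂ ∨ q ∈ l₁ ++ l₂) → p.1 = q.1 → dot p.2.vec q.2.vec = 0) := by
        have h := orth
        rw [List.pairwise_append] at h ⊢
        refine ⟨?_, ?_, ?_⟩
        · exact List.Pairwise.imp (S := fun p q => (p ∈ l₁ ++ l₂ ∨ q ∈ l₁ ++ l₂) → p.1 = q.1 → dot p.2.vec q.2.vec = 0) (fun hh _ => hh) h.1
        · rw [List.pairwise_cons, List.pairwise_cons]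
          refine ⟨?_, ?_, List.Pairwise.imp (S := fun p q => (p ∈ l₁ ++ l₂ ∨ q ∈ l₁ ++ l₂) → p.1 = q.1 → dot p.2.vec q.2.vec = 0) (fun hh _ => hh) h.2.1⟩
          · intro b hb hm e
            rcases List.mem_cons.1 hb with rfl | hb
            · rcases hm with hm | hm
              · exact (orth' _ hm rfl).2
              · rw [sc_dot_comm]; exact (orth' _ hm rfl).1
            · rw [sc_dot_comm]; exact (orth' b (List.mem_append_right _ hb) e.symm).1
          · intro b hb _ e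
            rw [sc_dot_comm]; exact (orth' b (List.mem_append_right _ hb) e.symm).2
        · intro a ha b hb _ e
          rcases List.mem_cons.1 hb with rfl | hb
          · exact (orth' a (List.mem_append_left _ ha) e).1
          · rcases List.mem_cons.1 hb with rfl | hb
            · exact (orth' a (List.mem_append_left _ ha) e).2
            · exact h.2.2 a ha b hb e
      refine (List.pairwise_iff_getElem.1 hpw) i j hi hj hij ?_ he
      by_cases h1 : i ≠ l₁.length ∧ i ≠ l₁.length + 1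
      · exact Or.inl (h34s_mem_of_ne2 _ _ _ _ i hi h1.1 h1.2)
      · refine Or.inr (h34s_mem_of_ne2 _ _ _ _ j hj ?_ ?_)
        · intro h2; omega
        · intro h2
          apply hk
          refine ⟨?_, h2⟩
          by_contra h3
          apply h1
          exact ⟨h3, by omega⟩

end Base

/-! ## the split link (GLUE, no leaf) -/

section Main

/-- an exceptional schedule has a coefficient that is not an integer -/
theorem h34s_exists_nonint (lam xi : Vec n) (θ : Shape n) (w0 : WD n) (l : List (ℝ × RootD n))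
    (P : Finset (Fin n)) (X : ExcCtx lam θ xi w0 l P) :
    ∃ m ∈ swCoeffs θ ⟨w0.act, lam⟩ l, ¬ ∃ z : ℤ, m = z := by
  obtain ⟨i, hi, hcyc, -⟩ := lat_closed_exists_cyc (lat_exc_basis X.exc) X.exc.connP.2.1 X.exc.connP.1
  obtain ⟨z, hz⟩ := lat_exc_coeff_cyc lam xi θ X.lbl w0 X.sched X.exc hi hcyc
  have hi' : i < (swCoeffs θ ⟨w0.act, lam⟩ l).length := by rw [sc_coeffs_length]; exact hi
  refine ⟨(swCoeffs θ ⟨w0.act, lam⟩ l).getD i 0, ?_, ?_⟩
  · rw [List.getD_eq_getElem _ _ hi']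
    exact List.getElem_mem hi'
  · rintro ⟨z', hz'⟩
    rw [hz] at hz'
    have h2 : (2 * z + 1 : ℤ) = 2 * z' := by
      have : ((2 * z + 1 : ℤ) : ℝ) = ((2 * z' : ℤ) : ℝ) := by push_cast; linarith
      exact_mod_cast this
    omega

/-- **the split link.**  GLUE. -/
theorem h34s_split_false (lam xi : Vec n) (θ : Shape n) (w0 : WD n) (l : List (ℝ × RootD n))
    (P : Finset (Fin n)) (X : ExcCtx lam θ xi w0 l P) (τ : ℝ) (a b c : Lab n)
    (h : IsTransfer l τ a b) (hc : Unused l τ c.1) (hac : a.1 ∈ P ↔ c.1 ∉ P)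
    (hv : lv (kVm θ ⟨w0.act, lam⟩ l τ) c = lv (kVm θ ⟨w0.act, lam⟩ l τ) a)
    (h1 : lv (kY θ ⟨w0.act, lam⟩ l τ) a < lv (kY θ ⟨w0.act, lam⟩ l τ) c ∨
      (lv (kY θ ⟨w0.act, lam⟩ l τ) a = lv (kY θ ⟨w0.act, lam⟩ l τ) c ∧
        1 ≤ kPm l τ a.1 + kPm l τ c.1))
    (h2 : lv (kY θ ⟨w0.act, lam⟩ l τ) c < lv (kY θ ⟨w0.act, lam⟩ l τ) b ∨
      (lv (kY θ ⟨w0.act, lam⟩ l τ) c = lv (kY θ ⟨w0.act, lam⟩ l τ) b ∧
        kPp l τ b.1 + kPm l τ c.1 ≤ 1)) : False := by
  obtain ⟨l₁, l₂, β, hl, hβ, hab, habP, hpos, hva, hvc, pa, pc, pb, pc', horth⟩ :=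
    h34s_locate lam xi θ w0 l P X τ a b c h hc
  have hca : c.1 ≠ a.1 := by
    intro e
    rw [e] at hac
    by_cases ha : a.1 ∈ P
    · exact (hac.1 ha) ha
    · exact ha (hac.2 ha)
  have hbP : b.1 ∈ P ↔ c.1 ∉ P := habP.symm.trans hac
  have hbc : b.1 ≠ c.1 := by
    intro e
    rw [e] at hbP
    by_cases hc' : c.1 ∈ P
    · exact (hbP.1 hc') hc'
    · exact hc' (hbP.2 hc')
  set S₁ := runSw θ ⟨w0.act, lam⟩ l₁ with hS₁
  set β' := labRoot b c hbc with hβ'
  set β'' := labRoot c a hca with hβ''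
  have hfr : IsFrame S₁.frame := sc_isFrame_runSw θ _ (sc_isFrame_act w0) l₁
  have hsum : β.vec = β'.vec + β''.vec := by
    rw [hβ, hβ', hβ'', h34s_labRoot_vec, h34s_labRoot_vec]
    abel
  have hdot : dot β'.vec β''.vec = -1 := h34s_dot_split a b c hbc hca hab
  have hface : ∀ x, InFace θ.sum x → dot β''.vec (S₁.frame x) = 0 := by
    intro x hx
    rw [sc_dot_comm, hβ'', s34f_dot_labRoot]
    have := h34_fs2 θ.sum S₁.frame hfr c a hca (by rw [hvc, hva, hv]) x hx
    linarith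
  have hG' : dot (S₁.pos θ τ) β'.vec = lv (kY θ ⟨w0.act, lam⟩ l τ) b - lv (kY θ ⟨w0.act, lam⟩ l τ) c := by
    rw [hβ', s34f_dot_labRoot, hpos]
  have hG'' : dot (S₁.pos θ τ) β''.vec = lv (kY θ ⟨w0.act, lam⟩ l τ) c - lv (kY θ ⟨w0.act, lam⟩ l τ) a := by
    rw [hβ'', s34f_dot_labRoot, hpos]
  have hs : IsSchedule lam θ xi w0 (l₁ ++ (τ, β) :: l₂) := hl ▸ X.sched
  obtain ⟨hs', hco, hga, hto⟩ := h34s_split_sched lam xi θ X.lbl.dom w0 l₁ l₂ τ β β' β'' hs hsum hdot hface
    (by rw [hG']; rcases h2 with h2 | ⟨h2, -⟩ <;> linarith)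
    (by rw [hG'']; rcases h1 with h1 | ⟨h1, -⟩ <;> linarith)
  obtain ⟨-, hlev', hlev'', -, -, -⟩ := h34s_split_state θ X.lbl.dom S₁ τ β β' β'' hsum hdot hface
  obtain ⟨hlen, -, ⟨htime, hgpos, htpos⟩, hhalf⟩ :=
    s34f_hard_data lam xi θ X.lbl X.hard w0 l X.sched X.exc.len.le
  -- the data of the old schedule
  have oco : swCoeffs θ ⟨w0.act, lam⟩ l = swCoeffs θ ⟨w0.act, lam⟩ l₁ ++
      S₁.coeff θ τ β :: swCoeffs θ (S₁.step θ τ β) l₂ := by
    rw [hl]; exact s34f_ins_coeffs θ _ l₁ l₂ τ β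
  have oga : swGaps θ ⟨w0.act, lam⟩ l = swGaps θ ⟨w0.act, lam⟩ l₁ ++
      S₁.gap θ τ β :: swGaps θ (S₁.step θ τ β) l₂ := by
    rw [hl, sc_gaps_append]; rfl
  have oto : swTotals θ ⟨w0.act, lam⟩ l = swTotals θ ⟨w0.act, lam⟩ l₁ ++
      S₁.total θ β :: swTotals θ (S₁.step θ τ β) l₂ := by
    rw [hl, sc_totals_append]; rfl
  have hτ : 0 < τ ∧ τ < (θ.length : ℝ) := htime (τ, β) (by rw [hl]; simp)
  have hlen' : (l₁ ++ (τ, β') :: (τ, β'') :: l₂).length = n + 1 := by
    rw [hl] at hlen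
    simp only [List.length_append, List.length_cons] at hlen ⊢
    omega
  have hB : SwBasis (l₁ ++ (τ, β) :: l₂) := hl ▸ lat_exc_basis X.exc
  have hcP : SwConn (l₁ ++ (τ, β) :: l₂) P := hl ▸ X.exc.connP
  have hcQ : SwConn (l₁ ++ (τ, β) :: l₂) Pᶜ := hl ▸ X.exc.connQ
  -- generation of the root lattice
  have gen : SwGenQ (l₁ ++ (τ, β') :: (τ, β'') :: l₂) := by
    refine lat_exc_join hB hcP hcQ ?_ (β₀ := β') (lat_spanZ_root (p := (τ, β')) (by simp)) hbP
    intro p hp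
    rcases List.mem_append.1 hp with hp | hp
    · exact lat_spanZ_root (by simp [hp])
    · rcases List.mem_cons.1 hp with rfl | hp
      · show SwSpanZ _ β.vec
        rw [hsum]
        exact lat_spanZ_add (lat_spanZ_root (p := (τ, β')) (by simp))
          (lat_spanZ_root (p := (τ, β'')) (by simp))
      · exact lat_spanZ_root (by simp [hp])
  -- the relation
  obtain ⟨e₁, e₂, e0, r, he₁, he₂, he, hr, rel⟩ :=
    h34s_split_primRel l₁ l₂ τ β β' β'' P hB hcP hcQ hsum hbP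
  obtain ⟨gl', gl''⟩ := h34s_split_gapLin l₁ l₂ τ β P a b c hbc hca hab hB hcP.2.1 hβ hbP hac
    e₁ e₂ e0 he₁ he₂ he
  -- half-integrality
  have half : List.Forall₂ (fun (m : ℝ) (a : ℤ) => ∃ z : ℤ, m + (1 / 2) * a = z)
      (swCoeffs θ ⟨w0.act, lam⟩ (l₁ ++ (τ, β') :: (τ, β'') :: l₂)) r := by
    have hmem : ∀ m, m ∈ swCoeffs θ ⟨w0.act, lam⟩ (l₁ ++ (τ, β') :: (τ, β'') :: l₂) ↔
        m ∈ swCoeffs θ ⟨w0.act, lam⟩ l := by
      intro m
      rw [hco, oco]
      simp only [List.mem_append, List.mem_cons]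
      constructor
      · rintro (h | h | h | h)
        · exact Or.inl h
        · exact Or.inr (Or.inl h)
        · exact Or.inr (Or.inl h)
        · exact Or.inr (Or.inr h)
      · rintro (h | h | h)
        · exact Or.inl h
        · exact Or.inr (Or.inl h)
        · exact Or.inr (Or.inr (Or.inr h))
    rcases lat_half_int gen hlen' rel _ (sc_coeffs_length _ _ _)
      (fun m hm => hhalf m ((hmem m).1 hm)) (sc_balance_mem_Q lam xi θ X.lbl w0 _ hs') with hint | hh
    · obtain ⟨m, hm, hne⟩ := h34s_exists_nonint lam xi θ w0 l P X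
      exact absurd (hint m ((hmem m).2 hm)) hne
    · exact hh
  refine X.noLink (s34_link_of_base lam xi θ X.gen w0 _ r
    (h34s_base_of_split lam xi θ w0 l₁ l₂ τ β' β'' r hs' hlen' gen rel half ?_ ?_
      (swGaps θ ⟨w0.act, lam⟩ l₁) (swGaps θ (S₁.step θ τ β) l₂) _ _ hga (sc_gaps_length _ _ _) ?_ ?_ ?_ ?_ ?_ ?_ ?_ ?_))
  · -- totals
    intro t ht
    rw [hto] at ht
    apply htpos
    rw [oto]
    simp only [List.mem_append, List.mem_cons] at ht ⊢
    rcases ht with h | h | h | h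
    · exact Or.inl h
    · exact Or.inr (Or.inl h)
    · exact Or.inr (Or.inl h)
    · exact Or.inr (Or.inr h)
  · -- times
    intro p hp
    simp only [List.mem_append, List.mem_cons] at hp
    rcases hp with hp | rfl | rfl | hp
    · exact htime p (by rw [hl]; simp [hp])
    · exact hτ
    · exact hτ
    · exact htime p (by rw [hl]; simp [hp])
  · intro g hg
    exact hgpos g (by rw [oga]; simp [hg])
  · intro g hg
    exact hgpos g (by rw [oga]; simp [hg])
  · -- gap of `β'`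
    rw [hG', hr, h34s_gapLin_smul, gl', ← hl, pb, pc']
    rcases h2 with h2 | ⟨h2, h3⟩
    · left; linarith
    · right; exact ⟨by linarith, by linarith⟩
  · -- gap of `β''`
    rw [hG'', hr, h34s_gapLin_smul, gl'', ← hl, pa, pc]
    rcases h1 with h1 | ⟨h1, h3⟩
    · left; linarith
    · right; exact ⟨by linarith, by linarith⟩
  · -- orthogonality of the old switches
    have := s34f_knot_orth lam xi θ X.lbl X.gen X.hard w0 l X.sched X.exc.len.le
    rw [hl] at this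
    exact this.sublist ((List.sublist_cons_self _ _).append_left l₁)
  · intro p hp hpτ
    obtain ⟨q1, q2, q3⟩ := horth p hp hpτ
    rw [hβ', hβ'', h34s_labRoot_vec, h34s_labRoot_vec, sc_dot_sub_right, sc_dot_sub_right, q1, q2, q3]
    simp
  · intro t
    rw [hlev' t, hlev'' t]
  · have k1 := h34s_getD_two r _ hr l₁.length
    have k2 := h34s_getD_two r _ hr (l₁.length + 1)
    rw [List.getD_append_right _ _ _ _ (by omega)] at k1 k2
    simp only [he₁, Nat.sub_self, Nat.add_sub_cancel_left, List.getD_cons_zero, List.getD_cons_succ] at k1 k2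
    have : ((r.getD l₁.length 0 : ℤ) : ℝ) ≤ ((r.getD (l₁.length + 1) 0 : ℤ) : ℝ) := by
      rw [k1, k2]; linarith
    exact_mod_cast this

end Main

end Claimed.Agent.R282
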