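import Claimed.Agent.R282.S34.H.Cluster
import Claimed.Agent.R282.S34.F.J
import Claimed.Agent.R282.S34.Lat.Phase

/-!
# Row 282, package H, sub-package HX4: the two 3-switch stars (X7, X8)      (architect helper248)

`h34t_donor_star` = `h34_fc_pp_donor_star`, `h34t_recv_star` = `h34_fc_pp_recv_star` (`H/Knot.lean`, section Forbid) with the facts F4-F6 of `H/Knot.lean` as extra hypotheses
(`H/Knot.lean` imports this file).  No `sorry` in this file; consumed contracts: `sc_*`, `lat_*`, `s34f_*`, `H/Face.lean`, `H/Disj.lean`, `H/Cluster.lean`.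

Construction (donor star, order `c → b, a → c, c → d`).
1. normal form of the knot (`h34t_normal`): `l ~ A ++ p :: q :: B`, `A = l.take (cntLt l τ)`, `p = (a → b)`, `q = (c → d)`; again a schedule with `n` switches.
2. SPLIT (`h34t_refl_split`, `h34t_split_local`, `h34t_split_sched`; reusable for X2-X4): `p` is replaced by `(c → b), (a → c)`; as `v_c = v_a`, the forms of `a`, `c` agree on the face, the
   two new switches have the level function, the total and the coefficient of `p`, and the final state is `FrameEq`.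
3. `h34t_link` (generic, reusable): a STRICT half-integral schedule `A ++ N ++ B` with `n + 1` switches generating `Q(D_n)`, all simultaneous pairs outside `N × N` orthogonal, equal level functions
   on `N`, and every primitive relation monotone on `N` in one of the two directions  ⟹  `HasLink`.
4. monotonicity WITHOUT an explicit relation (`h34t_rel_pair`): pair the relation with the dual vectors `x`, `x'` of `p`, `q` in the old basis (`h34t_dual_data`):
   `r₀ x_b - r₁ x_a = 0`, `r₂ = (r₀ - r₁) x'_c`; bridges: `(x_a, x_b) ∈ {(0,1), (-1,0)}`; phase jump `kPp a = kPm a - x_a` (`h34t_phase_jump`).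
   `(r₀, r₁, r₂) = (0, s, s), (s, 0, 0), (s, 0, -s)`; the case `(0, s, 0)` is excluded by `hcore`.
5. the receiver star is the donor star of the mirror labels `(-d, -c, -b, -a)`.
-/

set_option autoImplicit false

namespace Claimed.Agent.R282

variable {n : ℕ}

/-! ## 1. labels -/

theorem h34t_dot_labVec (x : Vec n) (a : Lab n) : dot x (labVec a) = lv x a := by
  unfold dot labVec lv
  rw [Finset.sum_eq_single a.1]
  · simp [mul_comm]
  · intro b _ hb; simp [hb]
  · intro h; exact absurd (Finset.mem_univ _) h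

theorem h34t_lv_self (a : Lab n) : lv (labVec a) a = 1 := by
  unfold lv labVec
  simp [sc_sgnB_mul_self]

theorem h34t_lv_ne (a c : Lab n) (h : a.1 ≠ c.1) : lv (labVec a) c = 0 := by
  unfold lv labVec
  simp [h.symm]

theorem h34t_lv_add (x y : Vec n) (a : Lab n) : lv (x + y) a = lv x a + lv y a := by
  unfold lv; simp [mul_add]

theorem h34t_lv_sub (x y : Vec n) (a : Lab n) : lv (x - y) a = lv x a - lv y a := by
  unfold lv; simp [mul_sub]

theorem h34t_lv_smul (t : ℝ) (x : Vec n) (a : Lab n) : lv (t • x) a = t * lv x a := by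
  unfold lv; simp; ring

theorem h34t_labRoot_vec (a c : Lab n) (h : a.1 ≠ c.1) :
    (labRoot a c h).vec = labVec a - labVec c := by
  funext k
  unfold RootD.vec labRoot labVec
  simp only [Pi.sub_apply, Pi.single_apply, s34f_sgnB_not]
  split_ifs <;> ring

/-- pairing with the root of a transfer -/
theorem h34t_dot_transfer (x : Vec n) (β : RootD n) (a b : Lab n) (hβ : β.vec = labVec b - labVec a) :
    dot x β.vec = lv x b - lv x a := by
  rw [hβ, dot_sub_right, h34t_dot_labVec, h34t_dot_labVec]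

/-! ## 2. the local computation of a split `a → b  =  (c → b), (a → c)` -/

/-- `s_{c-a} s_{b-c} u = s_{b-a} u` if `u_c = u_a` -/
theorem h34t_refl_split (a b c : Lab n) (hac : a.1 ≠ c.1) (hbc : b.1 ≠ c.1)
    (hab : a.1 ≠ b.1) (β : RootD n) (hβ : β.vec = labVec b - labVec a) (u : Vec n) (hu : lv u c = lv u a) :
    dot u (labRoot b c hbc).vec = dot u β.vec ∧
    dot (refl (labRoot b c hbc) u) (labRoot c a hac.symm).vec = dot u β.vec ∧
    refl (labRoot c a hac.symm) (refl (labRoot b c hbc) u) = refl β u := by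
  have e1 : dot u (labRoot b c hbc).vec = dot u β.vec := by
    rw [s34f_dot_labRoot, h34t_dot_transfer u β a b hβ, hu]
  have e0 : dot (labRoot b c hbc).vec (labRoot c a hac.symm).vec = -1 := by
    rw [s34f_dot_labRoot, h34t_labRoot_vec, h34t_lv_sub, h34t_lv_sub, h34t_lv_self,
      h34t_lv_ne b c hbc, h34t_lv_ne b a hab.symm, h34t_lv_ne c a hac.symm]
    norm_num
  have e2 : dot (refl (labRoot b c hbc) u) (labRoot c a hac.symm).vec = dot u β.vec := by
    unfold refl
    rw [dot_sub_left, dot_smul_left, e0, e1, s34f_dot_labRoot, hu]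
    ring
  refine ⟨e1, e2, ?_⟩
  rw [refl, e2]
  unfold refl
  rw [e1, hβ, h34t_labRoot_vec, h34t_labRoot_vec]
  funext k
  simp only [Pi.sub_apply, Pi.smul_apply, smul_eq_mul]
  ring

/-- all data of the two switches `c → b`, `a → c` replacing `a → b` (`v_c = v_a`) -/
theorem h34t_split_local (θ : Shape n) (hθ : ∀ v ∈ θ, Dom v) (S : SwState n) (hS : IsFrame S.frame)
    (τ : ℝ) (a b c : Lab n) (hac : a.1 ≠ c.1) (hbc : b.1 ≠ c.1) (hab : a.1 ≠ b.1) (β : RootD n)
    (hβ : β.vec = labVec b - labVec a)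
    (hv : lv (S.frame θ.sum) c = lv (S.frame θ.sum) a) :
    (∀ t, S.coeff θ t (labRoot b c hbc) = S.coeff θ t β) ∧
    (∀ t, (S.step θ τ (labRoot b c hbc)).coeff θ t (labRoot c a hac.symm) = S.coeff θ t β) ∧
    S.total θ (labRoot b c hbc) = S.total θ β ∧
    (S.step θ τ (labRoot b c hbc)).total θ (labRoot c a hac.symm) = S.total θ β ∧
    S.gap θ τ (labRoot b c hbc) = lv (S.pos θ τ) b - lv (S.pos θ τ) c ∧
    (S.step θ τ (labRoot b c hbc)).gap θ τ (labRoot c a hac.symm)
      = lv (S.pos θ τ) c - lv (S.pos θ τ) a ∧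
    FrameEq θ (runSw θ S [(τ, labRoot b c hbc), (τ, labRoot c a hac.symm)])
      (runSw θ S [(τ, β)]) := by
  have hF : ∀ x, InFace θ.sum x → lv (S.frame x) c = lv (S.frame x) a := fun x hx =>
    (h34_fs2 θ.sum S.frame hS a c hac hv.symm x hx).symm
  have K := fun x (hx : InFace θ.sum x) => h34t_refl_split a b c hac hbc hab β hβ (S.frame x) (hF x hx)
  have c1 : ∀ t, S.coeff θ t (labRoot b c hbc) = S.coeff θ t β := by
    intro t
    unfold SwState.coeff
    rw [dot_comm, (K _ (sc_inFace_val θ hθ t)).1, dot_comm]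
  have c2 : ∀ t, (S.step θ τ (labRoot b c hbc)).coeff θ t (labRoot c a hac.symm) = S.coeff θ t β := by
    intro t
    show - dot (labRoot c a hac.symm).vec (refl (labRoot b c hbc) (S.frame (θ.val t))) = - dot β.vec (S.frame (θ.val t))
    rw [dot_comm, (K _ (sc_inFace_val θ hθ t)).2.1, dot_comm]
  refine ⟨c1, c2, ?_, ?_, ?_, ?_, ?_, ?_⟩
  · unfold SwState.total
    rw [dot_comm, (K _ (sc_inFace_sum θ.sum)).1, dot_comm]
  · show - dot (labRoot c a hac.symm).vec (refl (labRoot b c hbc) (S.frame θ.sum)) = - dot β.vec (S.frame θ.sum)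
    rw [dot_comm, (K _ (sc_inFace_sum θ.sum)).2.1, dot_comm]
  · unfold SwState.gap
    rw [s34f_dot_labRoot]
  · unfold SwState.gap
    rw [sc_pos_step, s34f_dot_labRoot]
  · show S.c - S.coeff θ τ (labRoot b c hbc) • (labRoot b c hbc).vec
        - (S.step θ τ (labRoot b c hbc)).coeff θ τ (labRoot c a hac.symm) • (labRoot c a hac.symm).vec
      = S.c - S.coeff θ τ β • β.vec
    rw [c1, c2, hβ, h34t_labRoot_vec, h34t_labRoot_vec]
    funext k
    simp only [Pi.sub_apply, Pi.smul_apply, smul_eq_mul]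
    ring
  · intro x hx
    exact (K x hx).2.2

/-! ## 3. the split schedule -/

/-- replacing the switch `a → b` of a short schedule by `c → b`, `a → c` (strict position of `c`, `v_c = v_a`) gives a strict
half-integral schedule with one more switch. -/
theorem h34t_split_sched (lam xi : Vec n) (θ : Shape n) (L : Lbl lam θ xi) (H : Hard lam θ xi)
    (w0 : WD n) (A B : List (ℝ × RootD n)) (p : ℝ × RootD n)
    (hs : IsSchedule lam θ xi w0 (A ++ p :: B)) (hlen : (A ++ p :: B).length ≤ n)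
    (a b c : Lab n) (hac : a.1 ≠ c.1) (hbc : b.1 ≠ c.1) (hab : a.1 ≠ b.1)
    (hβ : p.2.vec = labVec b - labVec a)
    (hv : lv ((runSw θ ⟨w0.act, lam⟩ A).frame θ.sum) c = lv ((runSw θ ⟨w0.act, lam⟩ A).frame θ.sum) a)
    (g1 : lv ((runSw θ ⟨w0.act, lam⟩ A).pos θ p.1) a < lv ((runSw θ ⟨w0.act, lam⟩ A).pos θ p.1) c)
    (g2 : lv ((runSw θ ⟨w0.act, lam⟩ A).pos θ p.1) c < lv ((runSw θ ⟨w0.act, lam⟩ A).pos θ p.1) b) :
    IsSchedule lam θ xi w0 (A ++ [(p.1, labRoot b c hbc), (p.1, labRoot c a hac.symm)] ++ B) ∧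
    SwStrict θ ⟨w0.act, lam⟩ (A ++ [(p.1, labRoot b c hbc), (p.1, labRoot c a hac.symm)] ++ B) ∧
    ∀ m ∈ swCoeffs θ ⟨w0.act, lam⟩ (A ++ [(p.1, labRoot b c hbc), (p.1, labRoot c a hac.symm)] ++ B),
      HalfInt m := by
  obtain ⟨-, -, hstrict, hhalf⟩ := s34f_hard_data lam xi θ L H w0 _ hs hlen
  have e0 : A ++ p :: B = A ++ [p] ++ B := by simp
  rw [e0] at hs hstrict hhalf
  set S := runSw θ ⟨w0.act, lam⟩ A with hS
  have hfr : IsFrame S.frame := sc_isFrame_runSw θ _ (sc_isFrame_act w0) A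
  obtain ⟨c1, c2, t1, t2, G1, G2, hF⟩ :=
    h34t_split_local θ L.dom S hfr p.1 a b c hac hbc hab p.2 hβ hv
  -- the old lists
  have og : swGaps θ ⟨w0.act, lam⟩ (A ++ [p] ++ B) = swGaps θ ⟨w0.act, lam⟩ A ++ [S.gap θ p.1 p.2]
      ++ swGaps θ (runSw θ ⟨w0.act, lam⟩ (A ++ [p])) B := by
    rw [sc_gaps_append, sc_gaps_append]; rfl
  have ot : swTotals θ ⟨w0.act, lam⟩ (A ++ [p] ++ B) = swTotals θ ⟨w0.act, lam⟩ A ++ [S.total θ p.2]
      ++ swTotals θ (runSw θ ⟨w0.act, lam⟩ (A ++ [p])) B := by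
    rw [sc_totals_append, sc_totals_append]; rfl
  have oc : swCoeffs θ ⟨w0.act, lam⟩ (A ++ [p] ++ B) = swCoeffs θ ⟨w0.act, lam⟩ A ++ [S.coeff θ p.1 p.2]
      ++ swCoeffs θ (runSw θ ⟨w0.act, lam⟩ (A ++ [p])) B := by
    rw [sc_coeffs_append, sc_coeffs_append]; rfl
  obtain ⟨st, sg, stt⟩ := hstrict
  rw [og] at sg
  rw [ot] at stt
  rw [oc] at hhalf
  have htot : 0 < S.total θ p.2 := stt _ (by simp)
  have hval : SwValid θ S [(p.1, labRoot b c hbc), (p.1, labRoot c a hac.symm)] := by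
    refine ⟨?_, ?_, ?_, ?_, trivial⟩
    · show 0 ≤ S.gap θ p.1 (labRoot b c hbc)
      rw [G1]; linarith
    · show 0 ≤ S.total θ (labRoot b c hbc)
      rw [t1]; exact htot.le
    · show 0 ≤ (S.step θ p.1 (labRoot b c hbc)).gap θ p.1 (labRoot c a hac.symm)
      rw [G2]; linarith
    · show 0 ≤ (S.step θ p.1 (labRoot b c hbc)).total θ (labRoot c a hac.symm)
      rw [t2]; exact htot.le
  obtain ⟨hs', nc, ng, nt⟩ := h34_replace lam xi θ L.dom w0 A [p]
    [(p.1, labRoot b c hbc), (p.1, labRoot c a hac.symm)] B p.1 hs (by simp) (by simp)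
    (by intro z hz; simp at hz; rcases hz with rfl | rfl <;> rfl) hval hF
  refine ⟨hs', ⟨?_, ?_, ?_⟩, ?_⟩
  · intro z hz
    simp only [List.mem_append, List.mem_cons, List.not_mem_nil, or_false] at hz
    have hp := st p (by simp)
    rcases hz with (hz | rfl | rfl) | hz
    · exact st z (by simp [hz])
    · exact hp
    · exact hp
    · exact st z (by simp [hz])
  · intro g hg
    rw [ng] at hg
    have e : swGaps θ S [(p.1, labRoot b c hbc), (p.1, labRoot c a hac.symm)]
        = [S.gap θ p.1 (labRoot b c hbc), (S.step θ p.1 (labRoot b c hbc)).gap θ p.1 (labRoot c a hac.symm)] := rfl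
    rw [e, G1, G2] at hg
    simp only [List.mem_append, List.mem_cons, List.not_mem_nil, or_false] at hg
    rcases hg with (hg | rfl | rfl) | hg
    · exact sg g (by simp [hg])
    · linarith
    · linarith
    · exact sg g (by simp [hg])
  · intro g hg
    rw [nt] at hg
    have e : swTotals θ S [(p.1, labRoot b c hbc), (p.1, labRoot c a hac.symm)]
        = [S.total θ (labRoot b c hbc), (S.step θ p.1 (labRoot b c hbc)).total θ (labRoot c a hac.symm)] := rfl
    rw [e, t1, t2] at hg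
    simp only [List.mem_append, List.mem_cons, List.not_mem_nil, or_false] at hg
    rcases hg with (hg | rfl | rfl) | hg
    · exact stt g (by simp [hg])
    · exact htot
    · exact htot
    · exact stt g (by simp [hg])
  · intro g hg
    rw [nc] at hg
    have e : swCoeffs θ S [(p.1, labRoot b c hbc), (p.1, labRoot c a hac.symm)]
        = [S.coeff θ p.1 (labRoot b c hbc), (S.step θ p.1 (labRoot b c hbc)).coeff θ p.1 (labRoot c a hac.symm)] := rfl
    rw [e, c1, c2] at hg
    simp only [List.mem_append, List.mem_cons, List.not_mem_nil, or_false] at hg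
    rcases hg with (hg | rfl | rfl) | hg
    · exact hhalf g (by simp [hg])
    · exact hhalf _ (by simp)
    · exact hhalf _ (by simp)
    · exact hhalf g (by simp [hg])

/-! ## 4. from a strict augmented schedule `A ++ N ++ B` to a link (bookkeeping) -/

theorem h34t_get3 {α : Type*} (A N B : List α) (i : ℕ) (hi : i < (A ++ N ++ B).length) :
    (∃ h : i < A.length, (A ++ N ++ B)[i] = A[i]) ∨
    (∃ (_ : A.length ≤ i) (h : i - A.length < N.length), (A ++ N ++ B)[i] = N[i - A.length]) ∨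
    (∃ (_ : A.length + N.length ≤ i) (h : i - A.length - N.length < B.length),
      (A ++ N ++ B)[i] = B[i - A.length - N.length]) := by
  have hl : (A ++ N ++ B).length = A.length + N.length + B.length := by simp [Nat.add_assoc]
  by_cases h1 : i < A.length
  · left
    refine ⟨h1, ?_⟩
    rw [List.getElem_append_left (by simp; omega), List.getElem_append_left h1]
  · by_cases h2 : i < A.length + N.length
    · right; left
      refine ⟨by omega, by omega, ?_⟩
      rw [List.getElem_append_left (by simp; omega), List.getElem_append_right (by omega)]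
    · right; right
      refine ⟨by omega, by omega, ?_⟩
      rw [List.getElem_append_right (by simp; omega)]
      simp only [List.length_append, Nat.sub_add_eq]

theorem h34t_ord_parts {α : Type*} (A N B : List α) (R : α → α → Prop) (Q : ℕ → ℕ → Prop)
    (hAB : (A ++ B).Pairwise R) (hAN : ∀ p ∈ A, ∀ q ∈ N, R p q) (hNB : ∀ p ∈ N, ∀ q ∈ B, R p q)
    (hN : ∀ i j, i < j → j < N.length → Q (A.length + i) (A.length + j))
    (i j : ℕ) (hi : i < (A ++ N ++ B).length) (hj : j < (A ++ N ++ B).length) (hij : i < j) :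
    R (A ++ N ++ B)[i] (A ++ N ++ B)[j] ∨ Q i j := by
  rw [List.pairwise_append] at hAB
  obtain ⟨pA, pB, pAB⟩ := hAB
  rcases h34t_get3 A N B i hi with ⟨a1, e1⟩ | ⟨a1, a2, e1⟩ | ⟨a1, a2, e1⟩ <;>
  rcases h34t_get3 A N B j hj with ⟨b1, e2⟩ | ⟨b1, b2, e2⟩ | ⟨b1, b2, e2⟩
  · left; rw [e1, e2]; exact (List.pairwise_iff_getElem.1 pA) i j a1 b1 hij
  · left; rw [e1, e2]; exact hAN _ (List.getElem_mem _) _ (List.getElem_mem _)
  · left; rw [e1, e2]; exact pAB _ (List.getElem_mem _) _ (List.getElem_mem _)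
  · omega
  · right
    have := hN (i - A.length) (j - A.length) (by omega) b2
    rwa [Nat.add_sub_cancel' a1, Nat.add_sub_cancel' b1] at this
  · left; rw [e1, e2]; exact hNB _ (List.getElem_mem _) _ (List.getElem_mem _)
  · omega
  · omega
  · left; rw [e1, e2]; exact (List.pairwise_iff_getElem.1 pB) _ _ a2 b2 (by omega)

/-- assembly of `LinkBase` for a strict augmented schedule `A ++ N ++ B`; the members of `N` have the same level function and
`r` is weakly increasing on `N`; all other simultaneous pairs are orthogonal. -/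
theorem h34t_base (lam xi : Vec n) (θ : Shape n) (w0 : WD n) (A N B : List (ℝ × RootD n))
    (r : List ℤ) (sched : IsSchedule lam θ xi w0 (A ++ N ++ B))
    (len : (A ++ N ++ B).length = n + 1) (gen : SwGenQ (A ++ N ++ B))
    (rel : IsPrimRel r (A ++ N ++ B))
    (half : List.Forall₂ (fun (m : ℝ) (a : ℤ) => ∃ z : ℤ, m + (1 / 2) * a = z)
      (swCoeffs θ ⟨w0.act, lam⟩ (A ++ N ++ B)) r)
    (strict : SwStrict θ ⟨w0.act, lam⟩ (A ++ N ++ B))
    (oAB : (A ++ B).Pairwise (fun p q => p.1 = q.1 → dot p.2.vec q.2.vec = 0))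
    (oAN : ∀ p ∈ A, ∀ q ∈ N, p.1 = q.1 → dot p.2.vec q.2.vec = 0)
    (oNB : ∀ p ∈ N, ∀ q ∈ B, p.1 = q.1 → dot p.2.vec q.2.vec = 0)
    (lev : ∀ (i j : ℕ) (hi : A.length + i < (A ++ N ++ B).length)
      (hj : A.length + j < (A ++ N ++ B).length), i < j → j < N.length → ∀ t,
      levFn θ ⟨w0.act, lam⟩ (A ++ N ++ B) (A.length + i) (A ++ N ++ B)[A.length + i].2 t
        = levFn θ ⟨w0.act, lam⟩ (A ++ N ++ B) (A.length + j) (A ++ N ++ B)[A.length + j].2 t)
    (mono : ∀ i j, i < j → j < N.length → r.getD (A.length + i) 0 ≤ r.getD (A.length + j) 0) :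
    LinkBase lam θ xi w0 (A ++ N ++ B) r := by
  refine
    { sched := sched
      len := len
      gen := gen
      rel := rel
      half := half
      tot := strict.2.2
      time := fun i hi => Or.inl (strict.1 _ (List.getElem_mem hi))
      gap := ?_
      ord := ?_ }
  · intro i hi
    left
    rw [← sc_gaps_get θ ⟨w0.act, lam⟩ _ i hi]
    have hi' : i < (swGaps θ ⟨w0.act, lam⟩ (A ++ N ++ B)).length := by
      rw [sc_gaps_length]; exact hi
    rw [List.getD_eq_getElem _ _ hi']
    exact strict.2.1 _ (List.getElem_mem hi')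
  · intro i j hi hj hij he
    rcases h34t_ord_parts A N B (fun p q => p.1 = q.1 → dot p.2.vec q.2.vec = 0)
      (fun i j => ∀ (hi : i < (A ++ N ++ B).length) (hj : j < (A ++ N ++ B).length),
        (∀ t, levFn θ ⟨w0.act, lam⟩ (A ++ N ++ B) i (A ++ N ++ B)[i].2 t
          = levFn θ ⟨w0.act, lam⟩ (A ++ N ++ B) j (A ++ N ++ B)[j].2 t) ∧ r.getD i 0 ≤ r.getD j 0)
      oAB oAN oNB (fun i j hij hj h1 h2 => ⟨lev i j h1 h2 hij hj, mono i j hij hj⟩) i j hi hj hij
      with h | h
    · exact Or.inl (h he)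
    · exact Or.inr (h hi hj)

/-- **a strict augmented schedule gives a link** as soon as every primitive relation is monotone on `N` (in one of the two
directions). -/
theorem h34t_link (lam xi : Vec n) (θ : Shape n) (L : Lbl lam θ xi) (G : GenericShape θ) (w0 : WD n)
    (A N B : List (ℝ × RootD n)) (sched : IsSchedule lam θ xi w0 (A ++ N ++ B))
    (len : (A ++ N ++ B).length = n + 1) (gen : SwGenQ (A ++ N ++ B))
    (strict : SwStrict θ ⟨w0.act, lam⟩ (A ++ N ++ B))
    (halfc : ∀ m ∈ swCoeffs θ ⟨w0.act, lam⟩ (A ++ N ++ B), HalfInt m)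
    (oAB : (A ++ B).Pairwise (fun p q => p.1 = q.1 → dot p.2.vec q.2.vec = 0))
    (oAN : ∀ p ∈ A, ∀ q ∈ N, p.1 = q.1 → dot p.2.vec q.2.vec = 0)
    (oNB : ∀ p ∈ N, ∀ q ∈ B, p.1 = q.1 → dot p.2.vec q.2.vec = 0)
    (lev : ∀ (i j : ℕ) (hi : A.length + i < (A ++ N ++ B).length)
      (hj : A.length + j < (A ++ N ++ B).length), i < j → j < N.length → ∀ t,
      levFn θ ⟨w0.act, lam⟩ (A ++ N ++ B) (A.length + i) (A ++ N ++ B)[A.length + i].2 t
        = levFn θ ⟨w0.act, lam⟩ (A ++ N ++ B) (A.length + j) (A ++ N ++ B)[A.length + j].2 t)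
    (mono : ∀ r : List ℤ, IsPrimRel r (A ++ N ++ B) →
      (∀ i j, i < j → j < N.length → r.getD (A.length + i) 0 ≤ r.getD (A.length + j) 0) ∨
      (∀ i j, i < j → j < N.length → r.getD (A.length + j) 0 ≤ r.getD (A.length + i) 0)) :
    HasLink lam θ xi := by
  obtain ⟨r, rel⟩ := lat_primRel_exists (l := A ++ N ++ B) (by omega)
  rcases lat_half_int gen len rel _ (sc_coeffs_length _ _ _) halfc
    (sc_balance_mem_Q lam xi θ L w0 _ sched) with hint | half
  · refine ⟨0, le_rfl, by norm_num, w0, _, r, sched, len, gen, rel, ?_⟩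
    have hl : (swCoeffs θ ⟨w0.act, lam⟩ (A ++ N ++ B)).length = r.length := by
      rw [sc_coeffs_length, rel.1]
    rw [List.forall₂_iff_get]
    refine ⟨hl, fun i h₁ h₂ => ?_⟩
    obtain ⟨z, hz⟩ := hint _ (List.get_mem _ ⟨i, h₁⟩)
    exact ⟨z, by rw [zero_mul, add_zero]; exact hz⟩
  · rcases mono r rel with hm | hm
    · exact s34_link_of_base lam xi θ G w0 _ r
        (h34t_base lam xi θ w0 A N B r sched len gen rel half strict oAB oAN oNB lev hm)
    · have rel' : IsPrimRel (r.map (fun a => -a)) (A ++ N ++ B) := lat_primRel_neg rel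
      exact s34_link_of_base lam xi θ G w0 _ _
        (h34t_base lam xi θ w0 A N B _ sched len gen rel' (s34f_half_neg _ r half) strict oAB oAN oNB
          lev (fun i j hij hj => by
            rw [s34f_getD_neg, s34f_getD_neg]
            exact neg_le_neg (hm i j hij hj)))

/-! ## 5. pairing a relation with a vector -/

theorem h34t_dot_relSum_zero (x : Vec n) (c : List ℝ) (B : List (ℝ × RootD n))
    (hB : ∀ z ∈ B, dot x z.2.vec = 0) : dot x (relSum c B) = 0 := by
  rw [lat_dot_relSum]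
  refine Finset.sum_eq_zero fun i _ => ?_
  rw [hB _ (List.get_mem B i), mul_zero]

theorem h34t_relSum_head (σ : List ℝ) (q : ℝ × RootD n) (M : List (ℝ × RootD n)) :
    relSum σ (q :: M) = σ.getD 0 0 • q.2.vec + relSum (σ.drop 1) M := by
  cases σ with
  | nil => simp [latRel_nil]
  | cons a σ => simp [latRel_cons]

theorem h34t_dot_relSum_drop (x : Vec n) (A M : List (ℝ × RootD n)) (ρ : List ℝ)
    (hA : ∀ z ∈ A, dot x z.2.vec = 0) :
    dot x (relSum ρ (A ++ M)) = dot x (relSum (ρ.drop A.length) M) := by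
  induction A generalizing ρ with
  | nil => simp
  | cons z A ih =>
    rw [List.cons_append, h34t_relSum_head, dot_add_right, dot_smul_right,
      hA z List.mem_cons_self, mul_zero, zero_add,
      ih _ (fun w hw => hA w (List.mem_cons_of_mem _ hw)), List.drop_drop, List.length_cons, Nat.add_comm]

theorem h34t_getD_drop (ρ : List ℝ) (k i : ℕ) : (ρ.drop k).getD i 0 = ρ.getD (k + i) 0 := by
  simp [List.getD_eq_getElem?_getD, List.getElem?_drop]

/-- pairing a relation of `A ++ [q₁, q₂, q₃] ++ B` with a vector orthogonal to `A` and `B` -/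
theorem h34t_rel_pair (A B : List (ℝ × RootD n)) (q₁ q₂ q₃ : ℝ × RootD n) (ρ : List ℝ)
    (hρ : IsRel ρ (A ++ [q₁, q₂, q₃] ++ B)) (x : Vec n) (hA : ∀ z ∈ A, dot x z.2.vec = 0)
    (hB : ∀ z ∈ B, dot x z.2.vec = 0) :
    ρ.getD A.length 0 * dot x q₁.2.vec + ρ.getD (A.length + 1) 0 * dot x q₂.2.vec
      + ρ.getD (A.length + 2) 0 * dot x q₃.2.vec = 0 := by
  have h := congrArg (dot x) hρ.2
  rw [dot_zero_right, List.append_assoc, h34t_dot_relSum_drop x A _ ρ hA] at h
  simp only [List.cons_append, List.nil_append] at h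
  rw [h34t_relSum_head, h34t_relSum_head, h34t_relSum_head] at h
  simp only [dot_add_right, dot_smul_right, List.drop_drop, h34t_getD_drop,
    h34t_dot_relSum_zero x _ B hB, add_zero] at h
  linarith
/-! ## 6. phases and dual vectors at a knot -/

theorem h34t_nodup {l : List (ℝ × RootD n)} (h : SwIndep l) : l.Nodup := by
  rw [List.nodup_iff_injective_get]
  intro i j hij
  apply h.injective
  show (l.get i).2.vec = (l.get j).2.vec
  rw [hij]

/-- the phase of an axis is constant along switches that do not use it -/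
theorem h34t_phase_const {l : List (ℝ × RootD n)} (h : SwBasis l) (e : Fin n) (k k' : ℕ) (hkk : k ≤ k')
    (hk' : k' ≤ l.length)
    (hoff : ∀ (j : ℕ) (hj : j < l.length), k ≤ j → j < k' → e ≠ l[j].2.i ∧ e ≠ l[j].2.j) :
    phase l k' e = phase l k e := by
  induction k', hkk using Nat.le_induction with
  | base => rfl
  | succ m hm ih =>
    have hml : m < l.length := by omega
    rw [lat_phase_off h hml e (hoff m hml hm (by omega)).1 (hoff m hml hm (by omega)).2]
    exact ih (by omega) (fun j hj h1 h2 => hoff j hj h1 (by omega))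

/-- indices of the knot -/
theorem h34t_knot_index (l : List (ℝ × RootD n)) (hl : l.Pairwise (fun p q => p.1 ≤ q.1)) (τ : ℝ)
    (j : ℕ) (hj : j < l.length) : l[j].1 = τ ↔ cntLt l τ ≤ j ∧ j < cntLe l τ := by
  obtain ⟨-, h1, h2, h3, h4, h5⟩ := h34_split_at l hl τ
  constructor
  · intro he
    constructor
    · by_contra hlt
      have hlt' : j < cntLt l τ := not_le.1 hlt
      have hm : l[j] ∈ l.take (cntLt l τ) := by
        have hj' : j < (l.take (cntLt l τ)).length := by simp; omega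
        have := List.getElem_mem hj'
        rwa [List.getElem_take] at this
      have := h1 _ hm
      linarith
    · by_contra hge
      have hge' : cntLe l τ ≤ j := not_lt.1 hge
      have hm : l[j] ∈ l.drop (cntLe l τ) := by
        have hj' : j - cntLe l τ < (l.drop (cntLe l τ)).length := by simp; omega
        have := List.getElem_mem hj'
        rw [List.getElem_drop] at this
        simpa [Nat.add_sub_cancel' hge'] using this
      have := h3 _ hm
      linarith
  · rintro ⟨ha, hb⟩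
    apply h2
    have hj' : j - cntLt l τ < ((l.take (cntLe l τ)).drop (cntLt l τ)).length := by simp; omega
    have := List.getElem_mem hj'
    rw [List.getElem_drop, List.getElem_take] at this
    simpa [Nat.add_sub_cancel' ha] using this

/-- the jump of the phase of an axis of a switch of the knot is the term of its dual vector -/
theorem h34t_phase_jump (lam xi : Vec n) (θ : Shape n) (w0 : WD n) (l : List (ℝ × RootD n))
    (P : Finset (Fin n)) (X : ExcCtx lam θ xi w0 l P) (τ : ℝ) (i : ℕ) (hi : i < l.length)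
    (hτ : l[i].1 = τ) (x : Vec n) (hx : IsDual l i x) (e : Fin n)
    (he : e = l[i].2.i ∨ e = l[i].2.j) :
    kPp l τ e = kPm l τ e + x e * l[i].2.vec e := by
  have hb : SwBasis l := ⟨X.exc.indep, X.exc.len⟩
  have hd := h34_knot_disjoint lam xi θ X.lbl X.gen X.hard w0 l X.sched X.exc.len.le
  obtain ⟨h1, h2⟩ := (h34t_knot_index l X.sched.sorted τ i hi).1 hτ
  have hle : cntLe l τ ≤ l.length := (h34_split_at l X.sched.sorted τ).2.2.2.2.2
  have off : ∀ (j : ℕ) (hj : j < l.length), cntLt l τ ≤ j → j < cntLe l τ → j ≠ i →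
      e ≠ l[j].2.i ∧ e ≠ l[j].2.j := by
    intro j hj a1 a2 hne
    have hjτ := (h34t_knot_index l X.sched.sorted τ j hj).2 ⟨a1, a2⟩
    rcases lt_or_gt_of_ne hne with hlt | hgt
    · obtain ⟨d1, d2, d3, d4⟩ := (List.pairwise_iff_getElem.1 hd) j i hj hi hlt (hjτ.trans hτ.symm)
      rcases he with rfl | rfl
      · exact ⟨d1.symm, d3.symm⟩
      · exact ⟨d2.symm, d4.symm⟩
    · obtain ⟨d1, d2, d3, d4⟩ := (List.pairwise_iff_getElem.1 hd) i j hi hj hgt (hτ.trans hjτ.symm)
      rcases he with rfl | rfl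
      · exact ⟨d1, d2⟩
      · exact ⟨d3, d4⟩
  unfold kPp kPm
  rw [h34t_phase_const hb e (i + 1) (cntLe l τ) (by omega) hle
      (fun j hj a1 a2 => off j hj (by omega) a2 (by omega)),
    lat_phase_succ hb hi hx,
    h34t_phase_const hb e (cntLt l τ) i h1 (by omega)
      (fun j hj a1 a2 => off j hj a1 (by omega) (by omega))]

/-- the axes of the root of a transfer -/
theorem h34t_axes (β : RootD n) (a b : Lab n) (hab : a.1 ≠ b.1) (hβ : β.vec = labVec b - labVec a) :
    (a.1 = β.i ∨ a.1 = β.j) ∧ (b.1 = β.i ∨ b.1 = β.j) ∧ (β.i = a.1 ∨ β.i = b.1) ∧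
      (β.j = a.1 ∨ β.j = b.1) ∧ β.vec a.1 = - sgnB a.2 ∧ β.vec b.1 = sgnB b.2 := by
  have va : β.vec a.1 = - sgnB a.2 := by
    rw [hβ]; simp [labVec, hab]
  have vb : β.vec b.1 = sgnB b.2 := by
    rw [hβ]; simp [labVec, hab.symm]
  have voff : ∀ k, k ≠ a.1 → k ≠ b.1 → β.vec k = 0 := by
    intro k h1 h2
    rw [hβ]; simp [labVec, h1, h2]
  refine ⟨?_, ?_, ?_, ?_, va, vb⟩
  · by_contra hcon
    push Not at hcon
    have := lat_vec_off β a.1 hcon.1 hcon.2
    rw [va] at this
    exact lat_sgnB_ne_zero a.2 (neg_eq_zero.1 this)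
  · by_contra hcon
    push Not at hcon
    have := lat_vec_off β b.1 hcon.1 hcon.2
    rw [vb] at this
    exact lat_sgnB_ne_zero b.2 this
  · by_contra hcon
    push Not at hcon
    have := voff β.i hcon.1 hcon.2
    rw [lat_vec_i] at this
    exact lat_sgnB_ne_zero _ this
  · by_contra hcon
    push Not at hcon
    have := voff β.j hcon.1 hcon.2
    rw [lat_vec_j] at this
    exact lat_sgnB_ne_zero _ this

/-- the dual vector of a transfer of the knot -/
theorem h34t_dual_data (lam xi : Vec n) (θ : Shape n) (w0 : WD n) (l : List (ℝ × RootD n))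
    (P : Finset (Fin n)) (X : ExcCtx lam θ xi w0 l P) (τ : ℝ) (p : ℝ × RootD n) (hp : p ∈ l)
    (hpτ : p.1 = τ) (a b : Lab n) (hab : a.1 ≠ b.1) (hpv : p.2.vec = labVec b - labVec a) :
    ∃ x : Vec n, lv x b - lv x a = 1 ∧ (∀ z ∈ l, z ≠ p → dot x z.2.vec = 0) ∧
      ((∀ e, x e = 0 ∨ |x e| = 1) ∨ (∀ e, x e = 0 ∨ |x e| = 1 / 2)) ∧
      (∀ e, (e ∈ P ↔ a.1 ∉ P) → x e = 0) ∧
      kPp l τ a.1 = kPm l τ a.1 - lv x a ∧ kPp l τ b.1 = kPm l τ b.1 + lv x b := by
  have hb : SwBasis l := ⟨X.exc.indep, X.exc.len⟩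
  obtain ⟨i, hi, rfl⟩ := List.getElem_of_mem hp
  obtain ⟨x, hx⟩ := lat_dual_exists hb.1 hi
  obtain ⟨a1, a2, a3, a4, va, vb⟩ := h34t_axes l[i].2 a b hab hpv
  refine ⟨x, ?_, ?_, lat_dual_abs (lat_basis_span hb) hi hx, ?_, ?_, ?_⟩
  · rw [← h34t_dot_transfer x l[i].2 a b hpv]
    exact lat_dual_self hx hi
  · intro z hz hne
    obtain ⟨j, hj, rfl⟩ := List.getElem_of_mem hz
    exact lat_dual_other hx hj (fun h => hne (by subst h; rfl))
  · intro e he
    by_contra hne
    have hmem : e ∈ vsupp x := (lat_mem_vsupp x e).2 hne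
    by_cases haP : a.1 ∈ P
    · have hiP : l[i].2.i ∈ P := by
        rcases a1 with h | h
        · rw [← h]; exact haP
        · exact (X.exc.connP.2.1 _ (List.getElem_mem hi)).2 (h ▸ haP)
      have := lat_dual_supp_subset (lat_basis_span hb) hi hx X.exc.connP.2.1 hiP hmem
      exact (he.1 this) haP
    · have hiP : l[i].2.i ∈ Pᶜ := by
        rcases a1 with h | h
        · rw [← h]; exact Finset.mem_compl.2 haP
        · exact (X.exc.connQ.2.1 _ (List.getElem_mem hi)).2 (h ▸ Finset.mem_compl.2 haP)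
      have := lat_dual_supp_subset (lat_basis_span hb) hi hx X.exc.connQ.2.1 hiP hmem
      exact (Finset.mem_compl.1 this) (he.2 haP)
  · rw [h34t_phase_jump lam xi θ w0 l P X τ i hi hpτ x hx a.1 a1, va]
    unfold lv; ring
  · rw [h34t_phase_jump lam xi θ w0 l P X τ i hi hpτ x hx b.1 a2, vb]
    unfold lv; ring

/-! ## 7. normal form of the knot -/

/-- normal form of the knot: two given switches first -/
theorem h34t_normal (lam xi : Vec n) (θ : Shape n) (w0 : WD n) (l : List (ℝ × RootD n))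
    (P : Finset (Fin n)) (X : ExcCtx lam θ xi w0 l P) (τ : ℝ) (p q : ℝ × RootD n) (hp : p ∈ l)
    (hq : q ∈ l) (hpτ : p.1 = τ) (hqτ : q.1 = τ) (hpq : p ≠ q) :
    ∃ B : List (ℝ × RootD n), l.Perm (p :: q :: (l.take (cntLt l τ) ++ B)) ∧
      IsSchedule lam θ xi w0 (l.take (cntLt l τ) ++ p :: q :: B) ∧
      ∀ z ∈ l.take (cntLt l τ), z.1 < τ := by
  classical
  obtain ⟨hl, h1, h2, h3, -, -⟩ := h34_split_at l X.sched.sorted τ
  obtain ⟨A, hA⟩ : ∃ A, A = l.take (cntLt l τ) := ⟨_, rfl⟩
  obtain ⟨cl, hcl⟩ : ∃ cl, cl = (l.take (cntLe l τ)).drop (cntLt l τ) := ⟨_, rfl⟩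
  obtain ⟨l₂, hl₂⟩ : ∃ l₂, l₂ = l.drop (cntLe l τ) := ⟨_, rfl⟩
  have hsub : cl.Sublist l := by
    rw [hcl]; exact (List.drop_sublist _ _).trans (List.take_sublist _ _)
  rw [← hA, ← hcl, ← hl₂] at hl
  rw [← hA] at h1 ⊢
  rw [← hcl] at h2
  rw [← hl₂] at h3
  have mem_cl : ∀ z ∈ l, z.1 = τ → z ∈ cl := by
    intro z hz hzτ
    rw [hl] at hz
    simp only [List.mem_append] at hz
    rcases hz with (hz | hz) | hz
    · have := h1 z hz; linarith
    · exact hz
    · have := h3 z hz; linarith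
  have hpc := mem_cl p hp hpτ
  have hqc : q ∈ cl.erase p := (List.mem_erase_of_ne hpq.symm).2 (mem_cl q hq hqτ)
  have hperm : cl.Perm (p :: q :: (cl.erase p).erase q) :=
    (List.perm_cons_erase hpc).trans ((List.perm_cons_erase hqc).cons p)
  obtain ⟨rest, hrest⟩ : ∃ rest, rest = (cl.erase p).erase q := ⟨_, rfl⟩
  rw [← hrest] at hperm
  have horth : cl.Pairwise (fun p q => dot p.2.vec q.2.vec = 0) := by
    have h0 := (s34f_knot_orth lam xi θ X.lbl X.gen X.hard w0 l X.sched X.exc.len.le).sublist hsub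
    exact h0.imp_of_mem (fun {a b} ha hb h => h ((h2 a ha).trans (h2 b hb).symm))
  obtain ⟨hrun, hvalid⟩ := h34_cluster_perm θ (runSw θ ⟨w0.act, lam⟩ A) cl (p :: q :: rest) τ h2 hperm horth
  have hs : IsSchedule lam θ xi w0 (A ++ cl ++ l₂) := hl ▸ X.sched
  have hv : SwValid θ (runSw θ ⟨w0.act, lam⟩ A) cl :=
    ((sc_valid_append θ _ A cl).1 ((sc_valid_append θ _ (A ++ cl) l₂).1 hs.valid).1).2
  have hrep := (h34_replace lam xi θ X.lbl.dom w0 A cl (p :: q :: rest) l₂ τ hs
    (List.ne_nil_of_mem hpc) h2 (fun z hz => h2 z (hperm.mem_iff.2 hz)) (hvalid.2 hv)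
    (by rw [hrun]; exact ⟨rfl, fun _ _ => rfl⟩)).1
  refine ⟨rest ++ l₂, ?_, ?_, h1⟩
  · have e1 : l.Perm (A ++ (p :: q :: rest) ++ l₂) := by
      conv_lhs => rw [hl]
      exact (hperm.append_left A).append_right l₂
    refine e1.trans ?_
    have e2 : A ++ (p :: q :: rest) ++ l₂ = A ++ p :: (q :: (rest ++ l₂)) := by simp
    rw [e2]
    refine List.perm_middle.trans (List.Perm.cons p ?_)
    exact List.perm_middle
  · have e2 : A ++ (p :: q :: rest) ++ l₂ = A ++ p :: q :: (rest ++ l₂) := by simp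
    rw [← e2]; exact hrep

/-! ## 8. the donor star -/

theorem h34t_orth_of_disj (x y : Lab n) (hxy : x.1 ≠ y.1) (γ : RootD n) (h1 : γ.i ≠ x.1)
    (h2 : γ.i ≠ y.1) (h3 : γ.j ≠ x.1) (h4 : γ.j ≠ y.1) : dot (labRoot x y hxy).vec γ.vec = 0 := by
  rw [lat_dot_vec, lat_vec_off _ γ.i h1 h2, lat_vec_off _ γ.j h3 h4]
  simp

theorem h34t_mono3 (f : ℕ → ℤ) (h01 : f 0 ≤ f 1) (h12 : f 1 ≤ f 2) :
    ∀ i j, i < j → j < 3 → f i ≤ f j := by
  intro i j hij hj
  interval_cases j <;> interval_cases i <;> omega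

/-- two transfers on four distinct axes are orthogonal -/
theorem h34t_transfer_orth (β γ : RootD n) (a b c d : Lab n) (nac : a.1 ≠ c.1) (nbc : b.1 ≠ c.1)
    (nad : a.1 ≠ d.1) (nbd : b.1 ≠ d.1) (hβ : β.vec = labVec b - labVec a)
    (hγ : γ.vec = labVec d - labVec c) : dot β.vec γ.vec = 0 := by
  rw [h34t_dot_transfer β.vec γ c d hγ, hβ, h34t_lv_sub, h34t_lv_sub, h34t_lv_ne b d nbd,
    h34t_lv_ne a d nad, h34t_lv_ne b c nbc, h34t_lv_ne a c nac]
  ring

/-- the three switches of a donor star have the level function of the switch `a → b` -/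
theorem h34t_star_lev (θ : Shape n) (hθ : ∀ v ∈ θ, Dom v) (S0 : SwState n) (hS0 : IsFrame S0.frame)
    (A B : List (ℝ × RootD n)) (τ : ℝ) (a b c d : Lab n) (nac : a.1 ≠ c.1) (nbc : b.1 ≠ c.1)
    (nab : a.1 ≠ b.1) (nad : a.1 ≠ d.1) (nbd : b.1 ≠ d.1) (β : RootD n) (q : ℝ × RootD n)
    (hβ : β.vec = labVec b - labVec a) (hq : q.2.vec = labVec d - labVec c)
    (hv : lv ((runSw θ S0 A).frame θ.sum) c = lv ((runSw θ S0 A).frame θ.sum) a)
    (hW : lv ((runSw θ S0 A).frame θ.sum) d = lv ((runSw θ S0 A).frame θ.sum) b)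
    (i : ℕ) (hi3 : i < 3)
    (hi : A.length + i < (A ++ [(τ, labRoot b c nbc), (τ, labRoot c a nac.symm), q] ++ B).length)
    (t : ℝ) :
    levFn θ S0 (A ++ [(τ, labRoot b c nbc), (τ, labRoot c a nac.symm), q] ++ B) (A.length + i)
      (A ++ [(τ, labRoot b c nbc), (τ, labRoot c a nac.symm), q] ++ B)[A.length + i].2 t
      = (runSw θ S0 A).coeff θ t β := by
  have hfr : IsFrame (runSw θ S0 A).frame := sc_isFrame_runSw θ _ hS0 A
  obtain ⟨c1, c2, -, -, -, -, hF⟩ :=
    h34t_split_local θ hθ (runSw θ S0 A) hfr τ a b c nac nbc nab β hβ hv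
  have hst : ∀ k, k ≤ 3 → stAt θ S0 (A ++ [(τ, labRoot b c nbc), (τ, labRoot c a nac.symm), q] ++ B) (A.length + k)
      = runSw θ (runSw θ S0 A) ([(τ, labRoot b c nbc), (τ, labRoot c a nac.symm), q].take k) := by
    intro k hk
    unfold stAt
    rw [← sc_runSw_append, List.append_assoc, List.take_length_add_append, List.take_append_of_le_length (by simpa using hk)]
  unfold levFn
  rw [hst i hi3.le]
  interval_cases i
  · have e : (A ++ [(τ, labRoot b c nbc), (τ, labRoot c a nac.symm), q] ++ B)[A.length + 0].2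
        = labRoot b c nbc := by simp
    rw [e]
    exact c1 t
  · have e : (A ++ [(τ, labRoot b c nbc), (τ, labRoot c a nac.symm), q] ++ B)[A.length + 1].2
        = labRoot c a nac.symm := by simp
    rw [e]
    exact c2 t
  · have e : (A ++ [(τ, labRoot b c nbc), (τ, labRoot c a nac.symm), q] ++ B)[A.length + 2].2 = q.2 := by
      simp
    rw [e]
    show - dot q.2.vec ((runSw θ (runSw θ S0 A) [(τ, labRoot b c nbc), (τ, labRoot c a nac.symm)]).frame (θ.val t))
      = - dot β.vec ((runSw θ S0 A).frame (θ.val t))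
    have hx := sc_inFace_val θ hθ t
    rw [hF.2 _ hx]
    show - dot q.2.vec (refl β ((runSw θ S0 A).frame (θ.val t))) = _
    have ho : dot q.2.vec β.vec = 0 := by
      rw [dot_comm]; exact h34t_transfer_orth β q.2 a b c d nac nbc nad nbd hβ hq
    rw [dot_comm, sc_dot_refl_left, sc_refl_of_orth β q.2.vec ho, h34t_dot_transfer _ q.2 c d hq,
      dot_comm, h34t_dot_transfer _ β a b hβ,
      h34_fs2 θ.sum _ hfr a c nac hv.symm _ hx, h34_fs2 θ.sum _ hfr b d nbd hW.symm _ hx]


/-- values of the dual vector of a bridge at the two labels -/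
theorem h34t_bridge_cases (x : Vec n) (a b : Lab n) (h1 : lv x b - lv x a = 1)
    (habs : (∀ e, x e = 0 ∨ |x e| = 1) ∨ (∀ e, x e = 0 ∨ |x e| = 1 / 2)) (hne : lv x a ≠ - (1 / 2)) :
    (lv x a = 0 ∧ lv x b = 1) ∨ (lv x a = -1 ∧ lv x b = 0) := by
  rcases habs with h | h
  · have pa := lat_sgn_mul_cases a.2 _ _ (h a.1)
    have pb := lat_sgn_mul_cases b.2 _ _ (h b.1)
    unfold lv at *
    rcases pa with pa | pa | pa <;> rcases pb with pb | pb | pb <;> rw [pa, pb] at h1 <;>
      first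
        | (exfalso; norm_num at h1; done)
        | (left; exact ⟨pa, pb⟩)
        | (right; exact ⟨pa, pb⟩)
  · have pa := lat_sgn_mul_cases a.2 _ _ (h a.1)
    have pb := lat_sgn_mul_cases b.2 _ _ (h b.1)
    unfold lv at *
    rcases pa with pa | pa | pa <;> rcases pb with pb | pb | pb <;> rw [pa, pb] at h1 <;>
      first
        | (exfalso; norm_num at h1; done)
        | (exfalso; exact hne pa)

theorem h34t_lv_zero (x : Vec n) (a : Lab n) (h : x a.1 = 0) : lv x a = 0 := by
  unfold lv; rw [h, mul_zero]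

/-- (X7) donor star; `hW` is F5, `hbr'` is F6 of `H/Knot.lean` -/
theorem h34t_donor_star (lam xi : Vec n) (θ : Shape n) (w0 : WD n) (l : List (ℝ × RootD n))
    (P : Finset (Fin n)) (X : ExcCtx lam θ xi w0 l P) (τ : ℝ) (a b c d : Lab n)
    (h : IsTransfer l τ a b) (h' : IsTransfer l τ c d) (hac : a.1 ∈ P ↔ c.1 ∉ P)
    (hv : lv (kVm θ ⟨w0.act, lam⟩ l τ) c = lv (kVm θ ⟨w0.act, lam⟩ l τ) a)
    (hW : lv (kVm θ ⟨w0.act, lam⟩ l τ) d = lv (kVm θ ⟨w0.act, lam⟩ l τ) b)
    (h1 : lv (kY θ ⟨w0.act, lam⟩ l τ) a < lv (kY θ ⟨w0.act, lam⟩ l τ) c)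
    (h2 : lv (kY θ ⟨w0.act, lam⟩ l τ) c < lv (kY θ ⟨w0.act, lam⟩ l τ) b)
    (hbr : kPp l τ a.1 ≠ kPm l τ a.1 + 1 / 2) (hbr' : kPp l τ c.1 ≠ kPm l τ c.1 + 1 / 2)
    (hcore : ¬ (kPp l τ a.1 = kPm l τ a.1 ∧ kPp l τ c.1 = kPm l τ c.1)) : False := by
  obtain ⟨-, -, -, -, hab, nab⟩ := h34c_transfer lam xi θ w0 l P X τ a b h
  obtain ⟨-, -, -, -, hcd, ncd⟩ := h34c_transfer lam xi θ w0 l P X τ c d h'
  -- the four axes are distinct
  have nac : a.1 ≠ c.1 := by
    intro e; rw [e] at hac; by_cases hc : c.1 ∈ P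
    · exact hac.1 hc hc
    · exact hc (hac.2 hc)
  have hbc : b.1 ∈ P ↔ c.1 ∉ P := hab.symm.trans hac
  have had : a.1 ∈ P ↔ d.1 ∉ P := hac.trans (not_congr hcd)
  have hbd : b.1 ∈ P ↔ d.1 ∉ P := hab.symm.trans had
  have nbc : b.1 ≠ c.1 := by
    intro e; rw [e] at hbc; by_cases hc : c.1 ∈ P
    · exact hbc.1 hc hc
    · exact hc (hbc.2 hc)
  have nad : a.1 ≠ d.1 := by
    intro e; rw [e] at had; by_cases hc : d.1 ∈ P
    · exact had.1 hc hc
    · exact hc (had.2 hc)
  have nbd : b.1 ≠ d.1 := by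
    intro e; rw [e] at hbd; by_cases hc : d.1 ∈ P
    · exact hbd.1 hc hc
    · exact hc (hbd.2 hc)
  obtain ⟨p, hp, hpτ, hpv⟩ := h
  obtain ⟨q, hq, hqτ, hqv⟩ := h'
  have hpq : p ≠ q := by
    intro e
    have e1 := (h34t_axes p.2 a b nab hpv).2.2.2.2.1
    rw [e, hqv] at e1
    simp [labVec, nac, nad] at e1
    exact lat_sgnB_ne_zero a.2 e1
  -- dual vectors
  obtain ⟨x, x1, xo, xabs, xsupp, xa, -⟩ := h34t_dual_data lam xi θ w0 l P X τ p hp hpτ a b nab hpv
  obtain ⟨x', x1', xo', xabs', xsupp', xc, -⟩ :=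
    h34t_dual_data lam xi θ w0 l P X τ q hq hqτ c d ncd hqv
  have xc0 : lv x c = 0 := h34t_lv_zero x c (xsupp c.1
    ⟨fun hc ha => hac.1 ha hc, fun ha => by_contra fun hc => ha (hac.2 hc)⟩)
  have xa0' : lv x' a = 0 := h34t_lv_zero x' a (xsupp' a.1 hac)
  have xb0' : lv x' b = 0 := h34t_lv_zero x' b (xsupp' b.1 hbc)
  have C1 := h34t_bridge_cases x a b x1 xabs (fun e => hbr (by rw [xa, e]; ring))
  have C2 := h34t_bridge_cases x' c d x1' xabs' (fun e => hbr' (by rw [xc, e]; ring))
  -- normal form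
  obtain ⟨B, hperm, hsold, hA⟩ := h34t_normal lam xi θ w0 l P X τ p q hp hq hpτ hqτ hpq
  obtain ⟨A, hAdef⟩ : ∃ A, A = l.take (cntLt l τ) := ⟨_, rfl⟩
  have hvA : lv ((runSw θ ⟨w0.act, lam⟩ A).frame θ.sum) c = lv ((runSw θ ⟨w0.act, lam⟩ A).frame θ.sum) a := by
    rw [hAdef]; exact hv
  have hWA : lv ((runSw θ ⟨w0.act, lam⟩ A).frame θ.sum) d = lv ((runSw θ ⟨w0.act, lam⟩ A).frame θ.sum) b := by
    rw [hAdef]; exact hW
  have g1 : lv ((runSw θ ⟨w0.act, lam⟩ A).pos θ p.1) a < lv ((runSw θ ⟨w0.act, lam⟩ A).pos θ p.1) c := by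
    rw [hAdef, hpτ]; exact h1
  have g2 : lv ((runSw θ ⟨w0.act, lam⟩ A).pos θ p.1) c < lv ((runSw θ ⟨w0.act, lam⟩ A).pos θ p.1) b := by
    rw [hAdef, hpτ]; exact h2
  rw [← hAdef] at hperm hsold hA
  have hlenold : (A ++ p :: q :: B).length = n := by
    have := hperm.length_eq
    rw [X.exc.len] at this
    simp only [List.length_append, List.length_cons] at this ⊢
    omega
  have hnd : (p :: q :: (A ++ B)).Nodup := hperm.nodup_iff.1 (h34t_nodup X.exc.indep)
  rw [List.nodup_cons, List.nodup_cons] at hnd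
  obtain ⟨np, nq, -⟩ := hnd
  have memAB : ∀ z ∈ A ++ B, z ∈ l ∧ z ≠ p ∧ z ≠ q := by
    intro z hz
    refine ⟨hperm.mem_iff.2 (by simp [List.mem_append.1 hz]), ?_, ?_⟩
    · rintro rfl; exact np (List.mem_cons_of_mem _ hz)
    · rintro rfl; exact nq hz
  obtain ⟨hsnew, hstrict, hhalf⟩ := h34t_split_sched lam xi θ X.lbl X.hard w0 A (q :: B) p hsold
    hlenold.le a b c nac nbc nab hpv hvA g1 g2
  have eL : A ++ [(p.1, labRoot b c nbc), (p.1, labRoot c a nac.symm)] ++ q :: B
      = A ++ [(p.1, labRoot b c nbc), (p.1, labRoot c a nac.symm), q] ++ B := by simp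
  rw [eL] at hsnew hstrict hhalf
  -- orthogonality and disjointness in the old schedule
  have horth := s34f_knot_orth lam xi θ X.lbl X.gen X.hard w0 _ hsold hlenold.le
  have hdisj := h34_knot_disjoint lam xi θ X.lbl X.gen X.hard w0 _ hsold hlenold.le
  have oAB : (A ++ B).Pairwise (fun p q => p.1 = q.1 → dot p.2.vec q.2.vec = 0) :=
    horth.sublist ((List.Sublist.refl A).append
      ((List.sublist_cons_self q B).trans (List.sublist_cons_self p _)))
  rw [List.pairwise_append, List.pairwise_cons, List.pairwise_cons] at horth hdisj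
  apply X.noLink
  refine h34t_link lam xi θ X.lbl X.gen w0 A [(p.1, labRoot b c nbc), (p.1, labRoot c a nac.symm), q] B
    hsnew ?_ ?_ hstrict hhalf oAB ?_ ?_ ?_ ?_
  · simp only [List.length_append, List.length_cons, List.length_nil] at hlenold ⊢
    omega
  · -- generation
    refine lat_exc_join (l := l) ⟨X.exc.indep, X.exc.len⟩ X.exc.connP X.exc.connQ ?_
      (β₀ := labRoot b c nbc) (lat_spanZ_root (p := (p.1, labRoot b c nbc)) (by simp)) hbc
    intro z hz
    have hz' := hperm.mem_iff.1 hz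
    rcases List.mem_cons.1 hz' with rfl | hz'
    · have e : z.2.vec = (labRoot b c nbc).vec + (labRoot c a nac.symm).vec := by
        rw [hpv, h34t_labRoot_vec, h34t_labRoot_vec]; abel
      rw [e]
      exact lat_spanZ_add (lat_spanZ_root (p := (z.1, labRoot b c nbc)) (by simp))
        (lat_spanZ_root (p := (z.1, labRoot c a nac.symm)) (by simp))
    · apply lat_spanZ_root
      rcases List.mem_cons.1 hz' with rfl | hz'
      · simp
      · rcases List.mem_append.1 hz' with hz' | hz'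
        · simp [hz']
        · simp [hz']
  · -- A against the star: different times
    intro z hz w hw e
    exfalso
    have hzτ := hA z hz
    simp only [List.mem_cons, List.not_mem_nil, or_false] at hw
    rcases hw with rfl | rfl | rfl
    · simp only at e; linarith
    · simp only at e; linarith
    · linarith
  · -- the star against B
    intro w hw z hz e
    obtain ⟨ap, bp, -, -, -, -⟩ := h34t_axes p.2 a b nab hpv
    obtain ⟨cq, dq, -, -, -, -⟩ := h34t_axes q.2 c d ncd hqv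
    simp only [List.mem_cons, List.not_mem_nil, or_false] at hw
    have ez : z.1 = τ := by
      rcases hw with rfl | rfl | rfl
      · simp only at e; rw [← e, hpτ]
      · simp only at e; rw [← e, hpτ]
      · rw [← e, hqτ]
    obtain ⟨d1, d2, d3, d4⟩ := hdisj.2.1.1 z (List.mem_cons_of_mem _ hz) (hpτ.trans ez.symm)
    obtain ⟨d5, d6, d7, d8⟩ := hdisj.2.1.2.1 z hz (hqτ.trans ez.symm)
    have za : z.2.i ≠ a.1 ∧ z.2.j ≠ a.1 := by
      rcases ap with h | h <;> rw [h]
      · exact ⟨d1.symm, d2.symm⟩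
      · exact ⟨d3.symm, d4.symm⟩
    have zb : z.2.i ≠ b.1 ∧ z.2.j ≠ b.1 := by
      rcases bp with h | h <;> rw [h]
      · exact ⟨d1.symm, d2.symm⟩
      · exact ⟨d3.symm, d4.symm⟩
    have zc : z.2.i ≠ c.1 ∧ z.2.j ≠ c.1 := by
      rcases cq with h | h <;> rw [h]
      · exact ⟨d5.symm, d6.symm⟩
      · exact ⟨d7.symm, d8.symm⟩
    rcases hw with rfl | rfl | rfl
    · exact h34t_orth_of_disj b c nbc z.2 zb.1 zc.1 zb.2 zc.2
    · exact h34t_orth_of_disj c a nac.symm z.2 zc.1 za.1 zc.2 za.2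
    · exact horth.2.1.2.1 z hz e
  · -- level functions
    intro i j hi hj hij hj3 t
    have hj3' : j < 3 := by simpa using hj3
    rw [h34t_star_lev θ X.lbl.dom ⟨w0.act, lam⟩ (sc_isFrame_act w0) A B p.1 a b c d nac nbc nab nad nbd
        p.2 q hpv hqv hvA hWA i (by omega) hi t,
      h34t_star_lev θ X.lbl.dom ⟨w0.act, lam⟩ (sc_isFrame_act w0) A B p.1 a b c d nac nbc nab nad nbd
        p.2 q hpv hqv hvA hWA j hj3' hj t]
  · -- monotonicity of the relation
    intro r rel
    have hρ := lat_primRel_rel rel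
    have E1 := h34t_rel_pair A B _ _ q _ hρ x
      (fun z hz => xo z (memAB z (List.mem_append_left _ hz)).1 (memAB z (List.mem_append_left _ hz)).2.1)
      (fun z hz => xo z (memAB z (List.mem_append_right _ hz)).1 (memAB z (List.mem_append_right _ hz)).2.1)
    have E2 := h34t_rel_pair A B _ _ q _ hρ x'
      (fun z hz => xo' z (memAB z (List.mem_append_left _ hz)).1 (memAB z (List.mem_append_left _ hz)).2.2)
      (fun z hz => xo' z (memAB z (List.mem_append_right _ hz)).1 (memAB z (List.mem_append_right _ hz)).2.2)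
    simp only [lat_cast_getD, s34f_dot_labRoot] at E1 E2
    rw [xo q hq hpq.symm, xc0] at E1
    rw [h34t_dot_transfer x' q.2 c d hqv, x1', xa0', xb0'] at E2
    have key : (r.getD (A.length + 0) 0 ≤ r.getD (A.length + 1) 0 ∧ r.getD (A.length + 1) 0 ≤ r.getD (A.length + 2) 0) ∨
        (r.getD (A.length + 1) 0 ≤ r.getD (A.length + 0) 0 ∧ r.getD (A.length + 2) 0 ≤ r.getD (A.length + 1) 0) := by
      rw [Nat.add_zero]
      generalize r.getD A.length 0 = r0 at *
      generalize r.getD (A.length + 1) 0 = r1 at *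
      generalize r.getD (A.length + 2) 0 = r2 at *
      rcases C1 with ⟨ea, eb⟩ | ⟨ea, eb⟩ <;> rcases C2 with ⟨ec, ed⟩ | ⟨ec, ed⟩
      · exact (hcore ⟨by rw [xa, ea, sub_zero], by rw [xc, ec, sub_zero]⟩).elim
      · rw [ea, eb] at E1
        rw [ec] at E2
        have f0 : r0 = 0 := by
          have : (r0 : ℝ) = 0 := by linarith
          exact_mod_cast this
        have f2 : r2 = r1 := by
          have : (r2 : ℝ) = r1 - r0 := by linarith
          rw [f0] at this
          have : (r2 : ℝ) = r1 := by simpa using this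
          exact_mod_cast this
        rcases le_total 0 r1 with hs | hs
        · left; omega
        · right; omega
      · rw [ea, eb] at E1
        rw [ec] at E2
        have f1 : r1 = 0 := by
          have : (r1 : ℝ) = 0 := by linarith
          exact_mod_cast this
        have f2 : r2 = 0 := by
          have : (r2 : ℝ) = 0 := by linarith
          exact_mod_cast this
        rcases le_total 0 r0 with hs | hs
        · right; omega
        · left; omega
      · rw [ea, eb] at E1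
        rw [ec] at E2
        have f1 : r1 = 0 := by
          have : (r1 : ℝ) = 0 := by linarith
          exact_mod_cast this
        have f2 : r2 = - r0 := by
          have : (r2 : ℝ) = r1 - r0 := by linarith
          rw [f1] at this
          have : (r2 : ℝ) = ((- r0 : ℤ) : ℝ) := by push_cast; simpa using this
          exact_mod_cast this
        rcases le_total 0 r0 with hs | hs
        · right; omega
        · left; omega
    rcases key with ⟨k1, k2⟩ | ⟨k1, k2⟩
    · left
      intro i j hij hj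
      exact h34t_mono3 (fun i => r.getD (A.length + i) 0) k1 k2 i j hij (by simpa using hj)
    · right
      intro i j hij hj
      have := h34t_mono3 (fun i => - r.getD (A.length + i) 0) (neg_le_neg k1) (neg_le_neg k2) i j hij
        (by simpa using hj)
      exact neg_le_neg_iff.1 this

/-! ## 9. the receiver star = mirror image of the donor star -/

/-- (X8) receiver star; `hW` is F5, `hbrb`, `hbrd` follow from F4 + F6 of `H/Knot.lean` -/
theorem h34t_recv_star (lam xi : Vec n) (θ : Shape n) (w0 : WD n) (l : List (ℝ × RootD n))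
    (P : Finset (Fin n)) (X : ExcCtx lam θ xi w0 l P) (τ : ℝ) (a b c d : Lab n)
    (h : IsTransfer l τ a b) (h' : IsTransfer l τ c d) (hac : a.1 ∈ P ↔ c.1 ∉ P)
    (hv : lv (kVm θ ⟨w0.act, lam⟩ l τ) c = lv (kVm θ ⟨w0.act, lam⟩ l τ) a)
    (hW : lv (kVm θ ⟨w0.act, lam⟩ l τ) d = lv (kVm θ ⟨w0.act, lam⟩ l τ) b)
    (h1 : lv (kY θ ⟨w0.act, lam⟩ l τ) b < lv (kY θ ⟨w0.act, lam⟩ l τ) d)
    (h2 : lv (kY θ ⟨w0.act, lam⟩ l τ) c < lv (kY θ ⟨w0.act, lam⟩ l τ) b)
    (hbrb : kPp l τ b.1 ≠ kPm l τ b.1 + 1 / 2) (hbrd : kPp l τ d.1 ≠ kPm l τ d.1 + 1 / 2)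
    (hcore : ¬ (kPp l τ b.1 = kPm l τ b.1 ∧ kPp l τ d.1 = kPm l τ d.1)) : False := by
  obtain ⟨-, -, -, -, hab, -⟩ := h34c_transfer lam xi θ w0 l P X τ a b h
  obtain ⟨-, -, -, -, hcd, -⟩ := h34c_transfer lam xi θ w0 l P X τ c d h'
  have hbd : b.1 ∈ P ↔ d.1 ∉ P := hab.symm.trans (hac.trans (not_congr hcd))
  have ho : ∀ (x : Vec n) (e : Lab n), lv x e.opp = - lv x e := fun x e => h34_lv_opp' x e
  refine h34t_donor_star lam xi θ w0 l P X τ d.opp c.opp b.opp a.opp (h34c_transfer_opp l τ c d h')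
    (h34c_transfer_opp l τ a b h) ?_ ?_ ?_ ?_ ?_ hbrd hbrb ?_
  · show d.1 ∈ P ↔ b.1 ∉ P
    exact ⟨fun hd hb => hbd.1 hb hd, fun hb => by_contra fun hd => hb (hbd.2 hd)⟩
  · rw [ho, ho, hW]
  · rw [ho, ho, hv]
  · rw [ho, ho]; linarith
  · rw [ho, ho]; linarith
  · show ¬ (kPp l τ d.1 = kPm l τ d.1 ∧ kPp l τ b.1 = kPm l τ b.1)
    exact fun e => hcore ⟨e.2, e.1⟩

end Claimed.Agent.R282
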