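import Claimed.Agent.R282.S34.H.Disj
import Claimed.Agent.R282.S34.F.J
import Claimed.Agent.R282.S34.Lat.Exc
import Claimed.Agent.R282.S34.Lat.Phase

/-!
# Row 282, package H, leaf L-H-X3 (helper160): the SWITCHED MATCHING `a → d`, `c → b` of two transfers `a → b`, `c → d`

Two transfers of one knot in different components and in the same class (`v_a = v_c`, `v_b = v_d`) with `y_a ≤ y_d`, `y_c ≤ y_b` may be
replaced by `a → d`, `c → b`: all four level functions agree on the face, the roots add up to the same vector, so the state after the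
cluster is `FrameEq` to the old one (`h34w_swap_state`) and `h34_replace` gives a schedule with the same number of switches (`h34w_swap`).
* X5 (`h34w_touch`): a zero gap contradicts strictness of all schedules with `n` switches (`s34f_hard_data`).
* X6 (`h34w_cyc`): if both edges are cycle edges the new graph is connected, so the new schedule is not exceptional.
Prefix `h34w_`.
-/

set_option autoImplicit false

namespace Claimed.Agent.R282

variable {n : ℕ}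

/-! ## labels -/

section Lab

theorem h34w_dot_labVec (x : Vec n) (a : Lab n) : dot x (labVec a) = lv x a := by
  unfold dot labVec lv
  rw [Finset.sum_eq_single a.1]
  · rw [Pi.single_eq_same, mul_comm]
  · intro i _ hi
    rw [Pi.single_eq_of_ne hi, mul_zero]
  · intro h
    exact absurd (Finset.mem_univ _) h

theorem h34w_ext_dot (u v : Vec n) (h : ∀ x, dot x u = dot x v) : u = v := by
  funext i
  have := h (Pi.single i 1)
  rwa [sc_dot_comm, sc_dot_single, sc_dot_comm, sc_dot_single] at this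

theorem h34w_labRoot_vec (a c : Lab n) (h : a.1 ≠ c.1) : (labRoot a c h).vec = labVec a - labVec c := by
  apply h34w_ext_dot
  intro x
  rw [s34f_dot_labRoot, sc_dot_sub_right, h34w_dot_labVec, h34w_dot_labVec]

/-- pairing with a root whose vector is `e_b - e_a` -/
theorem h34w_dot_transfer (β : RootD n) (a b : Lab n) (h : β.vec = labVec b - labVec a) (x : Vec n) :
    dot x β.vec = lv x b - lv x a := by
  rw [h, sc_dot_sub_right, h34w_dot_labVec, h34w_dot_labVec]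

theorem h34w_labVec_off (a : Lab n) (k : Fin n) (h : k ≠ a.1) : labVec a k = 0 := by
  unfold labVec
  exact Pi.single_eq_of_ne h _

/-- a root whose vector is `e_b - e_a` has the axes `a.1`, `b.1` -/
theorem h34w_root_of_vec (β : RootD n) (a b : Lab n) (h : β.vec = labVec b - labVec a) :
    a.1 ≠ b.1 ∧ ((β.i = b.1 ∧ β.j = a.1) ∨ (β.i = a.1 ∧ β.j = b.1)) := by
  have key : ∀ k : Fin n, β.vec k ≠ 0 → k = a.1 ∨ k = b.1 := by
    intro k hk
    by_contra hcon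
    rw [not_or] at hcon
    apply hk
    rw [h, Pi.sub_apply, h34w_labVec_off b k hcon.2, h34w_labVec_off a k hcon.1, sub_zero]
  have hi := key β.i (by rw [scw_vec_i]; exact lat_sgnB_ne_zero _)
  have hj := key β.j (by rw [scw_vec_j]; exact lat_sgnB_ne_zero _)
  have hne := β.ne
  rcases hi with hi | hi <;> rcases hj with hj | hj
  · exact absurd (hi.trans hj.symm) hne
  · exact ⟨fun e => hne (hi.trans (e.trans hj.symm)), Or.inr ⟨hi, hj⟩⟩
  · exact ⟨fun e => hne (hi.trans (e.symm.trans hj.symm)), Or.inl ⟨hi, hj⟩⟩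
  · exact absurd (hi.trans hj.symm) hne

/-- two label roots on four distinct axes are orthogonal -/
theorem h34w_labRoot_orth (a b c d : Lab n) (hda : d.1 ≠ a.1) (hbc : b.1 ≠ c.1) (hab : a.1 ≠ b.1)
    (hac : a.1 ≠ c.1) (hdb : d.1 ≠ b.1) (hdc : d.1 ≠ c.1) :
    dot (labRoot d a hda).vec (labRoot b c hbc).vec = 0 := by
  rw [s34f_dot_labRoot]
  unfold lv
  rw [scw_vec_other (labRoot d a hda) (k := b.1) hdb.symm hab.symm,
    scw_vec_other (labRoot d a hda) (k := c.1) hdc.symm hac.symm]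
  ring

/-- labels of two transfers in different components lie on four distinct axes -/
theorem h34w_ne4 (P : Finset (Fin n)) (a b c d : Lab n) (hac : a.1 ∈ P ↔ c.1 ∉ P)
    (hab : a.1 ∈ P ↔ b.1 ∈ P) (hcd : c.1 ∈ P ↔ d.1 ∈ P) :
    d.1 ≠ a.1 ∧ b.1 ≠ c.1 ∧ a.1 ≠ c.1 ∧ d.1 ≠ b.1 := by
  have cross : ∀ u v : Fin n, (u ∈ P ↔ v ∉ P) → u ≠ v := by
    intro u v huv e
    rw [e] at huv
    by_cases hv : v ∈ P
    · exact (huv.1 hv) hv
    · exact hv (huv.2 hv)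
  have had : a.1 ∈ P ↔ d.1 ∉ P := by rw [hac, hcd]
  have hbc : b.1 ∈ P ↔ c.1 ∉ P := by rw [← hab, hac]
  have hbd : b.1 ∈ P ↔ d.1 ∉ P := by rw [← hab, had]
  exact ⟨(cross _ _ had).symm, cross _ _ hbc, cross _ _ hac, (cross _ _ hbd).symm⟩

end Lab

/-! ## the local computation -/

section Local

theorem h34w_refl_refl (γ₁ γ₂ : RootD n) (h : dot γ₁.vec γ₂.vec = 0) (z : Vec n) :
    refl γ₂ (refl γ₁ z) = z - dot z γ₁.vec • γ₁.vec - dot z γ₂.vec • γ₂.vec := by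
  unfold refl
  rw [sc_dot_sub_left, sc_dot_smul_left, h, mul_zero, sub_zero]

/-- two orthogonal pairs of simultaneous switches with the same sum and the same form on the face lead to `FrameEq` states -/
theorem h34w_swap_state (θ : Shape n) (hθ : ∀ v ∈ θ, Dom v) (S : SwState n) (τ : ℝ)
    (β₁ β₂ γ₁ γ₂ : RootD n) (hsum : γ₁.vec + γ₂.vec = β₁.vec + β₂.vec)
    (hβ : dot β₁.vec β₂.vec = 0) (hγ : dot γ₁.vec γ₂.vec = 0)
    (h1 : ∀ x, InFace θ.sum x → dot γ₁.vec (S.frame x) = dot β₁.vec (S.frame x))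
    (h2 : ∀ x, InFace θ.sum x → dot γ₂.vec (S.frame x) = dot β₁.vec (S.frame x))
    (h3 : ∀ x, InFace θ.sum x → dot β₂.vec (S.frame x) = dot β₁.vec (S.frame x)) :
    FrameEq θ (runSw θ S [(τ, γ₁), (τ, γ₂)]) (runSw θ S [(τ, β₁), (τ, β₂)]) := by
  have hη := sc_inFace_val θ hθ τ
  refine ⟨?_, fun x hx => ?_⟩
  · show S.c - S.coeff θ τ γ₁ • γ₁.vec - (S.step θ τ γ₁).coeff θ τ γ₂ • γ₂.vec
      = S.c - S.coeff θ τ β₁ • β₁.vec - (S.step θ τ β₁).coeff θ τ β₂ • β₂.vec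
    rw [sc_comm_level_aux θ S τ τ γ₁ γ₂ hγ, sc_comm_level_aux θ S τ τ β₁ β₂ hβ]
    simp only [SwState.coeff]
    rw [h1 _ hη, h2 _ hη, h3 _ hη, sub_sub, sub_sub, ← smul_add, ← smul_add, hsum]
  · show refl γ₂ (refl γ₁ (S.frame x)) = refl β₂ (refl β₁ (S.frame x))
    rw [h34w_refl_refl γ₁ γ₂ hγ, h34w_refl_refl β₁ β₂ hβ, sc_dot_comm _ γ₁.vec, sc_dot_comm _ γ₂.vec,
      sc_dot_comm _ β₁.vec, sc_dot_comm _ β₂.vec, h1 x hx, h2 x hx, h3 x hx, sub_sub, sub_sub,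
      ← smul_add, ← smul_add, hsum]

/-- the schedule after the exchange of two switches of a cluster -/
theorem h34w_swap_sched (lam xi : Vec n) (θ : Shape n) (hθ : ∀ v ∈ θ, Dom v) (w0 : WD n)
    (l₁ cl l₂ rest : List (ℝ × RootD n)) (τ : ℝ) (β₁ β₂ γ₁ γ₂ : RootD n)
    (hs : IsSchedule lam θ xi w0 (l₁ ++ cl ++ l₂)) (hcl : ∀ p ∈ cl, p.1 = τ)
    (hperm : cl.Perm ((τ, β₁) :: (τ, β₂) :: rest))
    (ho : cl.Pairwise (fun p q => dot p.2.vec q.2.vec = 0))
    (hsum : γ₁.vec + γ₂.vec = β₁.vec + β₂.vec) (hγ : dot γ₁.vec γ₂.vec = 0)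
    (h1 : ∀ x, InFace θ.sum x → dot γ₁.vec ((runSw θ ⟨w0.act, lam⟩ l₁).frame x)
      = dot β₁.vec ((runSw θ ⟨w0.act, lam⟩ l₁).frame x))
    (h2 : ∀ x, InFace θ.sum x → dot γ₂.vec ((runSw θ ⟨w0.act, lam⟩ l₁).frame x)
      = dot β₁.vec ((runSw θ ⟨w0.act, lam⟩ l₁).frame x))
    (h3 : ∀ x, InFace θ.sum x → dot β₂.vec ((runSw θ ⟨w0.act, lam⟩ l₁).frame x)
      = dot β₁.vec ((runSw θ ⟨w0.act, lam⟩ l₁).frame x))
    (hg1 : 0 ≤ dot ((runSw θ ⟨w0.act, lam⟩ l₁).pos θ τ) γ₁.vec)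
    (hg2 : 0 ≤ dot ((runSw θ ⟨w0.act, lam⟩ l₁).pos θ τ) γ₂.vec) :
    IsSchedule lam θ xi w0 (l₁ ++ ((τ, γ₁) :: (τ, γ₂) :: rest) ++ l₂) ∧
      dot ((runSw θ ⟨w0.act, lam⟩ l₁).pos θ τ) γ₁.vec
        ∈ swGaps θ ⟨w0.act, lam⟩ (l₁ ++ ((τ, γ₁) :: (τ, γ₂) :: rest) ++ l₂) := by
  set S₁ := runSw θ ⟨w0.act, lam⟩ l₁ with hS₁
  have hne : cl ≠ [] := by
    intro e
    rw [e] at hperm
    simpa using hperm.length_eq
  have ho' := (hperm.pairwise_iff (R := fun p q : ℝ × RootD n => dot p.2.vec q.2.vec = 0)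
      (fun {a b} h => by rw [sc_dot_comm]; exact h)).1 ho
  have hβ : dot β₁.vec β₂.vec = 0 := by
    rw [List.pairwise_cons] at ho'
    exact ho'.1 (τ, β₂) (by simp)
  obtain ⟨prun, pval⟩ := h34_cluster_perm θ S₁ cl _ τ hcl hperm ho
  have hval := hs.valid
  rw [sc_valid_append, sc_valid_append] at hval
  have vcl : SwValid θ S₁ ((τ, β₁) :: (τ, β₂) :: rest) := pval.2 hval.1.2
  have hFE := h34w_swap_state θ hθ S₁ τ β₁ β₂ γ₁ γ₂ hsum hβ hγ h1 h2 h3
  obtain ⟨-, t1, -, -, vrest⟩ := vcl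
  have hμ := sc_inFace_sum θ.sum
  obtain ⟨-, d2, d3⟩ := sc_comm_data θ S₁ τ γ₁ γ₂ hγ
  have hv : SwValid θ S₁ ((τ, γ₁) :: (τ, γ₂) :: rest) := by
    refine ⟨hg1, ?_, ?_, ?_, ?_⟩
    · show 0 ≤ - dot γ₁.vec (S₁.frame θ.sum)
      rw [h1 _ hμ]
      exact t1
    · show 0 ≤ (S₁.step θ τ γ₁).gap θ τ γ₂
      rw [d2]
      exact hg2
    · show 0 ≤ (S₁.step θ τ γ₁).total θ γ₂
      rw [d3]
      show 0 ≤ - dot γ₂.vec (S₁.frame θ.sum)
      rw [h2 _ hμ]
      exact t1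
    · exact (sc_frameEq_valid θ hθ _ _ hFE rest).2 vrest
  have hF : FrameEq θ (runSw θ S₁ ((τ, γ₁) :: (τ, γ₂) :: rest)) (runSw θ S₁ cl) := by
    rw [← prun]
    exact sc_frameEq_run θ hθ _ _ hFE rest
  obtain ⟨hs', -, hga, -⟩ := h34_replace lam xi θ hθ w0 l₁ cl ((τ, γ₁) :: (τ, γ₂) :: rest) l₂ τ hs hne hcl
    (by
      intro p hp
      rcases List.mem_cons.1 hp with rfl | hp
      · rfl
      rcases List.mem_cons.1 hp with rfl | hp
      · rfl
      exact hcl p (hperm.mem_iff.2 (by simp [hp]))) hv hF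
  refine ⟨hs', ?_⟩
  rw [hga]
  apply List.mem_append_left
  apply List.mem_append_right
  exact List.mem_cons_self

end Local

/-! ## the switched matching -/

section Core

/-- the switched matching, in a decomposition `l₁ ++ cl ++ l₂` -/
theorem h34w_swap_core (lam xi : Vec n) (θ : Shape n) (hθ : ∀ v ∈ θ, Dom v) (w0 : WD n)
    (l₁ cl l₂ : List (ℝ × RootD n)) (τ : ℝ)
    (hs : IsSchedule lam θ xi w0 (l₁ ++ cl ++ l₂)) (hcl : ∀ p ∈ cl, p.1 = τ)
    (ho : cl.Pairwise (fun p q => dot p.2.vec q.2.vec = 0))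
    (a b c d : Lab n) (β₁ β₂ : RootD n) (hm₁ : (τ, β₁) ∈ cl) (hm₂ : (τ, β₂) ∈ cl)
    (hv₁ : β₁.vec = labVec b - labVec a) (hv₂ : β₂.vec = labVec d - labVec c)
    (hda : d.1 ≠ a.1) (hbc : b.1 ≠ c.1) (hac : a.1 ≠ c.1) (hdb : d.1 ≠ b.1)
    (hV : lv ((runSw θ ⟨w0.act, lam⟩ l₁).frame θ.sum) c = lv ((runSw θ ⟨w0.act, lam⟩ l₁).frame θ.sum) a)
    (hW : lv ((runSw θ ⟨w0.act, lam⟩ l₁).frame θ.sum) d = lv ((runSw θ ⟨w0.act, lam⟩ l₁).frame θ.sum) b)
    (h1 : lv ((runSw θ ⟨w0.act, lam⟩ l₁).pos θ τ) a ≤ lv ((runSw θ ⟨w0.act, lam⟩ l₁).pos θ τ) d)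
    (h2 : lv ((runSw θ ⟨w0.act, lam⟩ l₁).pos θ τ) c ≤ lv ((runSw θ ⟨w0.act, lam⟩ l₁).pos θ τ) b) :
    ∃ rest : List (ℝ × RootD n), cl.Perm ((τ, β₁) :: (τ, β₂) :: rest) ∧
      IsSchedule lam θ xi w0 (l₁ ++ ((τ, labRoot d a hda) :: (τ, labRoot b c hbc) :: rest) ++ l₂) ∧
      (lv ((runSw θ ⟨w0.act, lam⟩ l₁).pos θ τ) d - lv ((runSw θ ⟨w0.act, lam⟩ l₁).pos θ τ) a)
        ∈ swGaps θ ⟨w0.act, lam⟩
          (l₁ ++ ((τ, labRoot d a hda) :: (τ, labRoot b c hbc) :: rest) ++ l₂) := by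
  classical
  obtain ⟨hab, hax₁⟩ := h34w_root_of_vec β₁ a b hv₁
  obtain ⟨hcd, hax₂⟩ := h34w_root_of_vec β₂ c d hv₂
  have hne : ((τ, β₂) : ℝ × RootD n) ≠ (τ, β₁) := by
    intro e
    have e' : β₂ = β₁ := (Prod.mk.inj e).2
    rw [e'] at hax₂
    rcases hax₁ with ⟨e1, -⟩ | ⟨e1, -⟩ <;> rcases hax₂ with ⟨e2, -⟩ | ⟨e2, -⟩
    · exact hdb (e2.symm.trans e1)
    · exact hbc (e1.symm.trans e2)
    · exact hda (e2.symm.trans e1)
    · exact hac (e1.symm.trans e2)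
  have p1 : cl.Perm ((τ, β₁) :: cl.erase (τ, β₁)) := List.perm_cons_erase hm₁
  have hm₂' : (τ, β₂) ∈ cl.erase (τ, β₁) := (List.mem_erase_of_ne hne).2 hm₂
  have p2 : (cl.erase (τ, β₁)).Perm ((τ, β₂) :: (cl.erase (τ, β₁)).erase (τ, β₂)) :=
    List.perm_cons_erase hm₂'
  have hperm : cl.Perm ((τ, β₁) :: (τ, β₂) :: (cl.erase (τ, β₁)).erase (τ, β₂)) :=
    p1.trans (p2.cons _)
  refine ⟨(cl.erase (τ, β₁)).erase (τ, β₂), hperm, ?_⟩
  have hfr : IsFrame (runSw θ ⟨w0.act, lam⟩ l₁).frame := sc_isFrame_runSw θ _ (sc_isFrame_act w0) l₁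
  have eCA := h34_fs2 θ.sum _ hfr c a hac.symm hV
  have eDB := h34_fs2 θ.sum _ hfr d b hdb hW
  have hsum : (labRoot d a hda).vec + (labRoot b c hbc).vec = β₁.vec + β₂.vec := by
    rw [h34w_labRoot_vec, h34w_labRoot_vec, hv₁, hv₂]
    abel
  have hγ := h34w_labRoot_orth a b c d hda hbc hab hac hdb hcd.symm
  have key := h34w_swap_sched lam xi θ hθ w0 l₁ cl l₂ _ τ β₁ β₂ (labRoot d a hda) (labRoot b c hbc)
    hs hcl hperm ho hsum hγ
    (fun x hx => by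
      rw [sc_dot_comm, s34f_dot_labRoot, sc_dot_comm β₁.vec, h34w_dot_transfer β₁ a b hv₁, eDB x hx])
    (fun x hx => by
      rw [sc_dot_comm, s34f_dot_labRoot, sc_dot_comm β₁.vec, h34w_dot_transfer β₁ a b hv₁, eCA x hx])
    (fun x hx => by
      rw [sc_dot_comm, h34w_dot_transfer β₂ c d hv₂, sc_dot_comm β₁.vec,
        h34w_dot_transfer β₁ a b hv₁, eCA x hx, eDB x hx])
    (by rw [s34f_dot_labRoot]; linarith) (by rw [s34f_dot_labRoot]; linarith)
  rw [s34f_dot_labRoot] at key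
  exact key

end Core

/-! ## times and phases inside a knot -/

section Knot

theorem h34w_time_iff (l : List (ℝ × RootD n)) (hl : l.Pairwise (fun p q => p.1 ≤ q.1)) (τ : ℝ) (j : ℕ)
    (hj : j < l.length) : l[j].1 = τ ↔ cntLt l τ ≤ j ∧ j < cntLe l τ := by
  obtain ⟨-, t1, t2, t3, k1, k2⟩ := h34_split_at l hl τ
  constructor
  · intro h
    constructor
    · by_contra hlt
      rw [not_le] at hlt
      have : l[j] ∈ l.take (cntLt l τ) :=
        List.mem_take_iff_getElem.2 ⟨j, lt_min hlt hj, rfl⟩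
      exact absurd h (t1 _ this).ne
    · by_contra hge
      rw [not_lt] at hge
      have : l[j] ∈ l.drop (cntLe l τ) :=
        List.mem_drop_iff_getElem.2 ⟨j - cntLe l τ, by omega, by
          congr 1
          omega⟩
      exact absurd h (t3 _ this).ne'
  · rintro ⟨h1, h2⟩
    apply t2
    refine List.mem_drop_iff_getElem.2 ⟨j - cntLt l τ, ?_, ?_⟩
    · rw [List.length_take]
      omega
    · rw [List.getElem_take]
      congr 1
      omega

theorem h34w_phase_off (l : List (ℝ × RootD n)) (h : SwBasis l) (k k' : ℕ) (hkk : k ≤ k')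
    (hk' : k' ≤ l.length) (i : Fin n)
    (hoff : ∀ (j : ℕ) (hj : j < l.length), k ≤ j → j < k' → l[j].2.i ≠ i ∧ l[j].2.j ≠ i) :
    phase l k' i = phase l k i := by
  induction k', hkk using Nat.le_induction with
  | base => rfl
  | succ m hm ih =>
    have hml : m < l.length := by omega
    obtain ⟨o1, o2⟩ := hoff m hml hm (Nat.lt_succ_self m)
    rw [lat_phase_off h hml i o1.symm o2.symm]
    exact ih (by omega) fun j hj h1 h2 => hoff j hj h1 (by omega)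

end Knot

/-! ## cycle edges -/

section Cyc

/-- a set closed under all edges but a cycle edge is closed under this edge, too -/
theorem h34w_cut (l : List (ℝ × RootD n)) (hs : SwSpan l) (i : ℕ) (hi : i < l.length) (x : Vec n)
    (hx : IsDual l i x) (h2 : ∀ e, x e = 0 ∨ |x e| = 1 / 2) (C : Finset (Fin n))
    (hC : ∀ (j : ℕ) (hj : j < l.length), j ≠ i → (l[j].2.i ∈ C ↔ l[j].2.j ∈ C)) :
    l[i].2.i ∈ C ↔ l[i].2.j ∈ C := by
  classical
  by_contra hcon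
  obtain ⟨e1, e2⟩ := lat_cyc_ends hi hx h2
  have s1 := lat_sgnB_sq l[i].2.si
  have s2 := lat_sgnB_sq l[i].2.sj
  have hz : IsDual l i (fun e => if e ∈ C then 2 * x e else 0) := by
    intro j hj
    rw [lat_dot_vec]
    by_cases hji : j = i
    · subst hji
      rw [if_pos rfl]
      by_cases hiC : l[j].2.i ∈ C
      · have hjC : l[j].2.j ∉ C := fun h => hcon ⟨fun _ => h, fun _ => hiC⟩
        simp only [if_pos hiC, if_neg hjC]
        rw [e1]
        linarith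
      · have hjC : l[j].2.j ∈ C := by
          by_contra h
          exact hcon ⟨fun h' => absurd h' hiC, fun h' => absurd h' h⟩
        simp only [if_neg hiC, if_pos hjC]
        rw [e2]
        linarith
    · rw [if_neg hji]
      have h0 := lat_dual_other hx hj hji
      rw [lat_dot_vec] at h0
      by_cases hiC : l[j].2.i ∈ C
      · have hjC := (hC j hj hji).1 hiC
        simp only [if_pos hiC, if_pos hjC]
        linarith
      · have hjC : l[j].2.j ∉ C := fun h => hiC ((hC j hj hji).2 h)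
        simp only [if_neg hiC, if_neg hjC]
        ring
  have hzx := lat_dual_unique hs hz hx
  by_cases hiC : l[i].2.i ∈ C
  · have := congrFun hzx l[i].2.i
    simp only [if_pos hiC] at this
    rw [e1] at this
    have h0 : sgnB l[i].2.si = 0 := by linarith
    exact lat_sgnB_ne_zero _ h0
  · have hjC : l[i].2.j ∈ C := by
      by_contra h
      exact hcon ⟨fun h' => absurd h' hiC, fun h' => absurd h' h⟩
    have := congrFun hzx l[i].2.j
    simp only [if_pos hjC] at this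
    rw [e2] at this
    have h0 : sgnB l[i].2.sj = 0 := by linarith
    exact lat_sgnB_ne_zero _ h0

/-- one side of the new graph -/
theorem h34w_side (l l' : List (ℝ × RootD n)) (hs : SwSpan l)
    (i₀ i₁ : ℕ) (h₀ : i₀ < l.length) (h₁ : i₁ < l.length) (x₀ x₁ : Vec n)
    (hx₀ : IsDual l i₀ x₀) (hc₀ : ∀ e, x₀ e = 0 ∨ |x₀ e| = 1 / 2)
    (hx₁ : IsDual l i₁ x₁) (hc₁ : ∀ e, x₁ e = 0 ∨ |x₁ e| = 1 / 2)
    (hmem : ∀ (j : ℕ) (hj : j < l.length), j ≠ i₀ → j ≠ i₁ → l[j] ∈ l')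
    (C : Finset (Fin n)) (hC : SwClosed l' C) (D : Finset (Fin n)) (hD : SwClosed l D)
    (hside : l[i₀].2.i ∈ D ↔ l[i₁].2.i ∉ D) : SwClosed l (C ∩ D) := by
  have gen : ∀ (j : ℕ) (hj : j < l.length), j ≠ i₀ → j ≠ i₁ →
      (l[j].2.i ∈ C ∩ D ↔ l[j].2.j ∈ C ∩ D) := by
    intro j hj n0 n1
    rw [Finset.mem_inter, Finset.mem_inter, hC _ (hmem j hj n0 n1), hD _ (List.getElem_mem hj)]
  have out : ∀ (j : ℕ) (hj : j < l.length), l[j].2.i ∉ D →
      (l[j].2.i ∈ C ∩ D ↔ l[j].2.j ∈ C ∩ D) := by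
    intro j hj hn
    have hn' : l[j].2.j ∉ D := fun h => hn ((hD _ (List.getElem_mem hj)).2 h)
    rw [Finset.mem_inter, Finset.mem_inter]
    exact ⟨fun h => absurd h.2 hn, fun h => absurd h.2 hn'⟩
  have all : ∀ (j : ℕ) (hj : j < l.length), (l[j].2.i ∈ C ∩ D ↔ l[j].2.j ∈ C ∩ D) := by
    by_cases hs0 : l[i₀].2.i ∈ D
    · have hs1 : l[i₁].2.i ∉ D := hside.1 hs0
      have rest : ∀ (j : ℕ) (hj : j < l.length), j ≠ i₀ →
          (l[j].2.i ∈ C ∩ D ↔ l[j].2.j ∈ C ∩ D) := by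
        intro j hj n0
        by_cases n1 : j = i₁
        · subst n1
          exact out j hj hs1
        · exact gen j hj n0 n1
      intro j hj
      by_cases n0 : j = i₀
      · subst n0
        exact h34w_cut l hs j hj x₀ hx₀ hc₀ _ rest
      · exact rest j hj n0
    · have rest : ∀ (j : ℕ) (hj : j < l.length), j ≠ i₁ →
          (l[j].2.i ∈ C ∩ D ↔ l[j].2.j ∈ C ∩ D) := by
        intro j hj n1
        by_cases n0 : j = i₀
        · subst n0
          exact out j hj hs0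
        · exact gen j hj n0 n1
      intro j hj
      by_cases n1 : j = i₁
      · subst n1
        exact h34w_cut l hs j hj x₁ hx₁ hc₁ _ rest
      · exact rest j hj n1
  intro q hq
  obtain ⟨j, hj, rfl⟩ := List.getElem_of_mem hq
  exact all j hj

/-- the new graph is connected -/
theorem h34w_conn (l l' : List (ℝ × RootD n)) (P : Finset (Fin n)) (hs : SwSpan l)
    (hP : SwConn l P) (hQ : SwConn l Pᶜ)
    (i₀ i₁ : ℕ) (h₀ : i₀ < l.length) (h₁ : i₁ < l.length) (x₀ x₁ : Vec n)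
    (hx₀ : IsDual l i₀ x₀) (hc₀ : ∀ e, x₀ e = 0 ∨ |x₀ e| = 1 / 2)
    (hx₁ : IsDual l i₁ x₁) (hc₁ : ∀ e, x₁ e = 0 ∨ |x₁ e| = 1 / 2)
    (hside : l[i₀].2.i ∈ P ↔ l[i₁].2.i ∉ P)
    (hmem : ∀ (j : ℕ) (hj : j < l.length), j ≠ i₀ → j ≠ i₁ → l[j] ∈ l')
    (q : ℝ × RootD n) (hq : q ∈ l') (hqP : q.2.i ∈ P ↔ q.2.j ∉ P)
    (C : Finset (Fin n)) (hC : SwClosed l' C) : C = ∅ ∨ C = Finset.univ := by
  have c1 := h34w_side l l' hs i₀ i₁ h₀ h₁ x₀ x₁ hx₀ hc₀ hx₁ hc₁ hmem C hC P hP.2.1 hside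
  have c2 := h34w_side l l' hs i₀ i₁ h₀ h₁ x₀ x₁ hx₀ hc₀ hx₁ hc₁ hmem C hC Pᶜ hQ.2.1 (by
    simp only [Finset.mem_compl, not_not]
    constructor
    · intro h
      by_contra h'
      exact h (hside.2 h')
    · intro h h'
      exact (hside.1 h') h)
  have d1 := lat_conn_inter hP c1
  have d2 := lat_conn_inter hQ c2
  rw [Finset.inter_assoc, Finset.inter_self] at d1 d2
  have hq' := hC q hq
  have inP : ∀ e, C ∩ P = P → e ∈ P → e ∈ C := fun e h he => by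
    rw [← h] at he
    exact (Finset.mem_inter.1 he).1
  have inQ : ∀ e, C ∩ Pᶜ = Pᶜ → e ∉ P → e ∈ C := fun e h he => by
    have : e ∈ Pᶜ := Finset.mem_compl.2 he
    rw [← h] at this
    exact (Finset.mem_inter.1 this).1
  have outP : ∀ e, C ∩ P = ∅ → e ∈ P → e ∉ C := fun e h he hc => by
    have : e ∈ C ∩ P := Finset.mem_inter.2 ⟨hc, he⟩
    rw [h] at this
    simp at this
  have outQ : ∀ e, C ∩ Pᶜ = ∅ → e ∉ P → e ∉ C := fun e h he hc => by
    have : e ∈ C ∩ Pᶜ := Finset.mem_inter.2 ⟨hc, Finset.mem_compl.2 he⟩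
    rw [h] at this
    simp at this
  rcases d1 with d1 | d1 <;> rcases d2 with d2 | d2
  · left
    apply Finset.eq_empty_of_forall_notMem
    intro e
    by_cases he : e ∈ P
    · exact outP e d1 he
    · exact outQ e d2 he
  · exfalso
    by_cases hi : q.2.i ∈ P
    · exact outP _ d1 hi (hq'.2 (inQ _ d2 (hqP.1 hi)))
    · have hj : q.2.j ∈ P := by
        by_contra h
        exact hi (hqP.2 h)
      exact outP _ d1 hj (hq'.1 (inQ _ d2 hi))
  · exfalso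
    by_cases hi : q.2.i ∈ P
    · exact outQ _ d2 (hqP.1 hi) (hq'.1 (inP _ d1 hi))
    · have hj : q.2.j ∈ P := by
        by_contra h
        exact hi (hqP.2 h)
      exact outQ _ d2 hi (hq'.2 (inP _ d1 hj))
  · right
    apply Finset.eq_univ_of_forall
    intro e
    by_cases he : e ∈ P
    · exact inP e d1 he
    · exact inQ e d2 he

end Cyc

/-! ## the exceptional schedule -/

section Main

variable (lam xi : Vec n) (θ : Shape n) (w0 : WD n) (l : List (ℝ × RootD n))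
  (P : Finset (Fin n)) (X : ExcCtx lam θ xi w0 l P) (τ : ℝ)

include X

/-- **the switched matching** of two transfers of a knot -/
theorem h34w_swap (a b c d : Lab n) (h : IsTransfer l τ a b) (h' : IsTransfer l τ c d)
    (hda : d.1 ≠ a.1) (hbc : b.1 ≠ c.1) (hac : a.1 ≠ c.1) (hdb : d.1 ≠ b.1)
    (hV : lv (kVm θ ⟨w0.act, lam⟩ l τ) c = lv (kVm θ ⟨w0.act, lam⟩ l τ) a)
    (hW : lv (kVm θ ⟨w0.act, lam⟩ l τ) d = lv (kVm θ ⟨w0.act, lam⟩ l τ) b)
    (h1 : lv (kY θ ⟨w0.act, lam⟩ l τ) a ≤ lv (kY θ ⟨w0.act, lam⟩ l τ) d)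
    (h2 : lv (kY θ ⟨w0.act, lam⟩ l τ) c ≤ lv (kY θ ⟨w0.act, lam⟩ l τ) b) :
    ∃ l' : List (ℝ × RootD n), IsSchedule lam θ xi w0 l' ∧ l'.length = l.length ∧
      (lv (kY θ ⟨w0.act, lam⟩ l τ) d - lv (kY θ ⟨w0.act, lam⟩ l τ) a) ∈ swGaps θ ⟨w0.act, lam⟩ l' ∧
      (τ, labRoot d a hda) ∈ l' ∧
      ∀ q ∈ l, q ∈ l' ∨ q.2.vec = labVec b - labVec a ∨ q.2.vec = labVec d - labVec c := by
  obtain ⟨⟨t, β₁⟩, hp, hpτ, hv₁⟩ := h
  obtain ⟨⟨t', β₂⟩, hp', hpτ', hv₂⟩ := h'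
  simp only at hpτ hpτ' hv₁ hv₂
  rw [hpτ] at hp
  rw [hpτ'] at hp'
  obtain ⟨hl, t1, t2, t3, -, -⟩ := h34_split_at l X.sched.sorted τ
  have inCl : ∀ q ∈ l, q.1 = τ → q ∈ (l.take (cntLe l τ)).drop (cntLt l τ) := by
    intro q hq hqt
    rw [hl, List.mem_append, List.mem_append] at hq
    rcases hq with (hq | hq) | hq
    · exact absurd hqt (t1 q hq).ne
    · exact hq
    · exact absurd hqt (t3 q hq).ne'
  have hsub : ((l.take (cntLe l τ)).drop (cntLt l τ)).Sublist l :=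
    (List.drop_sublist _ _).trans (List.take_sublist _ _)
  have ho : ((l.take (cntLe l τ)).drop (cntLt l τ)).Pairwise
      (fun p q => dot p.2.vec q.2.vec = 0) := by
    have := (s34f_knot_orth lam xi θ X.lbl X.gen X.hard w0 l X.sched X.exc.len.le).sublist hsub
    exact this.imp_of_mem fun {p q} hp hq hpq => hpq ((t2 p hp).trans (t2 q hq).symm)
  have hs : IsSchedule lam θ xi w0
      (l.take (cntLt l τ) ++ (l.take (cntLe l τ)).drop (cntLt l τ) ++ l.drop (cntLe l τ)) := by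
    rw [← hl]
    exact X.sched
  obtain ⟨rest, hperm, hs', hg⟩ := h34w_swap_core lam xi θ X.lbl.dom w0 _ _ _ τ hs t2 ho a b c d β₁ β₂
    (inCl _ hp rfl) (inCl _ hp' rfl) hv₁ hv₂ hda hbc hac hdb hV hW h1 h2
  refine ⟨_, hs', ?_, hg, by simp, ?_⟩
  · have e1 := hperm.length_eq
    have e2 := congrArg List.length hl
    simp only [List.length_append, List.length_cons] at e1 e2 ⊢
    omega
  · intro q hq
    rw [hl, List.mem_append, List.mem_append] at hq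
    rcases hq with (hq | hq) | hq
    · left
      simp [hq]
    · have := hperm.mem_iff.1 hq
      rcases List.mem_cons.1 this with rfl | this
      · exact Or.inr (Or.inl hv₁)
      rcases List.mem_cons.1 this with rfl | this
      · exact Or.inr (Or.inr hv₂)
      left
      simp [this]
    · left
      simp [hq]

/-- (X5) -/
theorem h34w_touch (a b c d : Lab n) (h : IsTransfer l τ a b) (h' : IsTransfer l τ c d)
    (hda : d.1 ≠ a.1) (hbc : b.1 ≠ c.1) (hac : a.1 ≠ c.1) (hdb : d.1 ≠ b.1)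
    (hV : lv (kVm θ ⟨w0.act, lam⟩ l τ) c = lv (kVm θ ⟨w0.act, lam⟩ l τ) a)
    (hW : lv (kVm θ ⟨w0.act, lam⟩ l τ) d = lv (kVm θ ⟨w0.act, lam⟩ l τ) b)
    (h1 : lv (kY θ ⟨w0.act, lam⟩ l τ) a = lv (kY θ ⟨w0.act, lam⟩ l τ) d)
    (h2 : lv (kY θ ⟨w0.act, lam⟩ l τ) c ≤ lv (kY θ ⟨w0.act, lam⟩ l τ) b) : False := by
  obtain ⟨l', hs', hlen, hg, -⟩ :=
    h34w_swap lam xi θ w0 l P X τ a b c d h h' hda hbc hac hdb hV hW h1.le h2
  obtain ⟨-, -, ⟨-, hgpos, -⟩, -⟩ :=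
    s34f_hard_data lam xi θ X.lbl X.hard w0 l' hs' (by rw [hlen]; exact X.exc.len.le)
  have := hgpos _ hg
  rw [h1, sub_self] at this
  exact lt_irrefl _ this

/-- a transfer whose donor phase jumps by `1/2` is a cycle edge -/
theorem h34w_cyc_dual (a b : Lab n) (h : IsTransfer l τ a b)
    (hcyc : kPp l τ a.1 = kPm l τ a.1 + 1 / 2) :
    ∃ (i : ℕ) (hi : i < l.length) (x : Vec n), l[i].2.vec = labVec b - labVec a ∧ IsDual l i x ∧
      ∀ e, x e = 0 ∨ |x e| = 1 / 2 := by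
  obtain ⟨p, hp, hpτ, hpv⟩ := h
  obtain ⟨i, hi, rfl⟩ := List.getElem_of_mem hp
  have hB := lat_exc_basis X.exc
  have hsp := lat_basis_span hB
  obtain ⟨x, hx⟩ := lat_dual_exists hB.1 hi
  obtain ⟨hk1, hk2⟩ := (h34w_time_iff l X.sched.sorted τ i hi).1 hpτ
  obtain ⟨hab, hax⟩ := h34w_root_of_vec l[i].2 a b hpv
  have hdisj := List.pairwise_iff_getElem.1 (h34_axDisj lam xi θ w0 l P X)
  have hle : cntLe l τ ≤ l.length := (h34_split_at l X.sched.sorted τ).2.2.2.2.2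
  have off : ∀ (j : ℕ) (hj : j < l.length), cntLt l τ ≤ j → j < cntLe l τ → j ≠ i →
      l[j].2.i ≠ a.1 ∧ l[j].2.j ≠ a.1 := by
    intro j hj j1 j2 hji
    have hjτ : l[j].1 = τ := (h34w_time_iff l X.sched.sorted τ j hj).2 ⟨j1, j2⟩
    rcases lt_or_gt_of_ne hji with hlt | hlt
    · obtain ⟨q1, q2, q3, q4⟩ := hdisj j i hj hi hlt (hjτ.trans hpτ.symm)
      rcases hax with ⟨-, e⟩ | ⟨e, -⟩
      · rw [← e]; exact ⟨q2, q4⟩
      · rw [← e]; exact ⟨q1, q3⟩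
    · obtain ⟨q1, q2, q3, q4⟩ := hdisj i j hi hj hlt (hpτ.trans hjτ.symm)
      rcases hax with ⟨-, e⟩ | ⟨e, -⟩
      · rw [← e]; exact ⟨q3.symm, q4.symm⟩
      · rw [← e]; exact ⟨q1.symm, q2.symm⟩
  have e1 : phase l i a.1 = phase l (cntLt l τ) a.1 :=
    h34w_phase_off l hB _ _ hk1 hi.le a.1 fun j hj j1 j2 => off j hj j1 (j2.trans hk2) j2.ne
  have e2 : phase l (cntLe l τ) a.1 = phase l (i + 1) a.1 :=
    h34w_phase_off l hB _ _ hk2 hle a.1 fun j hj j1 j2 => off j hj (by omega) j2 (by omega)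
  have e3 := lat_phase_succ hB hi hx a.1
  have e4 : x a.1 * l[i].2.vec a.1 = 1 / 2 := by
    unfold kPp kPm at hcyc
    rw [e2, e3, e1] at hcyc
    linarith
  have e5 : |l[i].2.vec a.1| = 1 := by
    rcases hax with ⟨-, e⟩ | ⟨e, -⟩
    · rw [← e, scw_vec_j]; exact lat_sgnB_abs _
    · rw [← e, scw_vec_i]; exact lat_sgnB_abs _
  rcases lat_dual_abs hsp hi hx with g1 | g2
  · exfalso
    rcases g1 a.1 with g0 | g0
    · rw [g0, zero_mul] at e4
      norm_num at e4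
    · have := congrArg abs e4
      rw [abs_mul, g0, e5] at this
      norm_num at this
  · exact ⟨i, hi, x, hpv, hx, g2⟩

/-- (X6) -/
theorem h34w_cyc (a b c d : Lab n) (h : IsTransfer l τ a b) (h' : IsTransfer l τ c d)
    (hac : a.1 ∈ P ↔ c.1 ∉ P) (hab : a.1 ∈ P ↔ b.1 ∈ P) (hcd : c.1 ∈ P ↔ d.1 ∈ P)
    (hV : lv (kVm θ ⟨w0.act, lam⟩ l τ) c = lv (kVm θ ⟨w0.act, lam⟩ l τ) a)
    (hW : lv (kVm θ ⟨w0.act, lam⟩ l τ) d = lv (kVm θ ⟨w0.act, lam⟩ l τ) b)
    (h1 : lv (kY θ ⟨w0.act, lam⟩ l τ) a ≤ lv (kY θ ⟨w0.act, lam⟩ l τ) d)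
    (h2 : lv (kY θ ⟨w0.act, lam⟩ l τ) c ≤ lv (kY θ ⟨w0.act, lam⟩ l τ) b)
    (hcyc : kPp l τ a.1 = kPm l τ a.1 + 1 / 2) (hcyc' : kPp l τ c.1 = kPm l τ c.1 + 1 / 2) :
    False := by
  have cross : ∀ u v : Fin n, (u ∈ P ↔ v ∉ P) → u ≠ v := by
    intro u v huv e
    rw [e] at huv
    by_cases hv : v ∈ P
    · exact (huv.1 hv) hv
    · exact hv (huv.2 hv)
  have hac' : a.1 ≠ c.1 := cross _ _ hac
  have had : a.1 ∈ P ↔ d.1 ∉ P := by rw [hac, hcd]
  have hbc : b.1 ∈ P ↔ c.1 ∉ P := by rw [← hab, hac]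
  have hbd : b.1 ∈ P ↔ d.1 ∉ P := by rw [← hab, had]
  have hda' : d.1 ≠ a.1 := (cross _ _ had).symm
  have hbc' : b.1 ≠ c.1 := cross _ _ hbc
  have hdb' : d.1 ≠ b.1 := (cross _ _ hbd).symm
  obtain ⟨l', hs', hlen, -, hq, hmem⟩ :=
    h34w_swap lam xi θ w0 l P X τ a b c d h h' hda' hbc' hac' hdb' hV hW h1 h2
  obtain ⟨i₀, h₀, x₀, hv₀, hx₀, hc₀⟩ := h34w_cyc_dual lam xi θ w0 l P X τ a b h hcyc
  obtain ⟨i₁, h₁, x₁, hv₁, hx₁, hc₁⟩ := h34w_cyc_dual lam xi θ w0 l P X τ c d h' hcyc'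
  obtain ⟨P', hE⟩ := X.hard w0 l' hs' (by rw [hlen]; exact X.exc.len.le)
  have hsp := lat_basis_span (lat_exc_basis X.exc)
  have hside : l[i₀].2.i ∈ P ↔ l[i₁].2.i ∉ P := by
    obtain ⟨-, ax₀⟩ := h34w_root_of_vec _ a b hv₀
    obtain ⟨-, ax₁⟩ := h34w_root_of_vec _ c d hv₁
    rcases ax₀ with ⟨e0, -⟩ | ⟨e0, -⟩ <;> rcases ax₁ with ⟨e1, -⟩ | ⟨e1, -⟩ <;> rw [e0, e1]
    · exact hbd
    · exact hbc
    · exact had
    · exact hac
  have hmem' : ∀ (j : ℕ) (hj : j < l.length), j ≠ i₀ → j ≠ i₁ → l[j] ∈ l' := by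
    intro j hj n0 n1
    rcases hmem _ (List.getElem_mem hj) with hm | hm | hm
    · exact hm
    · exfalso
      have z1 := lat_dual_other hx₀ hj n0
      have z2 := lat_dual_self hx₀ h₀
      rw [hm] at z1
      rw [hv₀, z1] at z2
      norm_num at z2
    · exfalso
      have z1 := lat_dual_other hx₁ hj n1
      have z2 := lat_dual_self hx₁ h₁
      rw [hm] at z1
      rw [hv₁, z1] at z2
      norm_num at z2
  have hqP : (labRoot d a hda').i ∈ P ↔ (labRoot d a hda').j ∉ P := by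
    show d.1 ∈ P ↔ a.1 ∉ P
    constructor
    · intro hd ha
      exact (had.1 ha) hd
    · intro ha
      by_contra hd
      exact ha (had.2 hd)
  rcases h34w_conn l l' P hsp X.exc.connP X.exc.connQ i₀ i₁ h₀ h₁ x₀ x₁ hx₀ hc₀ hx₁ hc₁ hside hmem'
    (τ, labRoot d a hda') hq hqP P' hE.connP.2.1 with e | e
  · have := hE.connP.1
    rw [e] at this
    simp at this
  · have := hE.connQ.1
    rw [e] at this
    simp at this

end Main

end Claimed.Agent.R282
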