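import Claimed.Agent.R282.S34.H.Plateau
import Claimed.Agent.R282.S34.H.Split
import Claimed.Agent.R282.S34.H.Disj
import Claimed.Agent.R282.S34.H.KnotPhase
import Claimed.Agent.R282.S34.H.Cluster
import Claimed.Agent.R282.S34.H.Star
import Claimed.Agent.R282.S34.H.Spect
import Claimed.Agent.R282.S34.H.Swap

/-!
# Row 282, package H: second level (labels, knot facts, forbidden configurations)

Signed labels `a = (axis, sign)`, `e_a = labVec a`, `x_a = lv x a`.  A switch `(τ, β)` with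
`β = e_b - e_a` is the TRANSFER `a → b` (donor `a`, recipient `b`); it is also `-b → -a`.
Knot quantities: `kY` position at `τ`; `kVm`, `kVp` moving values before/after; `kPm`, `kPp` phases.

Sections:
* `Facts`   (leaves L-H-F*) : what the knot looks like;
* `Forbid`  (leaves L-H-X*) : configurations that produce a shorter schedule, a non-exceptional schedule with
  `n` switches, or a `LinkBase`;
* `Labels`  (leaves L-H-L*) : the three label inequalities = finite case analysis from `Facts` + `Forbid`.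
The derivations (all tables re-derived with dual vectors) are in `H/Plan.lean`.
-/

set_option autoImplicit false

namespace Claimed.Agent.R282

variable {n : ℕ}

section Top

/-- (H2) matching lemma -/
theorem h34_partner (lam xi : Vec n) (θ : Shape n) (w0 : WD n) (l : List (ℝ × RootD n))
    (P : Finset (Fin n)) (X : ExcCtx lam θ xi w0 l P) (τ : ℝ) :
    ∃ π : Equiv.Perm (Fin n), IsPartner l τ P π :=
  h34_partner_of_disjoint l τ P X.exc.connP.2.1
    (h34_knot_disjoint lam xi θ X.lbl X.gen X.hard w0 l X.sched X.exc.len.le)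

/-- the standing assumptions are symmetric in the two components -/
theorem h34_ctx_compl (lam xi : Vec n) (θ : Shape n) (w0 : WD n) (l : List (ℝ × RootD n))
    (P : Finset (Fin n)) (X : ExcCtx lam θ xi w0 l P) : ExcCtx lam θ xi w0 l Pᶜ :=
  h34c_ctx_compl lam xi θ w0 l P X

theorem h34_dJ_symm (θ : Shape n) (S : SwState n) (l : List (ℝ × RootD n)) (τ : ℝ)
    (a c : Lab n) : dJ θ S l τ a c = dJ θ S l τ c a :=
  h34c_dJ_symm θ S l τ a c

end Top

section Facts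

variable (lam xi : Vec n) (θ : Shape n) (w0 : WD n) (l : List (ℝ × RootD n))
  (P : Finset (Fin n)) (X : ExcCtx lam θ xi w0 l P) (τ : ℝ)

include X

/-- (F0) the exceptional schedule is strict -/
theorem h34_strict : SwStrict θ ⟨w0.act, lam⟩ l :=
  h34c_strict lam xi θ w0 l P X

/-- (F1) the position does not change at the knot; `dJ` in knot quantities -/
theorem h34_dJ_eq (a c : Lab n) :
    dJ θ ⟨w0.act, lam⟩ l τ a c
      = jPlus (kY θ ⟨w0.act, lam⟩ l τ) (kVp θ ⟨w0.act, lam⟩ l τ) (kPp l τ) a c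
        - jMinus (kY θ ⟨w0.act, lam⟩ l τ) (kVm θ ⟨w0.act, lam⟩ l τ) (kPm l τ) a c :=
  h34c_dJ_eq lam xi θ w0 l P X τ a c

/-- (F1') the position does not change at the knot (leaf L-H-F1) -/
theorem h34_pos_eq :
    (stAt θ ⟨w0.act, lam⟩ l (cntLe l τ)).pos θ τ = kY θ ⟨w0.act, lam⟩ l τ :=
  h34c_pos_eq lam xi θ w0 l P X τ

/-- (F2) nothing happens on an unused axis -/
theorem h34_unused (j : Fin n) (hj : Unused l τ j) :
    kVp θ ⟨w0.act, lam⟩ l τ j = kVm θ ⟨w0.act, lam⟩ l τ j ∧ kPp l τ j = kPm l τ j :=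
  h34c_unused lam xi θ w0 l P X τ j hj

/-- (F3) a transfer: donor below recipient, donor has the higher value, the values are exchanged, both
axes in the same component -/
theorem h34_transfer (a b : Lab n) (h : IsTransfer l τ a b) :
    lv (kY θ ⟨w0.act, lam⟩ l τ) a < lv (kY θ ⟨w0.act, lam⟩ l τ) b ∧
    lv (kVm θ ⟨w0.act, lam⟩ l τ) b < lv (kVm θ ⟨w0.act, lam⟩ l τ) a ∧
    lv (kVp θ ⟨w0.act, lam⟩ l τ) a = lv (kVm θ ⟨w0.act, lam⟩ l τ) b ∧
    lv (kVp θ ⟨w0.act, lam⟩ l τ) b = lv (kVm θ ⟨w0.act, lam⟩ l τ) a ∧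
    (a.1 ∈ P ↔ b.1 ∈ P) ∧ a.1 ≠ b.1 :=
  h34c_transfer lam xi θ w0 l P X τ a b h

/-- (F4) phases at a transfer: cycle edge, or bridge with core at the recipient, or bridge with core at the
donor -/
theorem h34_transfer_phase (a b : Lab n) (h : IsTransfer l τ a b) :
    (kPp l τ a.1 = kPm l τ a.1 + 1 / 2 ∧ kPp l τ b.1 = kPm l τ b.1 + 1 / 2) ∨
    (kPp l τ a.1 = kPm l τ a.1 + 1 ∧ kPp l τ b.1 = kPm l τ b.1) ∨
    (kPp l τ a.1 = kPm l τ a.1 ∧ kPp l τ b.1 = kPm l τ b.1 + 1) := by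
  obtain ⟨p, hp, hpτ, hv⟩ := h
  obtain ⟨j, hj, rfl⟩ := List.getElem_of_mem hp
  have hd := h34_knot_disjoint lam xi θ X.lbl X.gen X.hard w0 l X.sched X.exc.len.le
  have hph := h34k_knot_phase (lat_exc_basis X.exc) X.sched.sorted hd τ hj hpτ
  unfold kPp kPm
  rcases h34k_axes l[j].2 a b hv with ⟨e1, e2⟩ | ⟨e1, e2⟩ <;> rw [e1, e2]
  · rcases hph with ⟨-, c1, c2⟩ | ⟨-, ⟨c1, c2⟩ | ⟨c1, c2⟩⟩
    · left; exact ⟨c1, c2⟩
    · right; left; exact ⟨c1, c2⟩
    · right; right; exact ⟨c1, c2⟩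
  · rcases hph with ⟨-, c1, c2⟩ | ⟨-, ⟨c1, c2⟩ | ⟨c1, c2⟩⟩
    · left; exact ⟨c2, c1⟩
    · right; right; exact ⟨c2, c1⟩
    · right; left; exact ⟨c2, c1⟩

/-- (F5) two transfers of one knot: same class or mirror class -/
theorem h34_two_transfers (a b c d : Lab n) (h : IsTransfer l τ a b) (h' : IsTransfer l τ c d) :
    (lv (kVm θ ⟨w0.act, lam⟩ l τ) c = lv (kVm θ ⟨w0.act, lam⟩ l τ) a ∧
      lv (kVm θ ⟨w0.act, lam⟩ l τ) d = lv (kVm θ ⟨w0.act, lam⟩ l τ) b) ∨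
    (lv (kVm θ ⟨w0.act, lam⟩ l τ) c = - lv (kVm θ ⟨w0.act, lam⟩ l τ) b ∧
      lv (kVm θ ⟨w0.act, lam⟩ l τ) d = - lv (kVm θ ⟨w0.act, lam⟩ l τ) a) :=
  h34q_two_transfers lam xi θ w0 l P X τ a b c d h h'

/-- (F6) two transfers of the same class are both cycle edges or both bridges (equal coefficients) -/
theorem h34_same_type (a b c d : Lab n) (h : IsTransfer l τ a b) (h' : IsTransfer l τ c d) :
    (kPp l τ a.1 = kPm l τ a.1 + 1 / 2 ↔ kPp l τ c.1 = kPm l τ c.1 + 1 / 2) := by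
  obtain ⟨p, hp, hpτ, hv⟩ := h
  obtain ⟨j, hj, rfl⟩ := List.getElem_of_mem hp
  obtain ⟨p', hp', hpτ', hv'⟩ := h'
  obtain ⟨j', hj', rfl⟩ := List.getElem_of_mem hp'
  have hd := h34_knot_disjoint lam xi θ X.lbl X.gen X.hard w0 l X.sched X.exc.len.le
  have hB := lat_exc_basis X.exc
  have ha : a.1 = l[j].2.i ∨ a.1 = l[j].2.j := by
    rcases h34k_axes l[j].2 a b hv with ⟨e1, -⟩ | ⟨e1, -⟩
    · exact Or.inl e1
    · exact Or.inr e1
  have hc : c.1 = l[j'].2.i ∨ c.1 = l[j'].2.j := by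
    rcases h34k_axes l[j'].2 c d hv' with ⟨e1, -⟩ | ⟨e1, -⟩
    · exact Or.inl e1
    · exact Or.inr e1
  unfold kPp kPm
  rw [h34k_cyc_iff hB X.sched.sorted hd τ hj hpτ a.1 ha,
    h34k_cyc_iff hB X.sched.sorted hd τ hj' hpτ' c.1 hc]
  exact ⟨h34k_same_type lam xi θ w0 l P X τ hj hj' hpτ hpτ',
    h34k_same_type lam xi θ w0 l P X τ hj' hj hpτ' hpτ⟩

/-- (F7) a position tie of an unused cross label with an end of a transfer forces its value into the class -/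
theorem h34_tie_class (a b c : Lab n) (h : IsTransfer l τ a b) (hc : Unused l τ c.1)
    (hac : a.1 ∈ P ↔ c.1 ∉ P)
    (ht : lv (kY θ ⟨w0.act, lam⟩ l τ) c = lv (kY θ ⟨w0.act, lam⟩ l τ) a ∨
      lv (kY θ ⟨w0.act, lam⟩ l τ) c = lv (kY θ ⟨w0.act, lam⟩ l τ) b) :
    lv (kVm θ ⟨w0.act, lam⟩ l τ) c = lv (kVm θ ⟨w0.act, lam⟩ l τ) a ∨
      lv (kVm θ ⟨w0.act, lam⟩ l τ) c = lv (kVm θ ⟨w0.act, lam⟩ l τ) b :=
  h34q_tie_class lam xi θ w0 l P X τ a b c h hac ht

/-- (F8) blocker corollary for an unused spectator -/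
theorem h34_noBlock_single (a b c : Lab n) (h : IsTransfer l τ a b) (hc : Unused l τ c.1) :
    ¬ (lv (kY θ ⟨w0.act, lam⟩ l τ) a < lv (kY θ ⟨w0.act, lam⟩ l τ) c ∧
      lv (kY θ ⟨w0.act, lam⟩ l τ) c < lv (kY θ ⟨w0.act, lam⟩ l τ) b ∧
      lv (kVm θ ⟨w0.act, lam⟩ l τ) b < lv (kVm θ ⟨w0.act, lam⟩ l τ) c ∧
      lv (kVm θ ⟨w0.act, lam⟩ l τ) c < lv (kVm θ ⟨w0.act, lam⟩ l τ) a) :=
  h34q_noBlock_single lam xi θ w0 l P X τ a b c h hc

/-- (F9) two transfers in mirror classes that are not the same class: the sum of the four contributions does not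
change (no ties by genericity; blocker corollary at both switches, in their order in `l`) -/
theorem h34_pp_cross (a b c d : Lab n) (h : IsTransfer l τ a b) (h' : IsTransfer l τ c d)
    (hac : a.1 ∈ P ↔ c.1 ∉ P)
    (hne : lv (kVm θ ⟨w0.act, lam⟩ l τ) c ≠ lv (kVm θ ⟨w0.act, lam⟩ l τ) a) :
    0 ≤ dJ θ ⟨w0.act, lam⟩ l τ a c + dJ θ ⟨w0.act, lam⟩ l τ a d
      + dJ θ ⟨w0.act, lam⟩ l τ b c + dJ θ ⟨w0.act, lam⟩ l τ b d := by
  obtain ⟨hxz, hLH, hva, hvb, -, -⟩ := h34_transfer lam xi θ w0 l P X τ a b h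
  obtain ⟨hhk, -, hvc, hvd, -, -⟩ := h34_transfer lam xi θ w0 l P X τ c d h'
  obtain ⟨vc, vd, hs, hH, hL, nac, nad, nbc, nbd⟩ :=
    h34q_cross_data lam xi θ w0 l P X τ a b c d h h' hac hne
  rw [h34_dJ_eq lam xi θ w0 l P X τ a c, h34_dJ_eq lam xi θ w0 l P X τ a d,
    h34_dJ_eq lam xi θ w0 l P X τ b c, h34_dJ_eq lam xi θ w0 l P X τ b d]
  exact h34q_cross_final _ _ _ _ _ a b c d hxz hhk hLH hva hvb hvc hvd vc vd hs hH hL nac nad nbc
    nbd (h34q_block_pair lam xi θ w0 l P X τ a b c d h h' hac)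

/-- (F10) Lemma 4.3 (plateaus), for the state after `k` switches and any time `t` -/
theorem h34_plateau (k : ℕ) (hk : k ≤ n) (t : ℝ) (a c : Lab n) (hac : a.1 ∈ P ↔ c.1 ∉ P)
    (hy : lv ((stAt θ ⟨w0.act, lam⟩ l k).pos θ t) a = lv ((stAt θ ⟨w0.act, lam⟩ l k).pos θ t) c)
    (hv : lv ((stAt θ ⟨w0.act, lam⟩ l k).frame θ.sum) a
      = lv ((stAt θ ⟨w0.act, lam⟩ l k).frame θ.sum) c) :
    (phase l k a.1 = 0 ∧ phase l k c.1 = 0) ∨ (phase l k a.1 = 1 ∧ phase l k c.1 = 1) :=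
  h34p_plateau lam xi θ w0 l P X k hk t a c hac hy hv

/-- (F11) a used axis carries a transfer with that axis as donor axis -/
theorem h34_transfer_exists (π : Equiv.Perm (Fin n)) (hπ : IsPartner l τ P π) (i : Fin n)
    (hi : π i ≠ i) : ∃ a b : Lab n, IsTransfer l τ a b ∧ a.1 = i ∧ b.1 = π i :=
  h34c_transfer_exists lam xi θ w0 l P X τ π hπ i hi

omit X in
theorem h34_unused_of_fix (π : Equiv.Perm (Fin n)) (hπ : IsPartner l τ P π) (i : Fin n)
    (hi : π i = i) : Unused l τ i :=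
  h34c_unused_of_fix l P τ π hπ i hi

omit X in
/-- the mirror of a transfer -/
theorem h34_transfer_opp (a b : Lab n) (h : IsTransfer l τ a b) : IsTransfer l τ b.opp a.opp :=
  h34c_transfer_opp l τ a b h

end Facts

section Forbid

variable (lam xi : Vec n) (θ : Shape n) (w0 : WD n) (l : List (ℝ × RootD n))
  (P : Finset (Fin n)) (X : ExcCtx lam θ xi w0 l P) (τ : ℝ)

include X

/-- (X1) direct link (iv): crossing of two unused cross labels at a knot -/
theorem h34_fc_ss (hτ : ∃ p ∈ l, p.1 = τ) (a c : Lab n) (hac : a.1 ∈ P ↔ c.1 ∉ P)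
    (ha : Unused l τ a.1) (hc : Unused l τ c.1)
    (hy : lv (kY θ ⟨w0.act, lam⟩ l τ) a = lv (kY θ ⟨w0.act, lam⟩ l τ) c)
    (hv : lv (kVm θ ⟨w0.act, lam⟩ l τ) a ≠ lv (kVm θ ⟨w0.act, lam⟩ l τ) c) : False :=
  s34f_link_knot lam xi θ w0 l P X τ hτ a c hac ha hc hy hv

/-- (X2) split `c → b, a → c`, strict position -/
theorem h34_fc_ps_strict (a b c : Lab n) (h : IsTransfer l τ a b) (hc : Unused l τ c.1)
    (hac : a.1 ∈ P ↔ c.1 ∉ P)
    (hv : lv (kVm θ ⟨w0.act, lam⟩ l τ) c = lv (kVm θ ⟨w0.act, lam⟩ l τ) a)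
    (h1 : lv (kY θ ⟨w0.act, lam⟩ l τ) a < lv (kY θ ⟨w0.act, lam⟩ l τ) c)
    (h2 : lv (kY θ ⟨w0.act, lam⟩ l τ) c < lv (kY θ ⟨w0.act, lam⟩ l τ) b) : False :=
  h34s_split_false lam xi θ w0 l P X τ a b c h hc hac hv (Or.inl h1) (Or.inl h2)

/-- (X3) split, tie at the donor, both phases one: `G₂' = D (p_a⁻ + p_c - 1) > 0` -/
theorem h34_fc_ps_donor (a b c : Lab n) (h : IsTransfer l τ a b) (hc : Unused l τ c.1)
    (hac : a.1 ∈ P ↔ c.1 ∉ P)
    (hv : lv (kVm θ ⟨w0.act, lam⟩ l τ) c = lv (kVm θ ⟨w0.act, lam⟩ l τ) a)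
    (h1 : lv (kY θ ⟨w0.act, lam⟩ l τ) c = lv (kY θ ⟨w0.act, lam⟩ l τ) a)
    (pa : kPm l τ a.1 = 1) (pc : kPm l τ c.1 = 1) : False :=
  h34s_split_false lam xi θ w0 l P X τ a b c h hc hac hv
    (Or.inr ⟨h1.symm, by rw [pa, pc]; norm_num⟩)
    (Or.inl (by rw [h1]; exact (h34_transfer lam xi θ w0 l P X τ a b h).1))

/-- (X4) split, tie at the recipient, both phases zero: `G₁' = D (1 - p_b⁺ - p_c) > 0` -/
theorem h34_fc_ps_recip (a b c : Lab n) (h : IsTransfer l τ a b) (hc : Unused l τ c.1)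
    (hac : a.1 ∈ P ↔ c.1 ∉ P)
    (hv : lv (kVm θ ⟨w0.act, lam⟩ l τ) c = lv (kVm θ ⟨w0.act, lam⟩ l τ) a)
    (h1 : lv (kY θ ⟨w0.act, lam⟩ l τ) c = lv (kY θ ⟨w0.act, lam⟩ l τ) b)
    (pb : kPp l τ b.1 = 0) (pc : kPm l τ c.1 = 0) : False :=
  h34s_split_false lam xi θ w0 l P X τ a b c h hc hac hv
    (Or.inl (by rw [h1]; exact (h34_transfer lam xi θ w0 l P X τ a b h).1))
    (Or.inr ⟨h1, by rw [pb, pc]; norm_num⟩)

/-- (X5) touching mixed endpoint: switched matching `a → d, c → b` has a zero gap -/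
theorem h34_fc_pp_touch (a b c d : Lab n) (h : IsTransfer l τ a b) (h' : IsTransfer l τ c d)
    (hac : a.1 ∈ P ↔ c.1 ∉ P)
    (hv : lv (kVm θ ⟨w0.act, lam⟩ l τ) c = lv (kVm θ ⟨w0.act, lam⟩ l τ) a)
    (h1 : lv (kY θ ⟨w0.act, lam⟩ l τ) a = lv (kY θ ⟨w0.act, lam⟩ l τ) d) : False := by
  obtain ⟨hxz, -, -, -, hab, -⟩ := h34_transfer lam xi θ w0 l P X τ a b h
  obtain ⟨hhk, -, -, -, hcd, -⟩ := h34_transfer lam xi θ w0 l P X τ c d h'
  have hW : lv (kVm θ ⟨w0.act, lam⟩ l τ) d = lv (kVm θ ⟨w0.act, lam⟩ l τ) b := by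
    rcases h34_two_transfers lam xi θ w0 l P X τ a b c d h h' with ⟨-, e⟩ | ⟨e1, e2⟩
    · exact e
    · rw [e2, ← hv, e1, neg_neg]
  obtain ⟨n1, n2, n3, n4⟩ := h34w_ne4 P a b c d hac hab hcd
  exact h34w_touch lam xi θ w0 l P X τ a b c d h h' n1 n2 n3 n4 hv hW h1 (by linarith)

/-- (X6) strict overlap, cycle edges: the switched matching is a connected graph with `n` edges -/
theorem h34_fc_pp_cyc (a b c d : Lab n) (h : IsTransfer l τ a b) (h' : IsTransfer l τ c d)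
    (hac : a.1 ∈ P ↔ c.1 ∉ P)
    (hv : lv (kVm θ ⟨w0.act, lam⟩ l τ) c = lv (kVm θ ⟨w0.act, lam⟩ l τ) a)
    (h1 : lv (kY θ ⟨w0.act, lam⟩ l τ) a < lv (kY θ ⟨w0.act, lam⟩ l τ) d)
    (h2 : lv (kY θ ⟨w0.act, lam⟩ l τ) c < lv (kY θ ⟨w0.act, lam⟩ l τ) b)
    (hcyc : kPp l τ a.1 = kPm l τ a.1 + 1 / 2) : False := by
  obtain ⟨-, -, -, -, hab, -⟩ := h34_transfer lam xi θ w0 l P X τ a b h
  obtain ⟨-, -, -, -, hcd, -⟩ := h34_transfer lam xi θ w0 l P X τ c d h'
  have hW : lv (kVm θ ⟨w0.act, lam⟩ l τ) d = lv (kVm θ ⟨w0.act, lam⟩ l τ) b := by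
    rcases h34_two_transfers lam xi θ w0 l P X τ a b c d h h' with ⟨-, e⟩ | ⟨e1, e2⟩
    · exact e
    · rw [e2, ← hv, e1, neg_neg]
  exact h34w_cyc lam xi θ w0 l P X τ a b c d h h' hac hab hcd hv hW h1.le h2.le hcyc
    ((h34_same_type lam xi θ w0 l P X τ a b c d h h').1 hcyc)

/-- (X7) donor star `c → b, a → c, c → d` (`y_a < y_c`): feasible unless both cores are at the donors -/
theorem h34_fc_pp_donor_star (a b c d : Lab n) (h : IsTransfer l τ a b)
    (h' : IsTransfer l τ c d) (hac : a.1 ∈ P ↔ c.1 ∉ P)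
    (hv : lv (kVm θ ⟨w0.act, lam⟩ l τ) c = lv (kVm θ ⟨w0.act, lam⟩ l τ) a)
    (h1 : lv (kY θ ⟨w0.act, lam⟩ l τ) a < lv (kY θ ⟨w0.act, lam⟩ l τ) c)
    (h2 : lv (kY θ ⟨w0.act, lam⟩ l τ) c < lv (kY θ ⟨w0.act, lam⟩ l τ) b)
    (hbr : kPp l τ a.1 ≠ kPm l τ a.1 + 1 / 2)
    (hcore : ¬ (kPp l τ a.1 = kPm l τ a.1 ∧ kPp l τ c.1 = kPm l τ c.1)) : False := by
  have hW : lv (kVm θ ⟨w0.act, lam⟩ l τ) d = lv (kVm θ ⟨w0.act, lam⟩ l τ) b := by
    rcases h34_two_transfers lam xi θ w0 l P X τ a b c d h h' with ⟨-, e⟩ | ⟨e1, e2⟩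
    · exact e
    · rw [e2, ← hv, e1, neg_neg]
  exact h34t_donor_star lam xi θ w0 l P X τ a b c d h h' hac hv hW h1 h2 hbr
    (fun e => hbr ((h34_same_type lam xi θ w0 l P X τ a b c d h h').2 e)) hcore

/-- (X8) receiver star `a → b, b → d, c → b` (`y_b < y_d`): feasible unless both cores are at the recipients -/
theorem h34_fc_pp_recv_star (a b c d : Lab n) (h : IsTransfer l τ a b)
    (h' : IsTransfer l τ c d) (hac : a.1 ∈ P ↔ c.1 ∉ P)
    (hv : lv (kVm θ ⟨w0.act, lam⟩ l τ) c = lv (kVm θ ⟨w0.act, lam⟩ l τ) a)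
    (h1 : lv (kY θ ⟨w0.act, lam⟩ l τ) b < lv (kY θ ⟨w0.act, lam⟩ l τ) d)
    (h2 : lv (kY θ ⟨w0.act, lam⟩ l τ) c < lv (kY θ ⟨w0.act, lam⟩ l τ) b)
    (hbr : kPp l τ a.1 ≠ kPm l τ a.1 + 1 / 2)
    (hcore : ¬ (kPp l τ b.1 = kPm l τ b.1 ∧ kPp l τ d.1 = kPm l τ d.1)) : False := by
  have hW : lv (kVm θ ⟨w0.act, lam⟩ l τ) d = lv (kVm θ ⟨w0.act, lam⟩ l τ) b := by
    rcases h34_two_transfers lam xi θ w0 l P X τ a b c d h h' with ⟨-, e⟩ | ⟨e1, e2⟩
    · exact e
    · rw [e2, ← hv, e1, neg_neg]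
  have hbrb : kPp l τ b.1 ≠ kPm l τ b.1 + 1 / 2 := by
    intro e
    apply hbr
    rcases h34_transfer_phase lam xi θ w0 l P X τ a b h with ⟨e1, -⟩ | ⟨-, e2⟩ | ⟨-, e2⟩
    · exact e1
    · rw [e2] at e; linarith
    · rw [e2] at e; linarith
  have hbrd : kPp l τ d.1 ≠ kPm l τ d.1 + 1 / 2 := by
    intro e
    apply hbr
    apply (h34_same_type lam xi θ w0 l P X τ a b c d h h').2
    rcases h34_transfer_phase lam xi θ w0 l P X τ c d h' with ⟨e1, -⟩ | ⟨-, e2⟩ | ⟨-, e2⟩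
    · exact e1
    · rw [e2] at e; linarith
    · rw [e2] at e; linarith
  exact h34t_recv_star lam xi θ w0 l P X τ a b c d h h' hac hv hW h1 h2 hbrb hbrd hcore

end Forbid

section JEval

variable (y v : Vec n) (ph : Fin n → ℝ) (a c : Lab n)

theorem h34_jP_lt_one (hv : lv v a < lv v c) (hy : lv y c < lv y a) : jPlus y v ph a c = 1 := by
  unfold jPlus
  rw [if_pos (mul_neg_of_pos_of_neg (sub_pos.2 hy) (sub_neg.2 hv))]

theorem h34_jP_lt_zero (hv : lv v a < lv v c) (hy : lv y a ≤ lv y c) : jPlus y v ph a c = 0 := by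
  unfold jPlus
  rw [if_neg (not_lt.2 (mul_nonneg_of_nonpos_of_nonpos (sub_nonpos.2 hy) (sub_neg.2 hv).le)),
    if_neg (fun h => hv.ne h.2)]

theorem h34_jP_gt_one (hv : lv v c < lv v a) (hy : lv y a < lv y c) : jPlus y v ph a c = 1 := by
  unfold jPlus
  rw [if_pos (mul_neg_of_neg_of_pos (sub_neg.2 hy) (sub_pos.2 hv))]

theorem h34_jP_gt_zero (hv : lv v c < lv v a) (hy : lv y c ≤ lv y a) : jPlus y v ph a c = 0 := by
  unfold jPlus
  rw [if_neg (not_lt.2 (mul_nonneg (sub_nonneg.2 hy) (sub_pos.2 hv).le)),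
    if_neg (fun h => hv.ne' h.2)]

theorem h34_jP_eq_tie (hv : lv v a = lv v c) (hy : lv y a = lv y c) :
    jPlus y v ph a c = ph a.1 + ph c.1 - 1 := by
  unfold jPlus
  rw [if_neg (by rw [hv, sub_self, mul_zero]; exact lt_irrefl _), if_pos ⟨hy, hv⟩]

theorem h34_jP_eq_zero (hv : lv v a = lv v c) (hy : lv y a ≠ lv y c) : jPlus y v ph a c = 0 := by
  unfold jPlus
  rw [if_neg (by rw [hv, sub_self, mul_zero]; exact lt_irrefl _), if_neg (fun h => hy h.1)]

theorem h34_jM_lt_one (hv : lv v a < lv v c) (hy : lv y c ≤ lv y a) : jMinus y v ph a c = 1 := by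
  unfold jMinus
  rw [if_pos ⟨hv.ne, mul_nonpos_of_nonneg_of_nonpos (sub_nonneg.2 hy) (sub_neg.2 hv).le⟩]

theorem h34_jM_lt_zero (hv : lv v a < lv v c) (hy : lv y a < lv y c) : jMinus y v ph a c = 0 := by
  unfold jMinus
  rw [if_neg (fun h => absurd h.2 (not_le.2 (mul_pos_of_neg_of_neg (sub_neg.2 hy) (sub_neg.2 hv)))),
    if_neg (fun h => hv.ne h.2)]

theorem h34_jM_gt_one (hv : lv v c < lv v a) (hy : lv y a ≤ lv y c) : jMinus y v ph a c = 1 := by
  unfold jMinus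
  rw [if_pos ⟨hv.ne', mul_nonpos_of_nonpos_of_nonneg (sub_nonpos.2 hy) (sub_pos.2 hv).le⟩]

theorem h34_jM_gt_zero (hv : lv v c < lv v a) (hy : lv y c < lv y a) : jMinus y v ph a c = 0 := by
  unfold jMinus
  rw [if_neg (fun h => absurd h.2 (not_le.2 (mul_pos (sub_pos.2 hy) (sub_pos.2 hv)))),
    if_neg (fun h => hv.ne' h.2)]

theorem h34_jM_eq_tie (hv : lv v a = lv v c) (hy : lv y a = lv y c) :
    jMinus y v ph a c = ph a.1 + ph c.1 - 1 := by
  unfold jMinus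
  rw [if_neg (fun h => h.1 hv), if_pos ⟨hy, hv⟩]

theorem h34_jM_eq_zero (hv : lv v a = lv v c) (hy : lv y a ≠ lv y c) : jMinus y v ph a c = 0 := by
  unfold jMinus
  rw [if_neg (fun h => h.1 hv), if_neg (fun h => hy h.1)]

theorem h34_lv_opp (x : Vec n) (a : Lab n) : lv x a.opp = - lv x a := by
  unfold lv Lab.opp sgnB
  cases a.2 <;> simp

theorem h34_jP_opp : jPlus y v ph a.opp c.opp = jPlus y v ph a c := by
  unfold jPlus
  simp only [h34_lv_opp, neg_inj]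
  have e : (-lv y a - -lv y c) * (-lv v a - -lv v c) = (lv y a - lv y c) * (lv v a - lv v c) := by
    ring
  rw [e]
  rfl

theorem h34_jM_opp : jMinus y v ph a.opp c.opp = jMinus y v ph a c := by
  unfold jMinus
  simp only [h34_lv_opp, neg_inj, ne_eq]
  have e : (-lv y a - -lv y c) * (-lv v a - -lv v c) = (lv y a - lv y c) * (lv v a - lv v c) := by
    ring
  rw [e]
  rfl

end JEval

theorem h34_dJ_opp (θ : Shape n) (S : SwState n) (l : List (ℝ × RootD n)) (τ : ℝ) (a c : Lab n) :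
    dJ θ S l τ a.opp c.opp = dJ θ S l τ a c := by
  unfold dJ
  rw [h34_jP_opp, h34_jM_opp]

section Labels

variable (lam xi : Vec n) (θ : Shape n) (w0 : WD n) (l : List (ℝ × RootD n))
  (P : Finset (Fin n)) (X : ExcCtx lam θ xi w0 l P) (τ : ℝ)

include X

theorem h34_unused_lv (c : Lab n) (hc : Unused l τ c.1) :
    lv (kVp θ ⟨w0.act, lam⟩ l τ) c = lv (kVm θ ⟨w0.act, lam⟩ l τ) c := by
  unfold lv
  rw [(h34_unused lam xi θ w0 l P X τ c.1 hc).1]

/-- (L1) two unused labels -/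
theorem h34_lab_SS (hτ : ∃ p ∈ l, p.1 = τ) (a c : Lab n) (hac : a.1 ∈ P ↔ c.1 ∉ P)
    (ha : Unused l τ a.1) (hc : Unused l τ c.1) : 0 ≤ dJ θ ⟨w0.act, lam⟩ l τ a c := by
  rw [h34_dJ_eq lam xi θ w0 l P X τ a c]
  have va := h34_unused_lv lam xi θ w0 l P X τ a ha
  have vc := h34_unused_lv lam xi θ w0 l P X τ c hc
  have pa := (h34_unused lam xi θ w0 l P X τ a.1 ha).2
  have pc := (h34_unused lam xi θ w0 l P X τ c.1 hc).2
  have fc := h34_fc_ss lam xi θ w0 l P X τ hτ a c hac ha hc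
  generalize kY θ ⟨w0.act, lam⟩ l τ = y at *
  generalize kVm θ ⟨w0.act, lam⟩ l τ = vm at *
  generalize kVp θ ⟨w0.act, lam⟩ l τ = vp at *
  generalize kPm l τ = pm at *
  generalize kPp l τ = pp at *
  rcases lt_trichotomy (lv vm a) (lv vm c) with hv | hv | hv
  · have hy : lv y a ≠ lv y c := fun e => fc e hv.ne
    rcases lt_or_gt_of_ne hy with hy | hy
    · rw [h34_jP_lt_zero y vp pp a c (by rw [va, vc]; exact hv) hy.le,
        h34_jM_lt_zero y vm pm a c hv hy, sub_self]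
    · rw [h34_jP_lt_one y vp pp a c (by rw [va, vc]; exact hv) hy,
        h34_jM_lt_one y vm pm a c hv hy.le, sub_self]
  · by_cases hy : lv y a = lv y c
    · rw [h34_jP_eq_tie y vp pp a c (by rw [va, vc]; exact hv) hy,
        h34_jM_eq_tie y vm pm a c hv hy, pa, pc, sub_self]
    · rw [h34_jP_eq_zero y vp pp a c (by rw [va, vc]; exact hv) hy,
        h34_jM_eq_zero y vm pm a c hv hy, sub_self]
  · have hy : lv y a ≠ lv y c := fun e => fc e hv.ne'
    rcases lt_or_gt_of_ne hy with hy | hy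
    · rw [h34_jP_gt_one y vp pp a c (by rw [va, vc]; exact hv) hy,
        h34_jM_gt_one y vm pm a c hv hy.le, sub_self]
    · rw [h34_jP_gt_zero y vp pp a c (by rw [va, vc]; exact hv) hy.le,
        h34_jM_gt_zero y vm pm a c hv hy, sub_self]

theorem h34_cntLt_le : cntLt l τ ≤ n := by
  unfold cntLt
  exact (List.length_filter_le _ _).trans X.exc.len.le

theorem h34_cntLe_le : cntLe l τ ≤ n := by
  unfold cntLe
  exact (List.length_filter_le _ _).trans X.exc.len.le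

/-- plateau lemma just before the knot -/
theorem h34_plateau_m (a c : Lab n) (hac : a.1 ∈ P ↔ c.1 ∉ P)
    (hy : lv (kY θ ⟨w0.act, lam⟩ l τ) a = lv (kY θ ⟨w0.act, lam⟩ l τ) c)
    (hv : lv (kVm θ ⟨w0.act, lam⟩ l τ) a = lv (kVm θ ⟨w0.act, lam⟩ l τ) c) :
    (kPm l τ a.1 = 0 ∧ kPm l τ c.1 = 0) ∨ (kPm l τ a.1 = 1 ∧ kPm l τ c.1 = 1) :=
  h34_plateau lam xi θ w0 l P X (cntLt l τ) (h34_cntLt_le lam xi θ w0 l P X τ) τ a c hac hy hv

/-- plateau lemma just after the knot -/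
theorem h34_plateau_p (a c : Lab n) (hac : a.1 ∈ P ↔ c.1 ∉ P)
    (hy : lv (kY θ ⟨w0.act, lam⟩ l τ) a = lv (kY θ ⟨w0.act, lam⟩ l τ) c)
    (hv : lv (kVp θ ⟨w0.act, lam⟩ l τ) a = lv (kVp θ ⟨w0.act, lam⟩ l τ) c) :
    (kPp l τ a.1 = 0 ∧ kPp l τ c.1 = 0) ∨ (kPp l τ a.1 = 1 ∧ kPp l τ c.1 = 1) :=
  h34_plateau lam xi θ w0 l P X (cntLe l τ) (h34_cntLe_le lam xi θ w0 l P X τ) τ a c hac
    (by rw [h34_pos_eq lam xi θ w0 l P X τ]; exact hy) hv

/-- (L2), the spectator has the value of the donor -/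
theorem h34_ps_high (a b c : Lab n) (h : IsTransfer l τ a b) (hc : Unused l τ c.1)
    (hac : a.1 ∈ P ↔ c.1 ∉ P)
    (hV : lv (kVm θ ⟨w0.act, lam⟩ l τ) c = lv (kVm θ ⟨w0.act, lam⟩ l τ) a) :
    0 ≤ dJ θ ⟨w0.act, lam⟩ l τ a c + dJ θ ⟨w0.act, lam⟩ l τ b c := by
  rw [h34_dJ_eq lam xi θ w0 l P X τ a c, h34_dJ_eq lam xi θ w0 l P X τ b c]
  obtain ⟨hxz, hLH, hva, hvb, hab, -⟩ := h34_transfer lam xi θ w0 l P X τ a b h
  have hbc : b.1 ∈ P ↔ c.1 ∉ P := hab.symm.trans hac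
  have vc := h34_unused_lv lam xi θ w0 l P X τ c hc
  have pc := (h34_unused lam xi θ w0 l P X τ c.1 hc).2
  have f1 := h34_fc_ps_strict lam xi θ w0 l P X τ a b c h hc hac hV
  have f2 := h34_fc_ps_donor lam xi θ w0 l P X τ a b c h hc hac hV
  have f3 := h34_fc_ps_recip lam xi θ w0 l P X τ a b c h hc hac hV
  have q1 := h34_plateau_m lam xi θ w0 l P X τ a c hac
  have q2 := h34_plateau_p lam xi θ w0 l P X τ b c hbc
  generalize kY θ ⟨w0.act, lam⟩ l τ = y at *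
  generalize kVm θ ⟨w0.act, lam⟩ l τ = vm at *
  generalize kVp θ ⟨w0.act, lam⟩ l τ = vp at *
  generalize kPm l τ = pm at *
  generalize kPp l τ = pp at *
  -- values after the knot
  have wa : lv vp a < lv vp c := by rw [hva, vc, hV]; exact hLH
  have wb : lv vp b = lv vp c := by rw [hvb, vc, hV]
  have ub : lv vm b < lv vm c := by rw [hV]; exact hLH
  rcases lt_trichotomy (lv y c) (lv y a) with hy | hy | hy
  · -- below the donor
    rw [h34_jP_lt_one y vp pp a c wa hy, h34_jM_eq_zero y vm pm a c hV.symm hy.ne',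
      h34_jP_eq_zero y vp pp b c wb (hy.trans hxz).ne',
      h34_jM_lt_one y vm pm b c ub (hy.trans hxz).le]
    norm_num
  · -- tie at the donor
    rw [h34_jP_lt_zero y vp pp a c wa hy.ge, h34_jM_eq_tie y vm pm a c hV.symm hy.symm,
      h34_jP_eq_zero y vp pp b c wb (by rw [hy]; exact hxz.ne'),
      h34_jM_lt_one y vm pm b c ub (by rw [hy]; exact hxz.le)]
    rcases q1 hy.symm hV.symm with ⟨e1, e2⟩ | ⟨e1, e2⟩
    · rw [e1, e2]; norm_num
    · exact (f2 hy e1 e2).elim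
  · rcases lt_trichotomy (lv y c) (lv y b) with hz | hz | hz
    · exact (f1 hy hz).elim
    · -- tie at the recipient
      rw [h34_jP_lt_zero y vp pp a c wa hy.le, h34_jM_eq_zero y vm pm a c hV.symm hy.ne,
        h34_jP_eq_tie y vp pp b c wb hz.symm, h34_jM_lt_one y vm pm b c ub hz.le]
      rcases q2 hz.symm wb with ⟨e1, e2⟩ | ⟨e1, e2⟩
      · exact (f3 hz e1 (by rw [← pc]; exact e2)).elim
      · rw [e1, e2]; norm_num
    · -- above the recipient
      rw [h34_jP_lt_zero y vp pp a c wa hy.le, h34_jM_eq_zero y vm pm a c hV.symm hy.ne,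
        h34_jP_eq_zero y vp pp b c wb hz.ne, h34_jM_lt_zero y vm pm b c ub hz]
      norm_num

/-- (L2) a transfer and an unused label -/
theorem h34_lab_PS (a b c : Lab n) (h : IsTransfer l τ a b) (hc : Unused l τ c.1)
    (hac : a.1 ∈ P ↔ c.1 ∉ P) :
    0 ≤ dJ θ ⟨w0.act, lam⟩ l τ a c + dJ θ ⟨w0.act, lam⟩ l τ b c := by
  obtain ⟨hxz, hLH, hva, hvb, hab, -⟩ := h34_transfer lam xi θ w0 l P X τ a b h
  have hbc : b.1 ∈ P ↔ c.1 ∉ P := hab.symm.trans hac
  by_cases hH : lv (kVm θ ⟨w0.act, lam⟩ l τ) c = lv (kVm θ ⟨w0.act, lam⟩ l τ) a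
  · exact h34_ps_high lam xi θ w0 l P X τ a b c h hc hac hH
  by_cases hL : lv (kVm θ ⟨w0.act, lam⟩ l τ) c = lv (kVm θ ⟨w0.act, lam⟩ l τ) b
  · have := h34_ps_high lam xi θ w0 l P X τ b.opp a.opp c.opp
      (h34_transfer_opp l τ a b h) hc hbc (by rw [h34_lv_opp, h34_lv_opp, hL])
    rw [h34_dJ_opp, h34_dJ_opp] at this
    linarith
  have tc := h34_tie_class lam xi θ w0 l P X τ a b c h hc hac
  have nb := h34_noBlock_single lam xi θ w0 l P X τ a b c h hc
  rw [h34_dJ_eq lam xi θ w0 l P X τ a c, h34_dJ_eq lam xi θ w0 l P X τ b c]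
  have vc := h34_unused_lv lam xi θ w0 l P X τ c hc
  generalize kY θ ⟨w0.act, lam⟩ l τ = y at *
  generalize kVm θ ⟨w0.act, lam⟩ l τ = vm at *
  generalize kVp θ ⟨w0.act, lam⟩ l τ = vp at *
  generalize kPm l τ = pm at *
  generalize kPp l τ = pp at *
  have hya : lv y c ≠ lv y a := fun e => (tc (Or.inl e)).elim hH hL
  have hyb : lv y c ≠ lv y b := fun e => (tc (Or.inr e)).elim hH hL
  rcases lt_or_gt_of_ne hH with hH | hH
  · rcases lt_or_gt_of_ne hL with hL | hL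
    · -- below both values: nothing changes
      have e1 : jPlus y vp pp a c = jMinus y vm pm a c := by
        rcases lt_or_gt_of_ne hya with hy | hy
        · rw [h34_jP_gt_zero y vp pp a c (by rw [hva, vc]; exact hL) hy.le,
            h34_jM_gt_zero y vm pm a c hH hy]
        · rw [h34_jP_gt_one y vp pp a c (by rw [hva, vc]; exact hL) hy,
            h34_jM_gt_one y vm pm a c hH hy.le]
      have e2 : jPlus y vp pp b c = jMinus y vm pm b c := by
        rcases lt_or_gt_of_ne hyb with hy | hy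
        · rw [h34_jP_gt_zero y vp pp b c (by rw [hvb, vc]; exact hH) hy.le,
            h34_jM_gt_zero y vm pm b c hL hy]
        · rw [h34_jP_gt_one y vp pp b c (by rw [hvb, vc]; exact hH) hy,
            h34_jM_gt_one y vm pm b c hL hy.le]
      rw [e1, e2]; norm_num
    · -- strictly between the two values
      rcases lt_or_gt_of_ne hya with hy | hy
      · rw [h34_jP_lt_one y vp pp a c (by rw [hva, vc]; exact hL) hy,
          h34_jM_gt_zero y vm pm a c hH hy,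
          h34_jP_gt_zero y vp pp b c (by rw [hvb, vc]; exact hH) (hy.trans hxz).le,
          h34_jM_lt_one y vm pm b c hL (hy.trans hxz).le]
        norm_num
      · rcases lt_or_gt_of_ne hyb with hz | hz
        · exact (nb ⟨hy, hz, hL, hH⟩).elim
        · rw [h34_jP_lt_zero y vp pp a c (by rw [hva, vc]; exact hL) hy.le,
            h34_jM_gt_one y vm pm a c hH hy.le,
            h34_jP_gt_one y vp pp b c (by rw [hvb, vc]; exact hH) hz,
            h34_jM_lt_zero y vm pm b c hL hz]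
          norm_num
  · -- above both values: nothing changes
    have hL' : lv vm b < lv vm c := hLH.trans hH
    have e1 : jPlus y vp pp a c = jMinus y vm pm a c := by
      rcases lt_or_gt_of_ne hya with hy | hy
      · rw [h34_jP_lt_one y vp pp a c (by rw [hva, vc]; exact hL') hy,
          h34_jM_lt_one y vm pm a c hH hy.le]
      · rw [h34_jP_lt_zero y vp pp a c (by rw [hva, vc]; exact hL') hy.le,
          h34_jM_lt_zero y vm pm a c hH hy]
    have e2 : jPlus y vp pp b c = jMinus y vm pm b c := by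
      rcases lt_or_gt_of_ne hyb with hy | hy
      · rw [h34_jP_lt_one y vp pp b c (by rw [hvb, vc]; exact hH) hy,
          h34_jM_lt_one y vm pm b c hL' hy.le]
      · rw [h34_jP_lt_zero y vp pp b c (by rw [hvb, vc]; exact hH) hy.le,
          h34_jM_lt_zero y vm pm b c hL' hy]
    rw [e1, e2]; norm_num

/-- (L3) two transfers -/
theorem h34_lab_PP (a b c d : Lab n) (h : IsTransfer l τ a b) (h' : IsTransfer l τ c d)
    (hac : a.1 ∈ P ↔ c.1 ∉ P) :
    0 ≤ dJ θ ⟨w0.act, lam⟩ l τ a c + dJ θ ⟨w0.act, lam⟩ l τ a d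
      + dJ θ ⟨w0.act, lam⟩ l τ b c + dJ θ ⟨w0.act, lam⟩ l τ b d := by
  by_cases hV : lv (kVm θ ⟨w0.act, lam⟩ l τ) c = lv (kVm θ ⟨w0.act, lam⟩ l τ) a
  swap
  · exact h34_pp_cross lam xi θ w0 l P X τ a b c d h h' hac hV
  obtain ⟨hxz, hLH, hva, hvb, hab, -⟩ := h34_transfer lam xi θ w0 l P X τ a b h
  obtain ⟨hhk, hLH', hvc, hvd, hcd, -⟩ := h34_transfer lam xi θ w0 l P X τ c d h'
  have hca : c.1 ∈ P ↔ a.1 ∉ P := by
    constructor
    · intro h1 h2; exact (hac.1 h2) h1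
    · intro h1; by_contra h2; exact h1 (hac.2 h2)
  have hW : lv (kVm θ ⟨w0.act, lam⟩ l τ) d = lv (kVm θ ⟨w0.act, lam⟩ l τ) b := by
    rcases h34_two_transfers lam xi θ w0 l P X τ a b c d h h' with ⟨-, e⟩ | ⟨e1, e2⟩
    · exact e
    · rw [e2, ← hV, e1, neg_neg]
  have t1 := h34_fc_pp_touch lam xi θ w0 l P X τ a b c d h h' hac hV
  have t2 := h34_fc_pp_touch lam xi θ w0 l P X τ c d a b h' h hca hV.symm
  have cy := h34_fc_pp_cyc lam xi θ w0 l P X τ a b c d h h' hac hV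
  have d1 := h34_fc_pp_donor_star lam xi θ w0 l P X τ a b c d h h' hac hV
  have d2 := h34_fc_pp_donor_star lam xi θ w0 l P X τ c d a b h' h hca hV.symm
  have r1 := h34_fc_pp_recv_star lam xi θ w0 l P X τ a b c d h h' hac hV
  have r2 := h34_fc_pp_recv_star lam xi θ w0 l P X τ c d a b h' h hca hV.symm
  have ph1 := h34_transfer_phase lam xi θ w0 l P X τ a b h
  have ph2 := h34_transfer_phase lam xi θ w0 l P X τ c d h'
  have st := h34_same_type lam xi θ w0 l P X τ a b c d h h'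
  rw [h34_dJ_eq lam xi θ w0 l P X τ a c, h34_dJ_eq lam xi θ w0 l P X τ a d,
    h34_dJ_eq lam xi θ w0 l P X τ b c, h34_dJ_eq lam xi θ w0 l P X τ b d]
  generalize kY θ ⟨w0.act, lam⟩ l τ = y at *
  generalize kVm θ ⟨w0.act, lam⟩ l τ = vm at *
  generalize kVp θ ⟨w0.act, lam⟩ l τ = vp at *
  generalize kPm l τ = pm at *
  generalize kPp l τ = pp at *
  -- comparison of the values
  have mac : lv vm a = lv vm c := hV.symm
  have mad : lv vm d < lv vm a := by rw [hW]; exact hLH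
  have mbc : lv vm b < lv vm c := by rw [hV]; exact hLH
  have mbd : lv vm b = lv vm d := hW.symm
  have pac : lv vp a = lv vp c := by rw [hva, hvc, hW]
  have pad : lv vp a < lv vp d := by rw [hva, hvd, hV]; exact hLH
  have pbc : lv vp c < lv vp b := by rw [hvb, hvc, hW]; exact hLH
  have pbd : lv vp b = lv vp d := by rw [hvb, hvd, hV]
  rcases lt_trichotomy (lv y d) (lv y a) with hda | hda | hda
  · -- `c → d` entirely below `a → b`
    rw [h34_jP_eq_zero y vp pp a c pac (hhk.trans hda).ne',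
      h34_jM_eq_zero y vm pm a c mac (hhk.trans hda).ne',
      h34_jP_lt_one y vp pp a d pad hda, h34_jM_gt_zero y vm pm a d mad hda,
      h34_jP_gt_zero y vp pp b c pbc ((hhk.trans hda).trans hxz).le,
      h34_jM_lt_one y vm pm b c mbc ((hhk.trans hda).trans hxz).le,
      h34_jP_eq_zero y vp pp b d pbd (hda.trans hxz).ne',
      h34_jM_eq_zero y vm pm b d mbd (hda.trans hxz).ne']
    norm_num
  · exact (t1 hda.symm).elim
  rcases lt_trichotomy (lv y b) (lv y c) with hbc | hbc | hbc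
  · -- `a → b` entirely below `c → d`
    rw [h34_jP_eq_zero y vp pp a c pac (hxz.trans hbc).ne,
      h34_jM_eq_zero y vm pm a c mac (hxz.trans hbc).ne,
      h34_jP_lt_zero y vp pp a d pad hda.le, h34_jM_gt_one y vm pm a d mad hda.le,
      h34_jP_gt_one y vp pp b c pbc hbc, h34_jM_lt_zero y vm pm b c mbc hbc,
      h34_jP_eq_zero y vp pp b d pbd (hbc.trans hhk).ne,
      h34_jM_eq_zero y vm pm b d mbd (hbc.trans hhk).ne]
    norm_num
  · exact (t2 hbc.symm).elim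
  -- strict overlap
  rw [h34_jP_lt_zero y vp pp a d pad hda.le, h34_jM_gt_one y vm pm a d mad hda.le,
    h34_jP_gt_zero y vp pp b c pbc hbc.le, h34_jM_lt_one y vm pm b c mbc hbc.le]
  have nc1 : pp a.1 ≠ pm a.1 + 1 / 2 := fun e => cy hda hbc e
  have nc2 : pp c.1 ≠ pm c.1 + 1 / 2 := fun e => nc1 (st.2 e)
  have ph1' : (pp a.1 = pm a.1 + 1 ∧ pp b.1 = pm b.1) ∨ (pp a.1 = pm a.1 ∧ pp b.1 = pm b.1 + 1) :=
    ph1.resolve_left (fun e => nc1 e.1)
  have ph2' : (pp c.1 = pm c.1 + 1 ∧ pp d.1 = pm d.1) ∨ (pp c.1 = pm c.1 ∧ pp d.1 = pm d.1 + 1) :=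
    ph2.resolve_left (fun e => nc2 e.1)
  -- donors at different positions: cores at the donors
  have D : lv y a ≠ lv y c → pp a.1 = pm a.1 ∧ pp c.1 = pm c.1 := by
    intro hne
    rcases lt_or_gt_of_ne hne with hlt | hlt
    · by_contra hcon; exact d1 hlt hbc nc1 hcon
    · by_contra hcon; exact d2 hlt hda nc2 (fun e => hcon ⟨e.2, e.1⟩)
  -- recipients at different positions: cores at the recipients
  have R : lv y b ≠ lv y d → pp b.1 = pm b.1 ∧ pp d.1 = pm d.1 := by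
    intro hne
    rcases lt_or_gt_of_ne hne with hlt | hlt
    · by_contra hcon; exact r1 hlt hbc nc1 hcon
    · by_contra hcon; exact r2 hlt hda nc2 (fun e => hcon ⟨e.2, e.1⟩)
  by_cases hac' : lv y a = lv y c
  · rw [h34_jP_eq_tie y vp pp a c pac hac', h34_jM_eq_tie y vm pm a c mac hac']
    by_cases hbd' : lv y b = lv y d
    · rw [h34_jP_eq_tie y vp pp b d pbd hbd', h34_jM_eq_tie y vm pm b d mbd hbd']
      rcases ph1' with ⟨e1, e2⟩ | ⟨e1, e2⟩ <;> rcases ph2' with ⟨e3, e4⟩ | ⟨e3, e4⟩ <;>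
        rw [e1, e2, e3, e4] <;> apply le_of_eq <;> ring
    · rw [h34_jP_eq_zero y vp pp b d pbd hbd', h34_jM_eq_zero y vm pm b d mbd hbd']
      obtain ⟨e2, e4⟩ := R hbd'
      have e1 : pp a.1 = pm a.1 + 1 := by
        rcases ph1' with ⟨e, -⟩ | ⟨-, e⟩
        · exact e
        · rw [e2] at e; linarith
      have e3 : pp c.1 = pm c.1 + 1 := by
        rcases ph2' with ⟨e, -⟩ | ⟨-, e⟩
        · exact e
        · rw [e4] at e; linarith
      rw [e1, e3]; apply le_of_eq; ring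
  · rw [h34_jP_eq_zero y vp pp a c pac hac', h34_jM_eq_zero y vm pm a c mac hac']
    obtain ⟨e1, e3⟩ := D hac'
    have e2 : pp b.1 = pm b.1 + 1 := by
      rcases ph1' with ⟨e, -⟩ | ⟨-, e⟩
      · rw [e1] at e; linarith
      · exact e
    have e4 : pp d.1 = pm d.1 + 1 := by
      rcases ph2' with ⟨e, -⟩ | ⟨-, e⟩
      · rw [e3] at e; linarith
      · exact e
    by_cases hbd' : lv y b = lv y d
    · rw [h34_jP_eq_tie y vp pp b d pbd hbd', h34_jM_eq_tie y vm pm b d mbd hbd', e2, e4]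
      apply le_of_eq; ring
    · obtain ⟨e2', -⟩ := R hbd'
      rw [e2'] at e2; linarith

end Labels

end Claimed.Agent.R282
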