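import Claimed.Agent.R282.S34.H.Defs

/-!
# Row 282, package H: the partner involution of a knot (M3), pure list combinatorics   (helper104)

If simultaneous switches have four distinct axes, the product of the swaps `(p.i p.j)` over the switches at time `τ`
is an involution which exchanges the two axes of every switch of the knot and fixes the unused axes.
-/

set_option autoImplicit false

namespace Claimed.Agent.R282

variable {n : ℕ}

/-- simultaneous switches have four distinct axes -/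
def AxDisj (p q : ℝ × RootD n) : Prop :=
  p.1 = q.1 → p.2.i ≠ q.2.i ∧ p.2.i ≠ q.2.j ∧ p.2.j ≠ q.2.i ∧ p.2.j ≠ q.2.j

/-- the product of the swaps of the knot at `τ` -/
noncomputable def knotPerm (τ : ℝ) : List (ℝ × RootD n) → Equiv.Perm (Fin n)
  | [] => 1
  | p :: l => by
      classical
      exact (if p.1 = τ then Equiv.swap p.2.i p.2.j else 1) * knotPerm τ l

theorem h34p_knotPerm_cons_eq (τ : ℝ) (p : ℝ × RootD n) (l : List (ℝ × RootD n)) (h : p.1 = τ)
    (i : Fin n) : knotPerm τ (p :: l) i = Equiv.swap p.2.i p.2.j (knotPerm τ l i) := by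
  simp [knotPerm, h]

theorem h34p_knotPerm_cons_ne (τ : ℝ) (p : ℝ × RootD n) (l : List (ℝ × RootD n)) (h : p.1 ≠ τ)
    (i : Fin n) : knotPerm τ (p :: l) i = knotPerm τ l i := by
  simp [knotPerm, h]

/-- unused axes are fixed -/
theorem h34p_fix (τ : ℝ) (l : List (ℝ × RootD n)) (i : Fin n)
    (h : ∀ p ∈ l, p.1 = τ → p.2.i ≠ i ∧ p.2.j ≠ i) : knotPerm τ l i = i := by
  induction l with
  | nil => rfl
  | cons p l ih =>
    have ih' := ih fun q hq => h q (List.mem_cons_of_mem _ hq)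
    by_cases hp : p.1 = τ
    · obtain ⟨h1, h2⟩ := h p List.mem_cons_self hp
      rw [h34p_knotPerm_cons_eq τ p l hp, ih']
      exact Equiv.swap_apply_of_ne_of_ne h1.symm h2.symm
    · rw [h34p_knotPerm_cons_ne τ p l hp, ih']

/-- the two axes of a switch of the knot are exchanged -/
theorem h34p_sw (τ : ℝ) (l : List (ℝ × RootD n)) (hd : l.Pairwise AxDisj) :
    ∀ p ∈ l, p.1 = τ → knotPerm τ l p.2.i = p.2.j ∧ knotPerm τ l p.2.j = p.2.i := by
  induction l with
  | nil => intro p hp; simp at hp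
  | cons q l ih =>
    rw [List.pairwise_cons] at hd
    obtain ⟨hq, hl⟩ := hd
    intro p hp hpτ
    rcases List.mem_cons.1 hp with rfl | hp'
    · have f1 : knotPerm τ l p.2.i = p.2.i := h34p_fix τ l _ fun r hr hrτ => by
        obtain ⟨a1, a2, -, -⟩ := hq r hr (hpτ.trans hrτ.symm)
        exact ⟨a1.symm, a2.symm⟩
      have f2 : knotPerm τ l p.2.j = p.2.j := h34p_fix τ l _ fun r hr hrτ => by
        obtain ⟨-, -, a3, a4⟩ := hq r hr (hpτ.trans hrτ.symm)
        exact ⟨a3.symm, a4.symm⟩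
      rw [h34p_knotPerm_cons_eq τ p l hpτ, h34p_knotPerm_cons_eq τ p l hpτ, f1, f2]
      exact ⟨Equiv.swap_apply_left _ _, Equiv.swap_apply_right _ _⟩
    · obtain ⟨i1, i2⟩ := ih hl p hp' hpτ
      by_cases hqτ : q.1 = τ
      · obtain ⟨a1, a2, a3, a4⟩ := hq p hp' (hqτ.trans hpτ.symm)
        rw [h34p_knotPerm_cons_eq τ q l hqτ, h34p_knotPerm_cons_eq τ q l hqτ, i1, i2]
        exact ⟨Equiv.swap_apply_of_ne_of_ne a2.symm a4.symm,
          Equiv.swap_apply_of_ne_of_ne a1.symm a3.symm⟩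
      · rw [h34p_knotPerm_cons_ne τ q l hqτ, h34p_knotPerm_cons_ne τ q l hqτ]
        exact ⟨i1, i2⟩

/-- every axis is unused or an end of a switch of the knot -/
theorem h34p_cases (τ : ℝ) (l : List (ℝ × RootD n)) (i : Fin n) :
    (∀ p ∈ l, p.1 = τ → p.2.i ≠ i ∧ p.2.j ≠ i) ∨ ∃ p ∈ l, p.1 = τ ∧ (p.2.i = i ∨ p.2.j = i) := by
  by_cases h : ∃ p ∈ l, p.1 = τ ∧ (p.2.i = i ∨ p.2.j = i)
  · exact Or.inr h
  · refine Or.inl fun p hp hpτ => ?_
    constructor
    · exact fun h1 => h ⟨p, hp, hpτ, Or.inl h1⟩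
    · exact fun h1 => h ⟨p, hp, hpτ, Or.inr h1⟩

/-- **(M3)** the partner involution. -/
theorem h34_partner_of_disjoint (l : List (ℝ × RootD n)) (τ : ℝ) (P : Finset (Fin n))
    (hcl : SwClosed l P) (hd : l.Pairwise AxDisj) :
    ∃ π : Equiv.Perm (Fin n), IsPartner l τ P π := by
  refine ⟨knotPerm τ l, ⟨fun i => ?_, fun i => ?_, fun p hp hpτ => (h34p_sw τ l hd p hp hpτ).1,
    fun i hi => h34p_fix τ l i hi⟩⟩
  · rcases h34p_cases τ l i with h | ⟨p, hp, hpτ, rfl | rfl⟩
    · rw [h34p_fix τ l i h, h34p_fix τ l i h]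
    · rw [(h34p_sw τ l hd p hp hpτ).1, (h34p_sw τ l hd p hp hpτ).2]
    · rw [(h34p_sw τ l hd p hp hpτ).2, (h34p_sw τ l hd p hp hpτ).1]
  · rcases h34p_cases τ l i with h | ⟨p, hp, hpτ, rfl | rfl⟩
    · rw [h34p_fix τ l i h]
    · rw [(h34p_sw τ l hd p hp hpτ).1]
      exact (hcl p hp).symm
    · rw [(h34p_sw τ l hd p hp hpτ).2]
      exact hcl p hp

end Claimed.Agent.R282
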