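import Claimed.Agent.R282.S34.H.Face
import Claimed.Agent.R282.S34.Lat.Exc

/-!
# Row 282, package H, leaf L-H-F5: Lemma 4.3 (plateaus)

`h34p_plateau` is the statement `h34_plateau` of `H/Knot.lean`.  Derivation: `H/Plan.lean` sec. 4, F10.
Prefix `h34p_`.
-/

set_option autoImplicit false

namespace Claimed.Agent.R282

variable {n : ℕ}

/-! ## the root `e_a - e_c` -/

/-- the root `e_a - e_c` of two labels on distinct axes -/
def h34pRoot (a c : Lab n) (h : a.1 ≠ c.1) : RootD n := ⟨a.1, c.1, h, a.2, !c.2⟩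

theorem h34p_sgnB_not (b : Bool) : sgnB (!b) = - sgnB b := by
  cases b <;> simp [sgnB]

theorem h34p_dot_root (x : Vec n) (a c : Lab n) (h : a.1 ≠ c.1) :
    dot x (h34pRoot a c h).vec = lv x a - lv x c := by
  rw [lat_dot_vec]
  simp only [h34pRoot, h34p_sgnB_not, lv]
  ring

/-! ## reflection of a suffix at a wall -/

theorem h34p_reflect_suffix (lam xi : Vec n) (θ : Shape n) (hθ : ∀ v ∈ θ, Dom v) (w0 : WD n)
    (l : List (ℝ × RootD n)) (hs : IsSchedule lam θ xi w0 l) (k : ℕ) (δ : RootD n)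
    (hc : dot (stAt θ ⟨w0.act, lam⟩ l k).c δ.vec = 0)
    (hf : ∀ x, InFace θ.sum x → dot ((stAt θ ⟨w0.act, lam⟩ l k).frame x) δ.vec = 0) :
    IsSchedule lam θ xi w0 (l.take k ++ mapSw (WB.ofRoot δ) (l.drop k)) := by
  have hFE : FrameEq θ (stAt θ ⟨w0.act, lam⟩ l k)
      ((stAt θ ⟨w0.act, lam⟩ l k).mapB (WB.ofRoot δ)) := by
    refine ⟨?_, fun x hx => ?_⟩
    · simp only [SwState.mapB, sc_ofRoot_act]
      exact (sc_refl_of_orth δ _ hc).symm
    · simp only [SwState.mapB, sc_ofRoot_act]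
      exact (sc_refl_of_orth δ _ (hf x hx)).symm
  have hsplit : l.take k ++ l.drop k = l := List.take_append_drop k l
  have hv : SwValid θ ⟨w0.act, lam⟩ (l.take k ++ l.drop k) := by rw [hsplit]; exact hs.valid
  have hv' := (sc_valid_append θ _ _ _).1 hv
  have hfst : (l.take k ++ mapSw (WB.ofRoot δ) (l.drop k)).map Prod.fst = l.map Prod.fst := by
    rw [List.map_append, sc_mapSw_fst, ← List.map_append, hsplit]
  refine ⟨?_, ?_, ?_, ?_⟩
  · intro p hp
    have h1 : p.1 ∈ l.map Prod.fst := hfst ▸ List.mem_map_of_mem hp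
    obtain ⟨q, hq, hqp⟩ := List.mem_map.1 h1
    rw [← hqp]
    exact hs.times_mem q hq
  · have h1 : (l.map Prod.fst).Pairwise (· ≤ ·) := List.pairwise_map.2 hs.sorted
    rw [← hfst] at h1
    exact List.pairwise_map.1 h1
  · refine (sc_valid_append θ _ _ _).2 ⟨hv'.1, ?_⟩
    exact (sc_frameEq_valid θ hθ _ _ hFE _).2 ((sc_equiv_valid θ _ _ _).2 hv'.2)
  · obtain ⟨w, hw⟩ := hs.endpoint
    obtain ⟨r, hr⟩ := sc_WD_refl δ
    obtain ⟨w', hw'⟩ := sc_WD_mul r w
    refine ⟨w', ?_⟩
    rw [← hsplit, sc_runSw_append] at hw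
    rw [sc_runSw_append]
    have h1 := sc_frameEq_pos θ hθ _ _
      (sc_frameEq_run θ hθ _ _ hFE (mapSw (WB.ofRoot δ) (l.drop k))) (θ.length : ℝ)
    have h2 : runSw θ ⟨w0.act, lam⟩ (l.take k) = stAt θ ⟨w0.act, lam⟩ l k := rfl
    rw [h2] at hw ⊢
    rw [h1, sc_equiv_run, sc_equiv_pos, sc_ofRoot_act, hw, hw', hr]

/-! ## the vector `ζ` -/

/-- the `j`-th root vector (total function) -/
def h34pB (l : List (ℝ × RootD n)) (j : ℕ) : Vec n := if h : j < l.length then l[j].2.vec else 0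

theorem h34p_B_eq (l : List (ℝ × RootD n)) (j : ℕ) (h : j < l.length) :
    h34pB l j = l[j].2.vec := dif_pos h

/-- outside of a closed set containing the edge, the root and its dual vector vanish -/
theorem h34p_off {l : List (ℝ × RootD n)} (hs : SwSpan l) {B : Finset (Fin n)} (hB : SwClosed l B)
    {j : ℕ} (hj : j < l.length) {x : Vec n} (hx : IsDual l j x) (hi : l[j].2.i ∈ B) (e : Fin n)
    (he : e ∉ B) : x e = 0 ∧ l[j].2.vec e = 0 := by
  constructor
  · by_contra h
    exact he (lat_dual_supp_subset hs hj hx hB hi ((lat_mem_vsupp x e).2 h))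
  · apply lat_vec_off
    · rintro rfl
      exact he hi
    · rintro rfl
      exact he ((hB _ (List.getElem_mem hj)).1 hi)

theorem h34p_term {l : List (ℝ × RootD n)} (hs : SwSpan l) {P : Finset (Fin n)}
    (hP : SwClosed l P) (a c : Lab n) (hac : a.1 ∈ P ↔ c.1 ∉ P) (hne : a.1 ≠ c.1) {j : ℕ}
    (hj : j < l.length) {x : Vec n} (hx : IsDual l j x) :
    dot (h34pRoot a c hne).vec l[j].2.vec * dot x (h34pRoot a c hne).vec
      = x a.1 * l[j].2.vec a.1 + x c.1 * l[j].2.vec c.1 := by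
  have hoff : (x a.1 = 0 ∧ l[j].2.vec a.1 = 0) ∨ (x c.1 = 0 ∧ l[j].2.vec c.1 = 0) := by
    by_cases hi : l[j].2.i ∈ P
    · by_cases ha : a.1 ∈ P
      · exact Or.inr (h34p_off hs hP hj hx hi _ (hac.1 ha))
      · exact Or.inl (h34p_off hs hP hj hx hi _ ha)
    · have hi' : l[j].2.i ∈ Pᶜ := Finset.mem_compl.2 hi
      by_cases ha : a.1 ∈ P
      · exact Or.inl (h34p_off hs (lat_closed_compl hP) hj hx hi' _ (by simpa using ha))
      · have hc : c.1 ∈ P := by
          by_contra hc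
          exact ha (hac.2 hc)
        exact Or.inr (h34p_off hs (lat_closed_compl hP) hj hx hi' _ (by simpa using hc))
  rw [dot_comm, h34p_dot_root, h34p_dot_root]
  simp only [lv]
  have h1 := lat_sgnB_sq a.2
  have h2 := lat_sgnB_sq c.2
  rcases hoff with ⟨e1, e2⟩ | ⟨e1, e2⟩
  · rw [e1, e2]
    linear_combination (l[j].2.vec c.1 * x c.1) * h2
  · rw [e1, e2]
    linear_combination (l[j].2.vec a.1 * x a.1) * h1

theorem h34p_sum {l : List (ℝ × RootD n)} (hB : SwBasis l) (xs : ℕ → Vec n)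
    (hxs : ∀ j, j < l.length → IsDual l j (xs j)) (e : Fin n) (k : ℕ) (hk : k ≤ l.length) :
    ∑ j ∈ Finset.Ico k l.length, xs j e * h34pB l j e = 1 - phase l k e := by
  have key : ∀ m, k ≤ m → m ≤ l.length →
      ∑ j ∈ Finset.Ico k m, xs j e * h34pB l j e = phase l m e - phase l k e := by
    intro m hm
    induction m, hm using Nat.le_induction with
    | base => intro _; simp
    | succ m hm ih =>
      intro hml
      have hlt : m < l.length := hml
      rw [Finset.sum_Ico_succ_top hm, ih hlt.le, lat_phase_succ hB hlt (hxs m hlt) e,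
        h34p_B_eq l m hlt]
      ring
  rw [key l.length hk le_rfl, lat_phase_length hB]

/-- `ζ = ∑_{j ≥ k} (δ·β_j) x_j` -/
noncomputable def h34pZeta (l : List (ℝ × RootD n)) (xs : ℕ → Vec n) (δ : Vec n) (k : ℕ) : Vec n :=
  ∑ j ∈ Finset.Ico k l.length, dot δ (h34pB l j) • xs j

theorem h34p_zeta_dot (l : List (ℝ × RootD n)) (xs : ℕ → Vec n) (δ : Vec n) (k : ℕ) (v : Vec n) :
    dot (h34pZeta l xs δ k) v
      = ∑ j ∈ Finset.Ico k l.length, dot δ (h34pB l j) * dot (xs j) v := by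
  unfold h34pZeta
  rw [dot_comm, lat_dot_sum]
  refine Finset.sum_congr rfl fun j _ => ?_
  rw [dot_smul_right, dot_comm v]

theorem h34p_zeta_root (l : List (ℝ × RootD n)) (xs : ℕ → Vec n)
    (hxs : ∀ j, j < l.length → IsDual l j (xs j)) (δ : Vec n) (k i : ℕ) (hi : i < l.length) :
    dot (h34pZeta l xs δ k) l[i].2.vec = if k ≤ i then dot δ l[i].2.vec else 0 := by
  rw [h34p_zeta_dot]
  have h1 : ∀ j ∈ Finset.Ico k l.length, dot δ (h34pB l j) * dot (xs j) l[i].2.vec
      = if i = j then dot δ (h34pB l j) else 0 := by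
    intro j hj
    rw [hxs j (Finset.mem_Ico.1 hj).2 i hi]
    split_ifs <;> simp
  rw [Finset.sum_congr rfl h1, Finset.sum_ite_eq]
  by_cases hk : k ≤ i
  · rw [if_pos (Finset.mem_Ico.2 ⟨hk, hi⟩), if_pos hk, h34p_B_eq l i hi]
  · rw [if_neg (fun h => hk (Finset.mem_Ico.1 h).1), if_neg hk]

/-- if the two phases add up to one, the reflected list does not span -/
theorem h34p_not_span {l : List (ℝ × RootD n)} (hB : SwBasis l) {P : Finset (Fin n)}
    (hP : SwClosed l P) (a c : Lab n) (hac : a.1 ∈ P ↔ c.1 ∉ P) (hne : a.1 ≠ c.1) (k : ℕ)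
    (hk : k ≤ l.length) (hsum : phase l k a.1 + phase l k c.1 = 1) :
    ¬ SwSpan (l.take k ++ mapSw (WB.ofRoot (h34pRoot a c hne)) (l.drop k)) := by
  intro hspan
  have hs := lat_basis_span hB
  have hdual : ∀ j : ℕ, ∃ x : Vec n, j < l.length → IsDual l j x := by
    intro j
    by_cases hj : j < l.length
    · obtain ⟨x, hx⟩ := lat_dual_exists hB.1 hj
      exact ⟨x, fun _ => hx⟩
    · exact ⟨0, fun h => absurd h hj⟩
  choose xs hxs using hdual
  set δ := h34pRoot a c hne with hδ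
  set ζ := h34pZeta l xs δ.vec k with hζ
  have hζδ : dot ζ δ.vec = 1 := by
    rw [hζ, h34p_zeta_dot]
    have h1 : ∀ j ∈ Finset.Ico k l.length, dot δ.vec (h34pB l j) * dot (xs j) δ.vec
        = xs j a.1 * h34pB l j a.1 + xs j c.1 * h34pB l j c.1 := by
      intro j hj
      have hj' := (Finset.mem_Ico.1 hj).2
      rw [h34p_B_eq l j hj']
      exact h34p_term hs hP a c hac hne hj' (hxs j hj')
    rw [Finset.sum_congr rfl h1, Finset.sum_add_distrib, h34p_sum hB xs hxs _ k hk,
      h34p_sum hB xs hxs _ k hk]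
    linarith
  have hz : ζ = 0 := by
    apply hspan
    intro p hp
    rcases List.mem_append.1 hp with hp | hp
    · obtain ⟨i, hi, rfl⟩ := List.mem_take_iff_getElem.1 hp
      have hi' : i < l.length := (lt_min_iff.1 hi).2
      rw [hζ, h34p_zeta_root l xs hxs _ k i hi', if_neg (by have := (lt_min_iff.1 hi).1; omega)]
    · obtain ⟨q, hq, rfl⟩ := List.mem_map.1 hp
      obtain ⟨i, hi, rfl⟩ := List.mem_drop_iff_getElem.1 hq
      simp only
      rw [sc_map_vec, sc_ofRoot_act]
      unfold refl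
      rw [dot_sub_right, dot_smul_right, hζδ, hζ, h34p_zeta_root l xs hxs _ k _ (by omega),
        if_pos (by omega), dot_comm δ.vec]
      ring
  rw [hz, dot_zero_left] at hζδ
  exact zero_ne_one hζδ

/-! ## fractional parts -/

theorem h34p_frac (lam xi : Vec n) (θ : Shape n) (w0 : WD n) (l : List (ℝ × RootD n))
    (P : Finset (Fin n)) (X : ExcCtx lam θ xi w0 l P) (k : ℕ) (hk : k ≤ l.length) (e : Fin n) :
    ∃ z : ℤ, (stAt θ ⟨w0.act, lam⟩ l k).c e = lam e + phase l k e + z := by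
  have hB : SwBasis l := lat_exc_basis X.exc
  induction k with
  | zero =>
    refine ⟨0, ?_⟩
    rw [lat_phase_zero]
    simp [stAt, runSw]
  | succ k ih =>
    have hlt : k < l.length := hk
    obtain ⟨z, hz⟩ := ih hlt.le
    rw [sc_stAt_succ θ _ l k hlt]
    simp only [SwState.step, Pi.sub_apply, Pi.smul_apply, smul_eq_mul]
    rw [← sc_coeffs_get θ _ l k hlt, hz]
    obtain ⟨b, hb⟩ := lat_vec_int l[k].2 e
    rcases lat_bridge_or_cyc hB hlt with hbr | hcy
    · obtain ⟨m, hm⟩ := lat_exc_coeff_bridge lam xi θ X.lbl w0 X.sched X.exc hlt hbr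
      obtain ⟨x, hx, h1⟩ := hbr
      rw [lat_phase_succ hB hlt hx e, hm, hb]
      rcases h1 e with h0 | h0
      · exact ⟨z - m * b, by rw [h0]; push_cast; ring⟩
      · rcases (abs_eq (by norm_num : (0 : ℝ) ≤ 1)).1 h0 with h0 | h0
        · exact ⟨z - m * b - b, by rw [h0]; push_cast; ring⟩
        · exact ⟨z - m * b + b, by rw [h0]; push_cast; ring⟩
    · obtain ⟨m, hm⟩ := lat_exc_coeff_cyc lam xi θ X.lbl w0 X.sched X.exc hlt hcy
      obtain ⟨x, hx, h2⟩ := hcy
      rw [lat_phase_succ hB hlt hx e, hm]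
      rcases h2 e with h0 | h0
      · have hends := lat_cyc_ends hlt hx h2
        have hv : l[k].2.vec e = 0 := by
          apply lat_vec_off
          · rintro rfl
            rw [hends.1] at h0
            have := lat_sgnB_ne_zero l[k].2.si
            apply this
            linarith
          · rintro rfl
            rw [hends.2] at h0
            have := lat_sgnB_ne_zero l[k].2.sj
            apply this
            linarith
        exact ⟨z, by rw [hv]; ring⟩
      · rw [hb]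
        rcases (abs_eq (by norm_num : (0 : ℝ) ≤ 1 / 2)).1 h0 with h0 | h0
        · exact ⟨z - m * b - b, by rw [h0]; push_cast; ring⟩
        · exact ⟨z - m * b, by rw [h0]; push_cast; ring⟩

/-- arithmetic at the end of the proof -/
theorem h34p_arith (f pa pc sa sc : ℝ) (z1 z2 : ℤ) (hf : f = 0 ∨ f = 1 / 2)
    (hpa : pa = 0 ∨ pa = 1 / 2 ∨ pa = 1) (hpc : pc = 0 ∨ pc = 1 / 2 ∨ pc = 1)
    (hsa : sa = 1 ∨ sa = -1) (hsc : sc = 1 ∨ sc = -1)
    (h : sa * (f + pa + z1) = sc * (f + pc + z2)) (hne : pa + pc ≠ 1) :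
    (pa = 0 ∧ pc = 0) ∨ (pa = 1 ∧ pc = 1) := by
  -- `2 (pa - pc)` is an even integer
  have key : ∃ z : ℤ, pa - pc = z := by
    rcases hsa with rfl | rfl <;> rcases hsc with rfl | rfl
    · exact ⟨z2 - z1, by push_cast; linarith⟩
    · rcases hf with rfl | rfl <;> rcases hpc with rfl | rfl | rfl
      · exact ⟨-z1 - z2, by push_cast; linarith⟩
      · exact ⟨-z1 - z2 - 1, by push_cast; linarith⟩
      · exact ⟨-z1 - z2 - 2, by push_cast; linarith⟩
      · exact ⟨-z1 - z2 - 1, by push_cast; linarith⟩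
      · exact ⟨-z1 - z2 - 2, by push_cast; linarith⟩
      · exact ⟨-z1 - z2 - 3, by push_cast; linarith⟩
    · rcases hf with rfl | rfl <;> rcases hpc with rfl | rfl | rfl
      · exact ⟨-z1 - z2, by push_cast; linarith⟩
      · exact ⟨-z1 - z2 - 1, by push_cast; linarith⟩
      · exact ⟨-z1 - z2 - 2, by push_cast; linarith⟩
      · exact ⟨-z1 - z2 - 1, by push_cast; linarith⟩
      · exact ⟨-z1 - z2 - 2, by push_cast; linarith⟩
      · exact ⟨-z1 - z2 - 3, by push_cast; linarith⟩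
    · exact ⟨z2 - z1, by push_cast; linarith⟩
  obtain ⟨z, hz⟩ := key
  have hhalf : ∀ w : ℤ, (w : ℝ) ≠ 1 / 2 ∧ (w : ℝ) ≠ -(1 / 2) := by
    intro w
    constructor <;> intro hw
    · have : (2 * w : ℤ) = 1 := by
        have : ((2 * w : ℤ) : ℝ) = 1 := by push_cast; linarith
        exact_mod_cast this
      omega
    · have : (2 * w : ℤ) = -1 := by
        have : ((2 * w : ℤ) : ℝ) = -1 := by push_cast; linarith
        exact_mod_cast this
      omega
  rcases hpa with rfl | rfl | rfl <;> rcases hpc with rfl | rfl | rfl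
  · exact Or.inl ⟨rfl, rfl⟩
  · exact absurd (by linarith) (hhalf z).2
  · exact absurd (by norm_num) hne
  · exact absurd (by linarith) (hhalf z).1
  · exact absurd (by norm_num) hne
  · exact absurd (by linarith) (hhalf z).2
  · exact absurd (by norm_num) hne
  · exact absurd (by linarith) (hhalf z).1
  · exact Or.inr ⟨rfl, rfl⟩

/-- **Lemma 4.3 (plateaus)**, for the state after `k` switches and any time `t` -/
theorem h34p_plateau (lam xi : Vec n) (θ : Shape n) (w0 : WD n) (l : List (ℝ × RootD n))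
    (P : Finset (Fin n)) (X : ExcCtx lam θ xi w0 l P) (k : ℕ) (hk : k ≤ n) (t : ℝ) (a c : Lab n)
    (hac : a.1 ∈ P ↔ c.1 ∉ P)
    (hy : lv ((stAt θ ⟨w0.act, lam⟩ l k).pos θ t) a = lv ((stAt θ ⟨w0.act, lam⟩ l k).pos θ t) c)
    (hv : lv ((stAt θ ⟨w0.act, lam⟩ l k).frame θ.sum) a
      = lv ((stAt θ ⟨w0.act, lam⟩ l k).frame θ.sum) c) :
    (phase l k a.1 = 0 ∧ phase l k c.1 = 0) ∨ (phase l k a.1 = 1 ∧ phase l k c.1 = 1) := by
  have hB : SwBasis l := lat_exc_basis X.exc
  have hkl : k ≤ l.length := by rw [X.exc.len]; exact hk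
  have hne : a.1 ≠ c.1 := by
    intro h
    rw [h] at hac
    by_cases hc : c.1 ∈ P
    · exact hac.1 hc hc
    · exact hc (hac.2 hc)
  have hfr : IsFrame (stAt θ ⟨w0.act, lam⟩ l k).frame :=
    sc_isFrame_stAt θ _ (sc_isFrame_act w0) l k
  have hface := h34_fs2 θ.sum _ hfr a c hne hv
  -- the translation part lies on the wall
  have hlin : ∀ (x y : Vec n) (b : Lab n), lv (x + y) b = lv x b + lv y b := by
    intro x y b
    simp only [lv, Pi.add_apply]
    ring
  have hc : lv (stAt θ ⟨w0.act, lam⟩ l k).c a = lv (stAt θ ⟨w0.act, lam⟩ l k).c c := by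
    simp only [SwState.pos] at hy
    rw [hlin, hlin, hface _ (sc_inFace_val θ X.gen.dom t)] at hy
    linarith
  -- the phases do not add up to one
  have hsum : phase l k a.1 + phase l k c.1 ≠ 1 := by
    intro hsum
    have hs' := h34p_reflect_suffix lam xi θ X.gen.dom w0 l X.sched k (h34pRoot a c hne)
      (by rw [h34p_dot_root, hc, sub_self])
      (fun x hx => by rw [h34p_dot_root, hface x hx, sub_self])
    have hlen : (l.take k ++ mapSw (WB.ofRoot (h34pRoot a c hne)) (l.drop k)).length = n := by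
      simp only [List.length_append, List.length_take, mapSw, List.length_map, List.length_drop]
      rw [X.exc.len]
      omega
    obtain ⟨P', hP'⟩ := X.hard w0 _ hs' hlen.le
    exact h34p_not_span hB X.exc.connP.2.1 a c hac hne k hkl hsum
      (lat_basis_span (lat_exc_basis hP'))
  -- fractional parts
  obtain ⟨z1, hz1⟩ := h34p_frac lam xi θ w0 l P X k hkl a.1
  obtain ⟨z2, hz2⟩ := h34p_frac lam xi θ w0 l P X k hkl c.1
  simp only [lv] at hc
  rw [hz1, hz2] at hc
  rcases X.lbl.wl with hw | hw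
  · obtain ⟨u1, hu1⟩ := hw a.1
    obtain ⟨u2, hu2⟩ := hw c.1
    refine h34p_arith 0 _ _ (sgnB a.2) (sgnB c.2) (u1 + z1) (u2 + z2) (Or.inl rfl)
      (lat_phase_mem hB k a.1) (lat_phase_mem hB k c.1) (lat_sgnB_cases _) (lat_sgnB_cases _) ?_ hsum
    rw [hu1, hu2] at hc
    push_cast
    linarith
  · obtain ⟨u1, hu1⟩ := hw a.1
    obtain ⟨u2, hu2⟩ := hw c.1
    refine h34p_arith (1 / 2) _ _ (sgnB a.2) (sgnB c.2) (u1 + z1) (u2 + z2) (Or.inr rfl)
      (lat_phase_mem hB k a.1) (lat_phase_mem hB k c.1) (lat_sgnB_cases _) (lat_sgnB_cases _) ?_ hsum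
    rw [hu1, hu2] at hc
    push_cast
    linarith

end Claimed.Agent.R282
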